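import Vale.Agent.P158.NB.CycGeom

/-!
# P158: density in large boxes, and the ball bound for the budget

(a) For an event `A`, with high probability a proportion `P(A) - δ` of the translates in a large
box see `A`. (b) If the cycle encloses the box of radius `4 L`, every cell whose geodesics meet
the edges of the box of radius `2 L + 2` has geodesics through `L` edges of the box of radius `4 L`.
-/

namespace Vale.Agent.P158.NB.Ball

open Vale.Agent.P158 Vale.Agent.P158.NB MeasureTheory Filter Topology
open scoped ENNReal symmDiff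

/-! ## (b) -/

/-- The box as a finite set. -/
noncomputable def boxFin (z : V) (n : ℕ) : Finset V :=
  Finset.Icc (z.1 - n) (z.1 + n) ×ˢ Finset.Icc (z.2 - n) (z.2 + n)

lemma mem_boxFin {z v : V} {n : ℕ} : v ∈ boxFin z n ↔ v ∈ box z n := by
  simp only [boxFin, Finset.mem_product, Finset.mem_Icc, box, Set.mem_ofPred_eq, abs_le]
  omega

lemma coe_boxFin (z : V) (n : ℕ) : (boxFin z n : Set V) = box z n :=
  Set.ext fun _ => mem_boxFin

lemma card_boxFin (z : V) (n : ℕ) : (boxFin z n).card = (2 * n + 1) ^ 2 := by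
  rw [boxFin, Finset.card_product, Int.card_Icc, Int.card_Icc,
    show z.1 + (n : ℤ) + 1 - (z.1 - n) = ((2 * n + 1 : ℕ) : ℤ) by push_cast; ring,
    show z.2 + (n : ℤ) + 1 - (z.2 - n) = ((2 * n + 1 : ℕ) : ℤ) by push_cast; ring,
    Int.toNat_natCast, sq]

open Classical in
/-- The lattice edges with both ends in the box. -/
noncomputable def boxEdges (z : V) (n : ℕ) : Finset (Sym2 V) :=
  (boxFin z n).sym2.filter IsEdge

lemma mem_boxEdges {z : V} {n : ℕ} {e : Sym2 V} :
    e ∈ boxEdges z n ↔ IsEdge e ∧ e ∈ edgesIn (box z n) := by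
  simp [boxEdges, Finset.mem_sym2_iff, edgesIn, mem_boxFin, and_comm]

lemma box_mono {z : V} {m n : ℕ} (h : m ≤ n) : box z m ⊆ box z n := by
  intro v hv
  simp only [box, Set.mem_ofPred_eq, abs_le] at *
  omega

lemma box_step {z a b : V} {n : ℕ} (h : Adj a b) (ha : a ∈ box z n) : b ∈ box z (n + 1) := by
  have := adj_cases h
  simp only [box, Set.mem_ofPred_eq, abs_le] at *
  omega

open Classical in
/-- A meeting cell meets at least `L` single edges of the large box. -/
lemma card_le_of_meets (C : Cyc) (t : Conf) {z : V} {L : ℕ} (hL : 1 ≤ L)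
    (hC : C.Encloses z (4 * L)) {i j : ℕ}
    (h : C.Meets t (boxEdges z (2 * L + 2) : Set (Sym2 V)) i j) :
    L ≤ ((boxEdges z (4 * L)).filter fun e => C.Meets t {e} i j).card := by
  obtain ⟨f, hf, v, M, g, k, hk, hkf⟩ := h
  obtain ⟨-, hin⟩ := mem_boxEdges.1 hf
  subst hkf
  have hk1 : v (k + 1) ∈ box z (2 * L + 2) := hin _ (Sym2.mem_mk_right _ _)
  have hk0 : v k ∈ box z (2 * L + 2) := hin _ (Sym2.mem_mk_left _ _)
  have hend : v M ∉ box z (4 * L) := by
    rw [g.last]; exact hC.1 _ (Nat.mod_lt _ C.three_pos)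
  have inside : ∀ r : ℕ, 2 * L + 2 + r ≤ 4 * L →
      k + 1 + r ≤ M ∧ v (k + 1 + r) ∈ box z (2 * L + 2 + r) := by
    intro r
    induction r with
    | zero => exact fun _ => ⟨hk, hk1⟩
    | succ r ih =>
      intro hr
      obtain ⟨h1, h2⟩ := ih (by omega)
      have hlt : k + 1 + r < M := by
        refine lt_of_le_of_ne h1 fun e => hend ?_
        rw [← e]
        exact box_mono (by omega) h2
      exact ⟨hlt, box_step (g.path _ hlt) h2⟩
  have hinj : Set.InjOn (fun r => s(v (k + r), v (k + r + 1))) (Finset.range L : Set ℕ) := by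
    intro a ha b hb e
    simp only [Finset.coe_range, Set.mem_Iio] at ha hb
    have hle : ∀ c < L, k + c + 1 ≤ M := by
      intro c hc
      rcases Nat.eq_zero_or_pos c with rfl | hc0
      · exact hk
      · rcases lt_or_ge L 2 with h2 | h2
        · omega
        · have := (inside c (by omega)).1
          omega
    have := hle a ha
    have := hle b hb
    have inj := g.inj
    rcases Sym2.eq_iff.1 e with ⟨e1, -⟩ | ⟨e1, e2⟩
    · have := inj (show k + a ≤ M by omega) (show k + b ≤ M by omega) e1
      omega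
    · have h1 := inj (show k + a ≤ M by omega) (show k + b + 1 ≤ M by omega) e1
      have h2 := inj (show k + a + 1 ≤ M by omega) (show k + b ≤ M by omega) e2
      omega
  have hsub : (Finset.range L).image (fun r => s(v (k + r), v (k + r + 1))) ⊆
      (boxEdges z (4 * L)).filter fun e => C.Meets t {e} i j := by
    intro e he
    obtain ⟨r, hr, rfl⟩ := Finset.mem_image.1 he
    rw [Finset.mem_range] at hr
    have key : k + r < M ∧ v (k + r) ∈ box z (4 * L) ∧ v (k + r + 1) ∈ box z (4 * L) := by
      rcases Nat.eq_zero_or_pos r with rfl | hr0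
      · exact ⟨hk, box_mono (by omega) hk0, box_mono (by omega) hk1⟩
      · obtain ⟨a1, a2⟩ := inside r (by omega)
        obtain ⟨-, b2⟩ := inside (r - 1) (by omega)
        rw [show k + 1 + (r - 1) = k + r by omega] at b2
        rw [show k + 1 + r = k + r + 1 by omega] at a1 a2
        exact ⟨a1, box_mono (by omega) b2, box_mono (by omega) a2⟩
    refine Finset.mem_filter.2 ⟨mem_boxEdges.2 ⟨⟨_, _, g.path _ key.1, rfl⟩, ?_⟩, ?_⟩
    · intro x hx
      rcases Sym2.mem_iff.1 hx with rfl | rfl
      · exact key.2.1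
      · exact key.2.2
    · exact ⟨_, rfl, v, M, g, k + r, key.1, rfl⟩
  have := Finset.card_le_card hsub
  rwa [Finset.card_image_of_injOn hinj, Finset.card_range] at this

open Classical in
/-- (b) The budget of a box is spread over the edges of the larger box. -/
lemma mass_le_sum (C : Cyc) (t : Conf) {z : V} {L : ℕ} (hL : 1 ≤ L)
    (hC : C.Encloses z (4 * L))
    (hpos : ∀ p ∈ C.cells, 0 ≤ C.cellD t ∅ p.1 p.2) :
    (L : ℝ) * C.mass t (boxEdges z (2 * L + 2) : Set (Sym2 V)) ≤
      ∑ e ∈ boxEdges z (4 * L), C.mass t {e} := by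
  simp only [Cyc.mass, Finset.sum_filter]
  rw [Finset.mul_sum, Finset.sum_comm]
  refine Finset.sum_le_sum fun p hp => ?_
  rw [← Finset.sum_filter, Finset.sum_const, nsmul_eq_mul]
  split_ifs with h
  · refine mul_le_mul_of_nonneg_right ?_ (hpos p hp)
    have key : ∀ i j, C.Meets t (boxEdges z (2 * L + 2) : Set (Sym2 V)) i j →
        (∀ e, C.Meets t {e} i j → C.CellMeets t {e} p.1 p.2) →
        L ≤ ((boxEdges z (4 * L)).filter fun e => C.CellMeets t {e} p.1 p.2).card :=
      fun i j hm hi => (card_le_of_meets C t hL hC hm).trans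
        (Finset.card_le_card fun e he => by
          rw [Finset.mem_filter] at he ⊢
          exact ⟨he.1, hi e he.2⟩)
    refine Nat.cast_le.2 ?_
    rcases h with h | h | h | h
    · exact key _ _ h fun e he => Or.inl he
    · exact key _ _ h fun e he => Or.inr (Or.inl he)
    · exact key _ _ h fun e he => Or.inr (Or.inr (Or.inl he))
    · exact key _ _ h fun e he => Or.inr (Or.inr (Or.inr he))
  · rw [mul_zero]
    exact mul_nonneg (Nat.cast_nonneg _) (hpos p hp)

/-! ## (a) -/

variable (G : Measure ℝ) [IsProbabilityMeasure G]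

/-- Translation as a bijection of edges. -/
def trEquiv (z : V) : Sym2 V ≃ Sym2 V where
  toFun := trE z
  invFun := trE (-z)
  left_inv e := by simp [trE_trE]
  right_inv e := by simp [trE_trE]

lemma measurable_shiftW (z : V) : Measurable (shiftW z) :=
  measurable_pi_lambda _ fun _ => measurable_pi_apply _

lemma env_shift (z : V) : (env G).map (shiftW z) = env G := by
  have h := Measure.infinitePi_map_piCongrLeft (fun _ : Sym2 V => G) (trEquiv z).symm
  have e : (MeasurableEquiv.piCongrLeft (fun _ : Sym2 V => ℝ) (trEquiv z).symm :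
      Conf → Conf) = shiftW z := by
    funext t e
    obtain ⟨e, rfl⟩ := (trEquiv z).symm.surjective e
    rw [MeasurableEquiv.coe_piCongrLeft, Equiv.piCongrLeft_apply_apply]
    simp [shiftW_apply, trEquiv, trE_trE]
  rw [e] at h
  exact h

lemma env_shift_preimage (z : V) {A : Set Conf} (hA : MeasurableSet A) :
    env G (shiftW z ⁻¹' A) = env G A := by
  rw [← Measure.map_apply (measurable_shiftW z) hA, env_shift]

/-- A cylinder seen from `z` depends on the translated edges. -/
lemma measurableSet_shift {S : Finset (Sym2 V)} {B : Set Conf} (hB : MeasurableSet[mS S] B)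
    (z : V) [DecidableEq (Sym2 V)] :
    MeasurableSet[mS (S.image (trE z))] (shiftW z ⁻¹' B) := by
  obtain ⟨B', hB', rfl⟩ := hB
  refine ⟨(fun (u : (S.image (trE z) : Finset _) → ℝ) (e : S) =>
    u ⟨trE z e.1, Finset.mem_image_of_mem _ e.2⟩) ⁻¹' B', ?_, rfl⟩
  exact (measurable_pi_lambda _ fun e => measurable_pi_apply _) hB'

/-- Shifts relating two members of `S` form a finite set. -/
lemma overlap_finite (S : Finset (Sym2 V)) :
    {d : V | ∃ e ∈ S, trE d e ∈ S}.Finite := by
  have : {d : V | ∃ e ∈ S, trE d e ∈ S} ⊆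
      ⋃ e ∈ S, ⋃ e' ∈ S, {d : V | trE d e = e'} := by
    rintro d ⟨e, he, he'⟩
    simp only [Set.mem_iUnion]
    exact ⟨e, he, _, he', rfl⟩
  refine ((S.finite_toSet.biUnion fun e _ => S.finite_toSet.biUnion fun e' _ => ?_)).subset this
  induction e using Sym2.ind with
  | _ a b =>
    induction e' using Sym2.ind with
    | _ c d =>
      refine ((Set.finite_singleton (d - a)).insert (c - a)).subset ?_
      intro x hx
      simp only [Set.mem_ofPred_eq, trE_mk, Sym2.eq_iff] at hx
      rcases hx with ⟨h1, -⟩ | ⟨h1, -⟩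
      · exact Or.inl (by rw [← h1]; simp)
      · exact Or.inr (by rw [← h1]; simp)

open Classical in
/-- Variance of the count of a cylinder over a finite set of translates. -/
lemma variance_le {S : Finset (Sym2 V)} {B : Set Conf} (hB : MeasurableSet[mS S] B) :
    ∃ D : ℕ, ∀ Z : Finset V,
      ∫ t, ((∑ z ∈ Z, (shiftW z ⁻¹' B).indicator (fun _ => (1 : ℝ)) t) -
        (Z.card : ℝ) * (env G).real B) ^ 2 ∂env G ≤ (Z.card : ℝ) * D := by
  have hBm : MeasurableSet B := mS_le S _ hB
  obtain ⟨Df, hDf⟩ := (overlap_finite S).exists_finset_coe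
  refine ⟨Df.card, fun Z => ?_⟩
  set p := (env G).real B with hp
  have hp0 : 0 ≤ p := measureReal_nonneg
  have hp1 : p ≤ 1 := measureReal_le_one
  set X : V → Conf → ℝ := fun z => (shiftW z ⁻¹' B).indicator (fun _ => (1 : ℝ)) with hX
  have hm : ∀ z, MeasurableSet (shiftW z ⁻¹' B) := fun z => measurable_shiftW z hBm
  have hpz : ∀ z, (env G).real (shiftW z ⁻¹' B) = p := fun z => by
    rw [hp, measureReal_def, measureReal_def, env_shift_preimage G z hBm]
  have hint : ∀ z, Integrable (X z) (env G) := fun z => (integrable_const 1).indicator (hm z)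
  have hXX : ∀ z w, (fun t => X z t * X w t) =
      (shiftW z ⁻¹' B ∩ shiftW w ⁻¹' B).indicator (fun _ => (1 : ℝ)) := fun z w => by
    funext t
    simp only [hX, Set.indicator, Set.mem_inter_iff]
    split_ifs <;> simp_all
  have hcov : ∀ z w, Integrable (fun t => (X z t - p) * (X w t - p)) (env G) ∧
      ∫ t, (X z t - p) * (X w t - p) ∂env G =
        (env G).real (shiftW z ⁻¹' B ∩ shiftW w ⁻¹' B) - p ^ 2 := by
    intro z w
    have e : (fun t => (X z t - p) * (X w t - p)) =
        fun t => X z t * X w t - (p * X z t + p * X w t - p ^ 2) := by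
      funext t; ring
    have i1 : Integrable (fun t => X z t * X w t) (env G) := by
      rw [hXX]; exact (integrable_const 1).indicator ((hm z).inter (hm w))
    have i2 : Integrable (fun t => p * X z t + p * X w t - p ^ 2) (env G) :=
      (((hint z).const_mul p).add ((hint w).const_mul p)).sub (integrable_const _)
    have iz : Integrable (fun t => p * X z t) (env G) := (hint z).const_mul p
    have iw : Integrable (fun t => p * X w t) (env G) := (hint w).const_mul p
    have izw : Integrable (fun t => p * X z t + p * X w t) (env G) := iz.add iw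
    refine ⟨e ▸ i1.sub i2, ?_⟩
    rw [e, integral_sub i1 i2, hXX, integral_indicator_const (1 : ℝ) ((hm z).inter (hm w)),
      integral_sub izw (integrable_const _), integral_add iz iw, integral_const_mul,
      integral_const_mul, integral_indicator_const (1 : ℝ) (hm z),
      integral_indicator_const (1 : ℝ) (hm w), hpz, hpz]
    simp; ring
  have hexp : (fun t => ((∑ z ∈ Z, X z t) - (Z.card : ℝ) * p) ^ 2) =
      fun t => ∑ z ∈ Z, ∑ w ∈ Z, (X z t - p) * (X w t - p) := by
    funext t
    rw [← Finset.sum_mul_sum, Finset.sum_sub_distrib, Finset.sum_const, nsmul_eq_mul, sq]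
  rw [hexp, integral_finsetSum _ fun z _ => integrable_finsetSum _ fun w _ => (hcov z w).1]
  rw [← nsmul_eq_mul, ← Finset.sum_const]
  refine Finset.sum_le_sum fun z _ => ?_
  rw [integral_finsetSum _ fun w _ => (hcov z w).1]
  calc ∑ w ∈ Z, ∫ t, (X z t - p) * (X w t - p) ∂env G
      ≤ ∑ w ∈ Z, if w - z ∈ Df then (1 : ℝ) else 0 := by
        refine Finset.sum_le_sum fun w _ => ?_
        rw [(hcov z w).2]
        split_ifs with h
        · have : (env G).real (shiftW z ⁻¹' B ∩ shiftW w ⁻¹' B) ≤ 1 := measureReal_le_one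
          nlinarith
        · have hd : Disjoint (S.image (trE z)) (S.image (trE w)) := by
            rw [Finset.disjoint_left]
            intro e he he'
            obtain ⟨a, ha, rfl⟩ := Finset.mem_image.1 he
            obtain ⟨b, hb, hba⟩ := Finset.mem_image.1 he'
            apply h
            rw [← Finset.mem_coe, hDf]
            refine ⟨b, hb, ?_⟩
            have : trE (w - z) b = a := by
              apply trE_injective z
              first
                | rw [trE_trE, sub_add_cancel, hba]
                | rw [trE_trE, add_sub_cancel, hba]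
            rwa [this]
          rw [measureReal_def, env_inter G hd (measurableSet_shift hB z) (measurableSet_shift hB w),
            ENNReal.toReal_mul, ← measureReal_def, ← measureReal_def, hpz, hpz]
          linarith [sq p]
    _ = ((Z.filter fun w => w - z ∈ Df).card : ℝ) := by simp [Finset.sum_boole]
    _ ≤ (Df.card : ℝ) := by
        have h := Finset.card_le_card_of_injOn (s := Z.filter fun w => w - z ∈ Df) (t := Df)
          (fun w => w - z) (fun w hw => (Finset.mem_filter.1 hw).2)
          (fun a _ b _ h => sub_left_injective h)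
        exact_mod_cast h

open Classical in
/-- (a) Density in large boxes, without an ergodic theorem. -/
lemma density {A : Set Conf} (hA : MeasurableSet A) {δ : ℝ} (hδ : 0 < δ) :
    Tendsto (fun L : ℕ => env G {t | (((boxFin 0 L).filter fun z => shiftW z t ∈ A).card : ℝ) <
      ((env G).real A - δ) * (boxFin 0 L).card}) atTop (𝓝 0) := by
  refine ENNReal.tendsto_nhds_zero.2 fun ε hε => ?_
  obtain ⟨e0, he0, he0'⟩ : ∃ e0 : ℝ, 0 < e0 ∧ ENNReal.ofReal e0 ≤ ε := by
    rcases eq_or_ne ε ⊤ with rfl | h
    · exact ⟨1, one_pos, le_top⟩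
    · exact ⟨ε.toReal, ENNReal.toReal_pos hε.ne' h, (ENNReal.ofReal_toReal h).le⟩
  set η : ℝ := min (δ / 4) (δ * e0 / 8) with hη
  have hη0 : 0 < η := lt_min (by positivity) (by positivity)
  have dense := Measure.MeasureDense.of_generateFrom_isSetAlgebra_finite (μ := env G)
    (isSetAlgebra_measurableCylinders (α := fun _ : Sym2 V => ℝ))
    generateFrom_measurableCylinders.symm
  obtain ⟨B, hBc, hAB⟩ := dense.approx A hA (measure_ne_top _ _) η hη0
  obtain ⟨S, B', hB', hBS⟩ := (mem_measurableCylinders B).1 hBc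
  have hB : MeasurableSet[mS S] B := ⟨B', hB', hBS.symm⟩
  have hBm : MeasurableSet B := mS_le S _ hB
  obtain ⟨D, hD⟩ := variance_le G hB
  set p := (env G).real B with hp
  have hpA : (env G).real A ≤ p + η := by
    have h1 : A ⊆ B ∪ A ∆ B := fun x hx => by
      by_cases hxB : x ∈ B
      · exact Or.inl hxB
      · exact Or.inr (Or.inl ⟨hx, hxB⟩)
    refine (measureReal_mono h1).trans ((measureReal_union_le _ _).trans ?_)
    have : (env G).real (A ∆ B) ≤ η := ENNReal.toReal_le_of_le_ofReal hη0.le hAB.le
    linarith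
  have hlim : Tendsto (fun L : ℕ => ((boxFin 0 L).card : ℝ)) atTop atTop := by
    refine tendsto_atTop_mono (fun L => ?_) tendsto_natCast_atTop_atTop
    rw [card_boxFin]
    exact_mod_cast (show L ≤ (2 * L + 1) ^ 2 by nlinarith)
  filter_upwards [hlim.eventually_ge_atTop (32 * (D : ℝ) / (δ ^ 2 * e0) + 1)] with L hL
  set Z := boxFin 0 L with hZ
  set N : ℝ := (Z.card : ℝ) with hN
  have hN0 : 0 < N := lt_of_lt_of_le (by positivity) hL
  set X : Conf → ℝ := fun t => ∑ z ∈ Z, (shiftW z ⁻¹' B).indicator (fun _ => (1 : ℝ)) t with hX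
  set Y : Conf → ℝ := fun t => ∑ z ∈ Z, (shiftW z ⁻¹' (B \ A)).indicator (fun _ => (1 : ℝ)) t
    with hY
  have hmB : ∀ z, MeasurableSet (shiftW z ⁻¹' B) := fun z => measurable_shiftW z hBm
  have hmY : ∀ z, MeasurableSet (shiftW z ⁻¹' (B \ A)) := fun z =>
    measurable_shiftW z (hBm.diff hA)
  have hcount : ∀ t, X t - Y t ≤ ((Z.filter fun z => shiftW z t ∈ A).card : ℝ) := by
    intro t
    have e : ((Z.filter fun z => shiftW z t ∈ A).card : ℝ) =
        ∑ z ∈ Z, if shiftW z t ∈ A then (1 : ℝ) else 0 := by
      simp [Finset.sum_boole]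
    rw [e, hX, hY, ← Finset.sum_sub_distrib]
    refine Finset.sum_le_sum fun z _ => ?_
    simp only [Set.indicator, Set.mem_preimage, Set.mem_sdiff]
    split_ifs <;> norm_num <;> simp_all
  -- the bad event is one of two rare events
  have hsub : {t | ((Z.filter fun z => shiftW z t ∈ A).card : ℝ) < ((env G).real A - δ) * N} ⊆
      {t | (δ / 4 * N) ^ 2 ≤ (X t - N * p) ^ 2} ∪ {t | δ / 2 * N ≤ Y t} := by
    intro t ht
    by_contra hc
    simp only [Set.mem_union, Set.mem_ofPred_eq, not_or, not_le] at hc ht
    have h1 := hcount t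
    have h2 : η * N ≤ δ / 4 * N := mul_le_mul_of_nonneg_right (min_le_left _ _) hN0.le
    have h3 : (env G).real A * N ≤ (p + η) * N := mul_le_mul_of_nonneg_right hpA hN0.le
    have h4 := abs_lt_of_sq_lt_sq hc.1 (by positivity)
    rw [abs_lt] at h4
    linarith
  have intY : ∫ t, Y t ∂env G ≤ η * N := by
    rw [hY, integral_finsetSum _ fun z _ => (integrable_const (1 : ℝ)).indicator (hmY z)]
    have : ∀ z ∈ Z, ∫ t, (shiftW z ⁻¹' (B \ A)).indicator (fun _ => (1 : ℝ)) t ∂env G ≤ η := by
      intro z _
      rw [integral_indicator_const (1 : ℝ) (hmY z), smul_eq_mul, mul_one, measureReal_def,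
        env_shift_preimage G z (hBm.diff hA)]
      exact ENNReal.toReal_le_of_le_ofReal hη0.le ((measure_mono (fun x hx => Or.inr hx)).trans hAB.le)
    refine (Finset.sum_le_sum this).trans (le_of_eq ?_)
    simp [hN, mul_comm]
  have iY : Integrable Y (env G) :=
    integrable_finsetSum _ fun z _ => (integrable_const (1 : ℝ)).indicator (hmY z)
  have iX : Integrable (fun t => (X t - N * p) ^ 2) (env G) := by
    have hmX : Measurable X := Finset.measurable_sum _ fun z _ => measurable_const.indicator (hmB z)
    refine Integrable.of_bound ((hmX.sub measurable_const).pow_const 2).aestronglyMeasurable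
      ((2 * N) ^ 2) (Eventually.of_forall fun t => ?_)
    rw [Real.norm_of_nonneg (sq_nonneg _)]
    have a1 : 0 ≤ X t := Finset.sum_nonneg fun z _ => Set.indicator_nonneg (by simp) _
    have a2 : X t ≤ N := by
      refine (Finset.sum_le_card_nsmul _ _ 1 fun z _ => ?_).trans (by simp [hN])
      exact Set.indicator_le_self' (by simp) _
    have a3 : 0 ≤ p := measureReal_nonneg
    have a4 : p ≤ 1 := measureReal_le_one
    have a5 : N * p ≤ N := mul_le_of_le_one_right hN0.le a4
    have a6 : 0 ≤ N * p := by positivity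
    exact sq_le_sq' (by linarith) (by linarith)
  have b1 : (env G).real {t | (δ / 4 * N) ^ 2 ≤ (X t - N * p) ^ 2} ≤ e0 / 2 := by
    have h := mul_meas_ge_le_integral_of_nonneg (μ := env G)
      (Eventually.of_forall fun t => sq_nonneg (X t - N * p)) iX ((δ / 4 * N) ^ 2)
    have h' := h.trans (hD Z)
    have key : (D : ℝ) * 32 ≤ N * (δ ^ 2 * e0) := by
      have : 32 * (D : ℝ) / (δ ^ 2 * e0) ≤ N := by linarith
      rw [div_le_iff₀ (by positivity)] at this
      linarith
    have hpos : 0 < (δ / 4 * N) ^ 2 := by positivity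
    refine le_of_mul_le_mul_left (h'.trans ?_) hpos
    have := mul_le_mul_of_nonneg_left key hN0.le
    nlinarith
  have b2 : (env G).real {t | δ / 2 * N ≤ Y t} ≤ e0 / 2 := by
    have h := mul_meas_ge_le_integral_of_nonneg (μ := env G)
      (Eventually.of_forall fun t => Finset.sum_nonneg fun z _ =>
        Set.indicator_nonneg (by simp) _) iY (δ / 2 * N)
    refine le_of_mul_le_mul_left ((h.trans intY).trans ?_) (by positivity : 0 < δ / 2 * N)
    have h2 : η * N ≤ δ * e0 / 8 * N := mul_le_mul_of_nonneg_right (min_le_right _ _) hN0.le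
    have : 0 ≤ δ * e0 * N := by positivity
    linarith
  refine (measure_mono hsub).trans ?_
  refine le_trans ?_ he0'
  rw [← ofReal_measureReal]
  refine ENNReal.ofReal_le_ofReal ((measureReal_union_le _ _).trans ?_)
  linarith

open Classical in
/-- (a) in terms of `box`. -/
lemma density_box {A : Set Conf} (hA : MeasurableSet A) {δ : ℝ} (hδ : 0 < δ) :
    Tendsto (fun L : ℕ => env G {t | ({z | z ∈ box 0 L ∧ shiftW z t ∈ A}.ncard : ℝ) <
      ((env G).real A - δ) * (box 0 L).ncard}) atTop (𝓝 0) := by
  refine (density G hA hδ).congr fun L => ?_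
  congr 1
  ext t
  simp only [Set.mem_ofPred_eq]
  rw [show {z | z ∈ box 0 L ∧ shiftW z t ∈ A} =
      ((boxFin 0 L).filter fun z => shiftW z t ∈ A : Set V) by
        ext z; simp [mem_boxFin],
    ← coe_boxFin, Set.ncard_coe_finset, Set.ncard_coe_finset]

end Vale.Agent.P158.NB.Ball
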