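import Vale.Agent.P158.NB.Cycle

/-!
# P158: the budget of a random domain

(a) geodesics between marks are short when the cycle is cheap, (b) the expected total mass over
edges is quadratic in the radius, (c) the cycle quantities are measurable.
-/

namespace Vale.Agent.P158.NB

open Vale.Agent.P158 MeasureTheory
open scoped ENNReal

/-! ## Short geodesics between marks -/

namespace Cyc

/-- The same cycle with indices read modulo its length. -/
def norm (C : Cyc) : Cyc where
  c k := C.c (k % C.m)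
  m := C.m
  three := C.three
  path k hk := by
    show Adj (C.c (k % C.m)) (C.c ((k + 1) % C.m))
    rw [C.c_mod hk.le, C.c_mod (show k + 1 ≤ C.m from hk)]
    exact C.path k hk
  closed := by simp
  inj a ha b hb h := by
    simp only [Set.mem_Iio] at ha hb
    simp only [Nat.mod_eq_of_lt ha, Nat.mod_eq_of_lt hb] at h
    exact C.inj (Set.mem_Iio.2 ha) (Set.mem_Iio.2 hb) h

lemma norm_m (C : Cyc) : C.norm.m = C.m := rfl

lemma norm_c (C : Cyc) (k : ℕ) : C.norm.c k = C.c (k % C.m) := rfl

lemma norm_col (C : Cyc) : col C.norm.c C.norm.m = col C.c C.m := by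
  funext f
  refine Finset.sum_congr rfl fun k hk => ?_
  have hk : k < C.m := Finset.mem_range.1 hk
  rw [norm_c, norm_c, C.c_mod hk.le, C.c_mod (show k + 1 ≤ C.m from hk)]

lemma norm_edges (C : Cyc) : C.norm.edges = C.edges := by
  simp only [edges, inner, norm_col]

lemma norm_cost (C : Cyc) (t : Conf) : cost t C.norm.c C.norm.m = cost t C.c C.m :=
  cost_congr fun _ hk => C.c_mod hk

lemma norm_mass (C : Cyc) (t : Conf) (F : Set (Sym2 V)) : C.norm.mass t F = C.mass t F := by
  classical
  have hd : ∀ i j, C.norm.cellD t ∅ i j = C.cellD t ∅ i j := fun i j => by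
    simp only [cellD, d, norm_edges, norm_m, norm_c, Nat.mod_mod]
  have hm : ∀ i j, C.norm.CellMeets t F i j ↔ C.CellMeets t F i j := fun i j => by
    simp only [CellMeets, Meets, norm_edges, norm_m, norm_c, Nat.mod_mod]
  unfold mass
  refine Finset.sum_congr (Finset.ext fun p => ?_) fun p _ => hd _ _
  simp only [Finset.mem_filter, hm, cells, norm_m]

/-- Between two marks the arc is no dearer than the cycle. -/
lemma geo_cost_le (C : Cyc) {t : Conf} (hok : OK t) {a b : ℕ} (ha : a ≤ C.m) (hb : b ≤ C.m)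
    {v : ℕ → V} {L : ℕ} (g : GeoIn t C.edges (C.c a) (C.c b) v L) :
    cost t v L ≤ cost t C.c C.m := by
  wlog hab : a ≤ b generalizing a b v with H
  · have := H hb ha g.reverse (le_of_not_ge hab)
    rwa [rev_cost] at this
  have hA := C.arc_pathIn (F := ∅) (fun s _ => Set.notMem_empty _) hab hb
  rw [Set.sdiff_empty] at hA
  refine (g.cost_le hA).trans ?_
  rw [cost_seg_add t C.c hb, cost_seg_add t C.c hab]
  linarith [cost_nonneg hok.nonneg C.c a, cost_nonneg hok.nonneg (seg C.c b) (C.m - b)]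

/-- (a) Geodesics between marks of a cycle in the box are short. -/
theorem geo_length_le (C : Cyc) {t : Conf} {θ : ℝ} {n : ℕ} (hθ : 0 ≤ θ) (hok : OK t)
    (hlong : t ∈ LongGood θ n) (hbox : ∀ k < C.m, C.c k ∈ box 0 (4 * n)) {a b : ℕ} (ha : a < C.m)
    (hb : b < C.m) {v : ℕ → V} {L : ℕ} (g : GeoIn t C.edges (C.c a) (C.c b) v L) :
    θ * L ≤ θ * n + 2 * cost t C.c C.m := by
  have hc := C.geo_cost_le hok ha.le hb.le g
  have hc0 := cost_nonneg hok.nonneg C.c C.m
  rcases le_or_gt L n with h | h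
  · have : (L : ℝ) ≤ n := by exact_mod_cast h
    nlinarith
  classical
  set s := (Finset.range L).filter fun k => θ ≤ t s(v k, v (k + 1)) with hs
  have h2 : (L : ℝ) ≤ 2 * s.card := by
    exact_mod_cast hlong v L g.path g.inj (g.first ▸ hbox a ha) h.le
  have h3 : s.card * θ ≤ cost t v L := by
    refine le_trans ?_ (Finset.sum_le_sum_of_subset_of_nonneg (Finset.filter_subset (fun k => θ ≤ t s(v k, v (k + 1))) _)
      fun k _ _ => hok.nonneg _)
    rw [← nsmul_eq_mul]
    exact Finset.card_nsmul_le_sum _ _ _ fun k hk => (Finset.mem_filter.1 hk).2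
  nlinarith [mul_le_mul_of_nonneg_left h2 hθ, mul_nonneg hθ (Nat.cast_nonneg (α := ℝ) n)]

/-- The total mass over edges, from the deterministic budget. -/
theorem mass_sum_le (hMonge : MongeStmt) (C : Cyc) {t : Conf} {θ : ℝ} {n : ℕ} (hθ : 0 < θ)
    (hok : OK t) (hlong : t ∈ LongGood θ n) (hbox : ∀ k < C.m, C.c k ∈ box 0 (4 * n))
    (S : Finset (Sym2 V)) :
    ∑ e ∈ S, C.mass t {e} ≤
      8 * (n + 2 * cost t C.c C.m / θ + 1) * cost t C.c C.m := by
  have hc0 := cost_nonneg hok.nonneg C.c C.m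
  set N := ⌈(n : ℝ) + 2 * cost t C.c C.m / θ⌉₊
  have hN : (N : ℝ) ≤ n + 2 * cost t C.c C.m / θ + 1 := (Nat.ceil_lt_add_one (by positivity)).le
  have h := (hMonge C.norm t hok).2.2.2 S N fun i j v L g => by
    rw [C.norm_edges] at g
    have := C.geo_length_le hθ.le hok hlong hbox (Nat.mod_lt i C.m_pos) (Nat.mod_lt j C.m_pos) g
    have h' : (L : ℝ) ≤ n + 2 * cost t C.c C.m / θ := by
      rw [show (n : ℝ) + 2 * cost t C.c C.m / θ = (θ * n + 2 * cost t C.c C.m) / θ by field_simp,
        le_div_iff₀ hθ]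
      linarith
    exact_mod_cast h'.trans (Nat.le_ceil _)
  simp only [norm_mass, norm_cost] at h
  refine h.trans ?_
  nlinarith [mul_le_mul_of_nonneg_right hN hc0]

end Cyc

/-! ## Measurability -/

/-- A finite list of vertices read as a path. -/
def ext {L : ℕ} (d : Fin (L + 1) → V) (k : ℕ) : V := d ⟨min k L, by omega⟩

lemma ext_of (v : ℕ → V) (L k : ℕ) (hk : k ≤ L) :
    ext (fun i : Fin (L + 1) => v i) k = v k := by simp [ext, min_eq_left hk]

lemma meas_cost (v : ℕ → V) (L : ℕ) : Measurable fun t : Conf => cost t v L :=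
  Finset.measurable_sum _ fun _ _ => measurable_pi_apply _

lemma meas_T (K : Set (Sym2 V)) (x y : V) : Measurable fun t : Conf => T t K x y := by
  let ι := {p : Σ L : ℕ, (Fin (L + 1) → V) // PathIn K x y (ext p.2) p.1}
  have h : (fun t : Conf => T t K x y) = fun t => ⨅ i : ι, cost t (ext i.1.2) i.1.1 := by
    funext t
    unfold T iInf
    congr 1
    ext r
    constructor
    · rintro ⟨v, L, h, rfl⟩
      have hh : ∀ k ≤ L, v k = ext (fun i : Fin (L + 1) => v i) k := fun k hk => (ext_of v L k hk).symm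
      exact ⟨⟨⟨L, fun i => v i⟩, h.congr hh⟩, (cost_congr hh).symm⟩
    · rintro ⟨⟨⟨L, d⟩, h⟩, rfl⟩
      exact ⟨ext d, L, h, rfl⟩
  rw [h]
  exact Measurable.iInf fun i => meas_cost _ _

lemma meas_onGeo (K : Set (Sym2 V)) (x y : V) (e : Sym2 V) :
    MeasurableSet {t : Conf | OnGeo t K x y e} := by
  have h : {t : Conf | OnGeo t K x y e} = ⋃ (p : Σ L : ℕ, (Fin (L + 1) → V))
      (_ : PathIn K x y (ext p.2) p.1 ∧ Set.InjOn (ext p.2) (Set.Iic p.1) ∧ Uses (ext p.2) p.1 e),
      ⋂ (q : Σ M : ℕ, (Fin (M + 1) → V)) (_ : PathIn K x y (ext q.2) q.1),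
        {t | cost t (ext p.2) p.1 ≤ cost t (ext q.2) q.1} := by
    ext t
    simp only [Set.mem_iUnion, Set.mem_iInter, Set.mem_ofPred_eq]
    constructor
    · rintro ⟨v, L, g, k, hk, he⟩
      have hh : ∀ k ≤ L, v k = ext (fun i : Fin (L + 1) => v i) k := fun k hk => (ext_of v L k hk).symm
      have g' := g.congr hh
      exact ⟨⟨L, fun i => v i⟩, ⟨g'.toPathIn, g'.inj, k, hk,
        by rw [← hh k hk.le, ← hh (k + 1) hk]; exact he⟩, fun q hq => g'.least _ _ hq⟩
    · rintro ⟨⟨L, d⟩, ⟨hp, hi, hu⟩, hl⟩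
      refine ⟨ext d, L, ⟨hp, hi, fun w M hw => ?_⟩, hu⟩
      have hh : ∀ k ≤ M, w k = ext (fun i : Fin (M + 1) => w i) k := fun k hk => (ext_of w M k hk).symm
      exact (hl ⟨M, fun i => w i⟩ (hw.congr hh)).trans_eq (cost_congr hh).symm
  rw [h]
  exact .iUnion fun _ => .iUnion fun _ => .iInter fun _ => .iInter fun _ =>
    measurableSet_le (meas_cost _ _) (meas_cost _ _)

lemma meas_longGood (θ : ℝ) (n : ℕ) : MeasurableSet (LongGood θ n) := by
  classical
  have h : LongGood θ n = ⋂ (p : Σ L : ℕ, (Fin (L + 1) → V))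
      (_ : IsPath (ext p.2) p.1 ∧ Set.InjOn (ext p.2) (Set.Iic p.1) ∧
        ext p.2 0 ∈ box 0 (4 * n) ∧ n ≤ p.1),
      {t : Conf | (p.1 : ℝ) ≤ 2 * ∑ k ∈ Finset.range p.1,
        (if θ ≤ t s(ext p.2 k, ext p.2 (k + 1)) then (1 : ℝ) else 0)} := by
    ext t
    simp only [LongGood, Set.mem_iInter, Set.mem_ofPred_eq, Finset.sum_boole]
    constructor
    · rintro h ⟨L, d⟩ ⟨h1, h2, h3, h4⟩
      exact_mod_cast h (ext d) L h1 h2 h3 h4
    · intro h v L h1 h2 h3 h4
      have hh : ∀ k ≤ L, ext (fun i : Fin (L + 1) => v i) k = v k := fun k hk => ext_of v L k hk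
      have h' := h ⟨L, fun i => v i⟩ ⟨fun k hk => ?_, fun a ha b hb e => ?_, ?_, h4⟩
      · rw [Finset.filter_congr (q := fun k => θ ≤ t s(v k, v (k + 1))) fun k hk => by
          rw [Finset.mem_range] at hk
          rw [hh k hk.le, hh (k + 1) hk]] at h'
        exact_mod_cast h'
      · rw [hh k hk.le, hh (k + 1) hk]; exact h1 k hk
      · exact h2 ha hb (by rw [← hh a ha, ← hh b hb]; exact e)
      · rw [hh 0 (Nat.zero_le L)]; exact h3
  rw [h]
  refine .iInter fun p => .iInter fun _ => measurableSet_le measurable_const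
    ((Finset.measurable_sum _ fun k _ => ?_).const_mul 2)
  exact Measurable.ite (measurableSet_le measurable_const (measurable_pi_apply _))
    measurable_const measurable_const

namespace Cyc

variable (C : Cyc) (F : Set (Sym2 V))

lemma meas_d (i j : ℕ) : Measurable fun t : Conf => C.d t F i j := meas_T _ _ _

lemma meas_gainU (i j : ℕ) : Measurable fun t : Conf => C.gainU t F i j :=
  (C.meas_d F i j).sub (C.meas_d ∅ i j)

lemma meas_cellD (i j : ℕ) : Measurable fun t : Conf => C.cellD t F i j :=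
  (((C.meas_d F i j).add (C.meas_d F (i + 1) (j + 1))).sub (C.meas_d F i (j + 1))).sub
    (C.meas_d F (i + 1) j)

lemma meas_meets (i j : ℕ) : MeasurableSet {t : Conf | C.Meets t F i j} := by
  have h : {t : Conf | C.Meets t F i j} =
      ⋃ e ∈ F, {t | OnGeo t C.edges (C.c (i % C.m)) (C.c (j % C.m)) e} := by
    ext t
    simp [Meets]
  rw [h]
  exact .biUnion F.to_countable fun e _ => meas_onGeo _ _ _ _

lemma meas_cellMeets (i j : ℕ) : MeasurableSet {t : Conf | C.CellMeets t F i j} :=
  (C.meas_meets F i j).union ((C.meas_meets F (i + 1) (j + 1)).union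
    ((C.meas_meets F i (j + 1)).union (C.meas_meets F (i + 1) j)))

lemma meas_mass : Measurable fun t : Conf => C.mass t F := by
  classical
  simp only [mass, Finset.sum_filter]
  exact Finset.measurable_sum _ fun p _ =>
    Measurable.ite (C.meas_cellMeets F p.1 p.2) (C.meas_cellD ∅ p.1 p.2) measurable_const

end Cyc

variable {G : Measure ℝ} [IsProbabilityMeasure G]

omit [IsProbabilityMeasure G] in
/-- A function of the random cycle and the configuration. -/
lemma Ring.meas_comp (R : Ring G) (n : ℕ) {β : Type*} [MeasurableSpace β] {f : Cyc → Conf → β}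
    (hf : ∀ C, Measurable (f C)) : Measurable fun t => f (R.cyc n t) t := by
  intro s hs
  have h : (fun t => f (R.cyc n t) t) ⁻¹' s =
      ⋃ C ∈ Set.range (R.cyc n), {t | R.cyc n t = C} ∩ f C ⁻¹' s := by
    ext t
    simp only [Set.mem_preimage, Set.mem_iUnion, Set.mem_inter_iff, Set.mem_ofPred_eq, exists_prop]
    exact ⟨fun h => ⟨_, ⟨t, rfl⟩, rfl, h⟩, fun ⟨C, _, e, h⟩ => e ▸ h⟩
  rw [h]
  exact .biUnion (R.fin n).countable fun C _ => (R.meas_cyc n C).inter (hf C hs)

/-- (c) The mass of the random domain. -/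
lemma Ring.meas_mass (R : Ring G) (n : ℕ) (F : Set (Sym2 V)) :
    Measurable fun t => (R.cyc n t).mass t F :=
  R.meas_comp n fun C => C.meas_mass F

/-- (b) The expected total mass over edges is quadratic in the radius. -/
theorem budget (hMonge : MongeStmt) (P : Params G) (R : Ring G) :
    ∃ B : ℝ≥0∞, B < ⊤ ∧ ∀ n : ℕ, 1 ≤ n → ∀ S : Finset (Sym2 V),
      ∫⁻ t in R.good n ∩ LongGood P.θ n ∩ {t | OK t},
        ENNReal.ofReal (∑ e ∈ S, (R.cyc n t).mass t {e}) ∂env G ≤ B * (n : ℝ≥0∞) ^ 2 := by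
  set θ := P.θ
  have hθ : 0 < θ := P.pos.trans P.lt
  set c : ℝ := 8 + 16 / θ with hc
  have hc0 : 0 ≤ c := by positivity
  refine ⟨ENNReal.ofReal c * ENNReal.ofReal R.A + 8, by
    exact ENNReal.add_lt_top.2 ⟨ENNReal.mul_lt_top ENNReal.ofReal_lt_top ENNReal.ofReal_lt_top,
      by simp⟩, fun n hn S => ?_⟩
  set X : Conf → ℝ := fun t => cost t (R.cyc n t).c (R.cyc n t).m + (R.cyc n t).m
  have hX : Measurable X :=
    R.meas_comp n (f := fun C t => cost t C.c C.m + C.m) fun C => (meas_cost _ _).add_const _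
  have hg : Measurable fun t => ENNReal.ofReal (c * X t ^ 2) + 8 * (n : ℝ≥0∞) ^ 2 :=
    ((hX.pow_const 2).const_mul c).ennreal_ofReal.add_const _
  calc _ ≤ ∫⁻ t in R.good n ∩ LongGood θ n ∩ {t | OK t},
        (ENNReal.ofReal (c * X t ^ 2) + 8 * (n : ℝ≥0∞) ^ 2) ∂env G := by
        refine setLIntegral_mono hg fun t ht => ?_
        obtain ⟨⟨hgood, hlong⟩, hok⟩ := ht
        set C := R.cyc n t
        have hbox : ∀ k < C.m, C.c k ∈ box 0 (4 * n) := fun k hk => by
          have h := R.sub n t hgood k hk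
          simp only [box, Set.mem_ofPred_eq, Nat.cast_mul, Nat.cast_ofNat] at h ⊢
          exact ⟨h.1.trans (by linarith [Int.natCast_nonneg n]),
            h.2.trans (by linarith [Int.natCast_nonneg n])⟩
        have h := Cyc.mass_sum_le hMonge C hθ hok hlong hbox S
        set x := cost t C.c C.m
        have hx0 : 0 ≤ x := cost_nonneg hok.nonneg _ _
        have hxX : x ≤ X t := le_add_of_nonneg_right (Nat.cast_nonneg _)
        have hn1 : (1 : ℝ) ≤ n := by exact_mod_cast hn
        have key : ∑ e ∈ S, C.mass t {e} ≤ c * X t ^ 2 + 8 * (n : ℝ) ^ 2 := by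
          refine h.trans ?_
          have e1 : 8 * (n + 2 * x / θ + 1) * x = 8 * (n + 1) * x + 16 / θ * x ^ 2 := by
            field_simp
            ring
          rw [e1, hc, add_mul]
          have h16 : 0 ≤ 16 / θ := by positivity
          nlinarith [mul_le_mul_of_nonneg_left (pow_le_pow_left₀ hx0 hxX 2) h16,
            pow_le_pow_left₀ hx0 hxX 2, sq_nonneg (x - n),
            mul_le_mul_of_nonneg_right hn1 hx0]
        refine (ENNReal.ofReal_le_ofReal key).trans ?_
        refine ENNReal.ofReal_add_le.trans (le_of_eq ?_)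
        rw [ENNReal.ofReal_mul (by norm_num : (0 : ℝ) ≤ 8), ENNReal.ofReal_pow (Nat.cast_nonneg _)]
        simp
    _ ≤ ∫⁻ t in R.good n, (ENNReal.ofReal (c * X t ^ 2) + 8 * (n : ℝ≥0∞) ^ 2) ∂env G :=
        lintegral_mono_set (Set.inter_subset_left.trans Set.inter_subset_left)
    _ ≤ _ := by
        rw [lintegral_add_right _ measurable_const, setLIntegral_const, add_mul]
        refine add_le_add ?_ ?_
        · simp only [ENNReal.ofReal_mul hc0]
          rw [lintegral_const_mul _ (hX.pow_const 2).ennreal_ofReal, mul_assoc]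
          gcongr ENNReal.ofReal c * ?_
          refine (R.sq n).trans ?_
          rw [mul_comm R.A, ENNReal.ofReal_mul (by positivity),
            ENNReal.ofReal_pow (Nat.cast_nonneg _), ENNReal.ofReal_natCast, mul_comm]

        · have : IsProbabilityMeasure (env G) := by unfold env; infer_instance
          exact mul_le_of_le_one_right' prob_le_one

end Vale.Agent.P158.NB
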