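import Vale.Agent.P158.NB.Defs

/-!
# P158: changes of measure

Lowering on a finite set costs a factor two per edge; the tilt has a square integrable density.
-/

namespace Vale.Agent.P158.NB

open Vale.Agent.P158 MeasureTheory ProbabilityTheory
open scoped ENNReal

section Iid

variable {ι X : Type*} [DecidableEq ι] [MeasurableSpace X]

/-- On `S` take the second family, elsewhere the first. -/
def mix (S : Finset ι) (a b : ι → X) : ι → X := fun e => if e ∈ S then b e else a e

lemma mix_meas (S : Finset ι) : Measurable fun p : (ι → X) × (ι → X) => mix S p.1 p.2 :=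
  measurable_pi_lambda _ fun e => by
    unfold mix
    by_cases h : e ∈ S <;> simp only [h, if_true, if_false] <;> fun_prop

variable (ν : Measure X) [IsProbabilityMeasure ν]

/-- Two independent product families form one product family. -/
lemma infinitePi_pair :
    (Measure.infinitePi fun _ : Fin 2 × ι => ν).map
        (fun x => (fun e => x (0, e), fun e => x (1, e))) =
      (Measure.infinitePi fun _ : ι => ν).prod (Measure.infinitePi fun _ : ι => ν) := by
  have h1 := Measure.infinitePi_map_curry (fun (_ : Fin 2) (_ : ι) => ν)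
  have h2 := measurePreserving_finTwoArrow (Measure.infinitePi fun _ : ι => ν)
  rw [← h2.map_eq, ← Measure.infinitePi_eq_pi, ← h1,
    Measure.map_map (MeasurableEquiv.measurable _) (MeasurableEquiv.measurable _)]
  rfl

/-- Exchanging two independent families on `S` preserves their joint law. -/
lemma swap_law (S : Finset ι) :
    MeasurePreserving (fun p : (ι → X) × (ι → X) => (mix S p.1 p.2, mix S p.2 p.1))
      ((Measure.infinitePi fun _ : ι => ν).prod (Measure.infinitePi fun _ : ι => ν))
      ((Measure.infinitePi fun _ : ι => ν).prod (Measure.infinitePi fun _ : ι => ν)) := by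
  have hm : Measurable fun p : (ι → X) × (ι → X) => (mix S p.1 p.2, mix S p.2 p.1) :=
    (mix_meas S).prodMk ((mix_meas S).comp measurable_swap)
  refine ⟨hm, ?_⟩
  set σ : Fin 2 × ι → Fin 2 × ι := fun p => if p.2 ∈ S then (1 - p.1, p.2) else p with hσ
  have hinv : Function.Involutive σ := by
    rintro ⟨i, e⟩
    simp only [hσ]
    by_cases h : e ∈ S <;> simp [h]
  have hP := Measure.map_infinitePi_infinitePi_of_inj (P := fun _ : Fin 2 × ι => ν) hinv.injective
  conv_lhs => rw [← infinitePi_pair ν]
  rw [Measure.map_map hm (by fun_prop)]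
  conv_rhs => rw [← infinitePi_pair ν, ← hP, Measure.map_map (by fun_prop) (by fun_prop)]
  congr 1
  funext x
  refine Prod.ext (funext fun e => ?_) (funext fun e => ?_) <;>
    by_cases h : e ∈ S <;> simp [mix, hσ, h]

lemma mix_law (S : Finset ι) {A : Set (ι → X)} (hA : MeasurableSet A) :
    ((Measure.infinitePi fun _ : ι => ν).prod (Measure.infinitePi fun _ : ι => ν))
      {p | mix S p.1 p.2 ∈ A} = Measure.infinitePi (fun _ : ι => ν) A := by
  have := (swap_law ν S).measure_preimage (measurable_fst hA).nullMeasurableSet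
  rw [show (Prod.fst ⁻¹' A : Set ((ι → X) × (ι → X))) = A ×ˢ Set.univ by ext; simp,
    Measure.prod_prod, measure_univ, mul_one] at this
  rw [← this]
  congr 1
  ext p
  simp

/-- A coordinate is independent of what ignores it. -/
lemma lintegral_coord (e : ι) {U : Set X} (hU : MeasurableSet U) {g : (ι → X) → ℝ≥0∞}
    (hg : Measurable g) (hdep : ∀ x y, g (Function.update x e y) = g x) :
    ∫⁻ x, U.indicator 1 (x e) * g x ∂Measure.infinitePi (fun _ : ι => ν) =
      ν U * ∫⁻ x, g x ∂Measure.infinitePi (fun _ : ι => ν) := by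
  set μ := Measure.infinitePi fun _ : ι => ν with hμ
  have hf : Measurable fun x : ι → X => U.indicator (1 : X → ℝ≥0∞) (x e) * g x :=
    ((measurable_one.indicator hU).comp (measurable_pi_apply e)).mul hg
  have hmap : (μ.prod μ).map (fun p => mix {e} p.1 p.2) = μ := Measure.ext fun A hA => by
    rw [Measure.map_apply (mix_meas _) hA]
    exact mix_law ν {e} hA
  conv_lhs => rw [← hmap, lintegral_map hf (mix_meas _)]
  have hpt : ∀ p : (ι → X) × (ι → X), U.indicator (1 : X → ℝ≥0∞) (mix {e} p.1 p.2 e) *
      g (mix {e} p.1 p.2) = g p.1 * U.indicator 1 (p.2 e) := by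
    intro p
    have h1 : mix {e} p.1 p.2 = Function.update p.1 e (p.2 e) := by
      funext f
      by_cases h : f = e
      · subst h; simp [mix]
      · simp [mix, h]
    rw [h1, hdep, Function.update_self, mul_comm]
  simp only [hpt]
  have hb : Measurable fun b : ι → X => U.indicator (1 : X → ℝ≥0∞) (b e) :=
    (measurable_one.indicator hU).comp (measurable_pi_apply e)
  refine (lintegral_prod_mul hg.aemeasurable hb.aemeasurable).trans ?_
  rw [mul_comm]
  congr 1
  rw [hμ, ← lintegral_map (measurable_one.indicator hU) (measurable_pi_apply e),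
    Measure.infinitePi_map_eval, lintegral_indicator_one hU]

end Iid

variable (G : Measure ℝ) [IsProbabilityMeasure G]

lemma swap_env (S : Finset (Sym2 V)) :
    MeasurePreserving (fun p : Conf × Conf => (mix S p.1 p.2, mix S p.2 p.1))
      ((env G).prod (env G)) ((env G).prod (env G)) := swap_law G S

lemma mix_env (S : Finset (Sym2 V)) {A : Set Conf} (hA : MeasurableSet A) :
    ((env G).prod (env G)) {p | mix S p.1 p.2 ∈ A} = env G A := mix_law G S hA

lemma cdf_meas : Measurable fun x : ℝ => G (Set.Iic x) := by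
  have h : Monotone fun x : ℝ => G (Set.Iic x) := fun x y h =>
    measure_mono (Set.Iic_subset_Iic.2 h)
  exact h.measurable

lemma shift_law (z : V) : (env G).map (shiftW z) = env G := by
  have hinj : Function.Injective fun e : Sym2 V => Sym2.map (fun v => v + z) e :=
    Sym2.map.injective (add_left_injective z)
  exact Measure.map_infinitePi_infinitePi_of_inj (P := fun _ : Sym2 V => G) hinj

lemma lower_law (π : Finset (Sym2 V)) {A : Set Conf} (hA : MeasurableSet A) :
    ((env G).prod (env G)) {p | lowerW π p.1 p.2 ∈ A} ≤ 2 ^ π.card * env G A := by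
  classical
  have hsub : {p : Conf × Conf | lowerW π p.1 p.2 ∈ A} ⊆
      ⋃ S ∈ π.powerset, {p | mix S p.1 p.2 ∈ A} := by
    intro p hp
    simp only [Set.mem_iUnion, Finset.mem_powerset]
    refine ⟨π.filter fun e => p.2 e < p.1 e, Finset.filter_subset _ _, ?_⟩
    simp only [Set.mem_setOf_eq] at hp ⊢
    convert hp using 1
    funext e
    simp only [mix, lowerW, Finset.mem_filter]
    by_cases h : e ∈ π
    · rcases lt_or_ge (p.2 e) (p.1 e) with h' | h'
      · simp [h, h', h'.le]
      · simp [h, not_lt.2 h', h']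
    · simp [h]
  refine (measure_mono hsub).trans ((measure_biUnion_finset_le _ _).trans ?_)
  refine le_of_eq ?_
  rw [Finset.sum_congr rfl fun S _ => mix_env G S hA, Finset.sum_const, Finset.card_powerset,
    nsmul_eq_mul, Nat.cast_pow, Nat.cast_ofNat]

/-- On `S` the maximum of two copies. -/
noncomputable def maxW (S : Finset (Sym2 V)) (t u : Conf) : Conf :=
  fun e => if e ∈ S then max (t e) (u e) else t e

lemma maxW_law (S : Finset (Sym2 V)) {A : Set Conf} (hA : MeasurableSet A) :
    ((env G).prod (env G)) {p | maxW S p.1 p.2 ∈ A} ≤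
      ∫⁻ s, A.indicator 1 s * ∏ e ∈ S, 2 * G (Set.Iic (s e)) ∂env G := by
  classical
  set Q := {q : Conf × Conf | q.1 ∈ A ∧ ∀ e ∈ S, q.2 e ≤ q.1 e} with hQ
  have hQm : MeasurableSet Q := by
    rw [hQ, Set.setOf_and]
    refine (measurable_fst hA).inter ?_
    have : {q : Conf × Conf | ∀ e ∈ S, q.2 e ≤ q.1 e} = ⋂ e ∈ S, {q | q.2 e ≤ q.1 e} := by
      ext; simp
    rw [this]
    exact MeasurableSet.biInter S.countable_toSet fun e _ =>
      measurableSet_le (by fun_prop) (by fun_prop)
  have hsub : {p : Conf × Conf | maxW S p.1 p.2 ∈ A} ⊆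
      ⋃ T ∈ S.powerset, (fun p => (mix T p.1 p.2, mix T p.2 p.1)) ⁻¹' Q := by
    intro p hp
    simp only [Set.mem_iUnion, Finset.mem_powerset]
    refine ⟨S.filter fun e => p.1 e < p.2 e, Finset.filter_subset _ _, ?_, ?_⟩
    · simp only [Set.mem_setOf_eq] at hp
      convert hp using 1
      funext e
      simp only [mix, maxW, Finset.mem_filter]
      by_cases h : e ∈ S
      · rcases lt_or_ge (p.1 e) (p.2 e) with h' | h'
        · simp [h, h', h'.le]
        · simp [h, not_lt.2 h', h']
      · simp [h]
    · intro e he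
      simp only [mix, Finset.mem_filter, he, true_and]
      rcases lt_or_ge (p.1 e) (p.2 e) with h' | h'
      · simp [h', h'.le]
      · simp [not_lt.2 h', h']
  refine (measure_mono hsub).trans ((measure_biUnion_finset_le _ _).trans ?_)
  have hpre : ∀ T : Finset (Sym2 V), ((env G).prod (env G))
      ((fun p => (mix T p.1 p.2, mix T p.2 p.1)) ⁻¹' Q) = ((env G).prod (env G)) Q := fun T =>
    (swap_env G T).measure_preimage hQm.nullMeasurableSet
  rw [Finset.sum_congr rfl fun T _ => hpre T, Finset.sum_const, Finset.card_powerset, nsmul_eq_mul,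
    Nat.cast_pow, Nat.cast_ofNat, Measure.prod_apply hQm,
    ← lintegral_const_mul' _ _ (ENNReal.pow_ne_top (by simp))]
  refine le_of_eq (lintegral_congr fun s => ?_)
  by_cases hs : s ∈ A
  · have : Prod.mk s ⁻¹' Q = Set.pi S fun e => Set.Iic (s e) := by
      ext o; simp [hQ, hs]
    rw [this, Set.indicator_of_mem hs, Finset.prod_mul_distrib, Finset.prod_const, Pi.one_apply,
      one_mul]
    congr 1
    exact Measure.infinitePi_pi _ fun e _ => measurableSet_Iic
  · have : Prod.mk s ⁻¹' Q = ∅ := by
      ext o; simp [hQ, hs]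
    simp [this, hs]

/-- The law of one flag. -/
noncomputable def coin (ε : ℝ) : Measure Bool :=
  ENNReal.ofReal ε • Measure.dirac true + ENNReal.ofReal (1 - ε) • Measure.dirac false

lemma coin_prob {ε : ℝ} (h0 : 0 ≤ ε) (h1 : ε ≤ 1) : IsProbabilityMeasure (coin ε) :=
  ⟨by simp [coin, ← ENNReal.ofReal_add h0 (sub_nonneg.2 h1)]⟩

lemma tiltW_meas (F : Finset (Sym2 V)) :
    Measurable fun p : Conf × Conf × (Sym2 V → Bool) => tiltW F p.1 p.2.1 p.2.2 := by
  refine measurable_pi_lambda _ fun e => ?_
  unfold tiltW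
  by_cases h : e ∈ F
  · simp only [h, true_and]
    exact Measurable.ite ((by fun_prop : Measurable fun p : Conf × Conf × (Sym2 V → Bool) =>
      p.2.2 e) (measurableSet_singleton true)) (by fun_prop) (by fun_prop)
  · simp only [h, false_and, if_false]
    fun_prop

lemma tiltLaw_apply {ε : ℝ} (h0 : 0 ≤ ε) (h1 : ε ≤ 1)
    {E : Set (Conf × Conf × (Sym2 V → Bool))} (hE : MeasurableSet E) :
    tiltLaw G ε E = ∫⁻ fl, ((env G).prod (env G)) {p | (p.1, p.2, fl) ∈ E}
      ∂Measure.infinitePi fun _ : Sym2 V => coin ε := by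
  haveI := coin_prob h0 h1
  have h := measurePreserving_prodAssoc (env G) (env G)
    (Measure.infinitePi fun _ : Sym2 V => coin ε)
  rw [show tiltLaw G ε = (env G).prod ((env G).prod
    (Measure.infinitePi fun _ : Sym2 V => coin ε)) from rfl, ← h.measure_preimage hE.nullMeasurableSet,
    Measure.prod_apply_symm (h.measurable hE)]
  rfl

lemma half_cdf (hatom : ∀ x, G {x} = 0) : ∫⁻ x, G (Set.Iic x) ∂G = 1 / 2 := by
  set U : Set (ℝ × ℝ) := {p | p.2 ≤ p.1}
  set W : Set (ℝ × ℝ) := {p | p.1 ≤ p.2}
  have hU : MeasurableSet U := measurableSet_le measurable_snd measurable_fst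
  have hW : MeasurableSet W := measurableSet_le measurable_fst measurable_snd
  have h1 : (G.prod G) U = ∫⁻ x, G (Set.Iic x) ∂G := by
    rw [Measure.prod_apply hU]
    rfl
  have h2 : (G.prod G) W = (G.prod G) U :=
    (Measure.measurePreserving_swap (μ := G) (ν := G)).measure_preimage hU.nullMeasurableSet
  have h3 : (G.prod G) (U ∩ W) = 0 := by
    rw [Measure.prod_apply (hU.inter hW)]
    refine (lintegral_congr fun x => ?_).trans lintegral_zero
    rw [show Prod.mk x ⁻¹' (U ∩ W) = {x} by ext y; simp [U, W]; constructor <;> intro h <;> grind]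
    exact hatom x
  have h4 : U ∪ W = Set.univ := Set.eq_univ_of_forall fun p => le_total p.2 p.1
  have h5 := measure_union_add_inter (μ := G.prod G) U hW
  rw [h4, h3, measure_univ, add_zero, h2, h1, ← two_mul] at h5
  exact ((ENNReal.eq_div_iff (by simp) (by simp)).2 h5.symm)

/-- The density of a tilted weight. -/
noncomputable def dens (ε x : ℝ) : ℝ≥0∞ :=
  ENNReal.ofReal (1 - ε) + ENNReal.ofReal ε * (2 * G (Set.Iic x))

lemma dens_meas (ε : ℝ) : Measurable (dens G ε) :=
  measurable_const.add (measurable_const.mul (measurable_const.mul (cdf_meas G)))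

lemma dens_sq (hatom : ∀ x, G {x} = 0) {ε : ℝ} (h0 : 0 ≤ ε) (h1 : ε ≤ 1) :
    ∫⁻ x, dens G ε x ^ 2 ∂G ≤ ENNReal.ofReal (Real.exp (ε ^ 2)) := by
  have hmeas := cdf_meas G
  have key : ∀ x, dens G ε x ^ 2 + ENNReal.ofReal (2 * ε) ≤
      ENNReal.ofReal (1 + ε ^ 2) + ENNReal.ofReal (4 * ε) * G (Set.Iic x) := by
    intro x
    obtain ⟨r, hr0, hr1, hr⟩ : ∃ r : ℝ, 0 ≤ r ∧ r ≤ 1 ∧ G (Set.Iic x) = ENNReal.ofReal r :=
      ⟨_, ENNReal.toReal_nonneg, ENNReal.toReal_le_of_le_ofReal zero_le_one
        (by simp [prob_le_one]), (ENNReal.ofReal_toReal (measure_ne_top _ _)).symm⟩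
    simp only [dens, hr]
    rw [← ENNReal.ofReal_ofNat 2, ← ENNReal.ofReal_mul zero_le_two, ← ENNReal.ofReal_mul h0,
      ← ENNReal.ofReal_add (sub_nonneg.2 h1) (by positivity), ← ENNReal.ofReal_pow (by nlinarith),
      ← ENNReal.ofReal_add (by positivity) (by positivity), ← ENNReal.ofReal_mul (by positivity),
      ← ENNReal.ofReal_add (by positivity) (by positivity)]
    refine ENNReal.ofReal_le_ofReal ?_
    nlinarith [mul_nonneg (sq_nonneg ε) (mul_nonneg hr0 (sub_nonneg.2 hr1))]
  have h := lintegral_mono (μ := G) key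
  rw [lintegral_add_right _ measurable_const, lintegral_add_left measurable_const,
    lintegral_const, lintegral_const, lintegral_const_mul _ hmeas, half_cdf G hatom, measure_univ,
    mul_one, mul_one] at h
  have h2 : ENNReal.ofReal (4 * ε) * (1 / 2) = ENNReal.ofReal (2 * ε) := by
    rw [show (1 / 2 : ℝ≥0∞) = ENNReal.ofReal (1 / 2) by
      rw [ENNReal.ofReal_div_of_pos two_pos]; simp, ← ENNReal.ofReal_mul (by positivity)]
    ring_nf
  rw [h2] at h
  exact (ENNReal.le_of_add_le_add_right ENNReal.ofReal_ne_top h).trans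
    (ENNReal.ofReal_le_ofReal (by linarith [Real.add_one_le_exp (ε ^ 2)]))

lemma tilt_density (F : Finset (Sym2 V)) {ε : ℝ} (h0 : 0 ≤ ε) (h1 : ε ≤ 1) {A : Set Conf}
    (hA : MeasurableSet A) :
    tiltLaw G ε {p | tiltW F p.1 p.2.1 p.2.2 ∈ A} ≤
      ∫⁻ s, A.indicator 1 s * ∏ e ∈ F, dens G ε (s e) ∂env G := by
  classical
  haveI := coin_prob h0 h1
  set B := Measure.infinitePi fun _ : Sym2 V => coin ε with hB
  have hTm : MeasurableSet {p : Conf × Conf × (Sym2 V → Bool) | tiltW F p.1 p.2.1 p.2.2 ∈ A} :=
    tiltW_meas F hA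
  rw [tiltLaw_apply G h0 h1 hTm]
  set w : Sym2 V → Bool → ℝ → ℝ≥0∞ := fun _ b x => if b then 2 * G (Set.Iic x) else 1 with hw
  have hwm : ∀ e, Measurable fun q : Bool × ℝ => w e q.1 q.2 := fun e =>
    Measurable.ite (measurable_fst (measurableSet_singleton true))
      (measurable_const.mul ((cdf_meas G).comp measurable_snd))
      measurable_const
  have hfix : ∀ fl : Sym2 V → Bool, ((env G).prod (env G)) {p | tiltW F p.1 p.2 fl ∈ A} ≤
      ∫⁻ s, A.indicator 1 s * ∏ e ∈ F, w e (fl e) (s e) ∂env G := by
    intro fl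
    have he : ∀ t u, tiltW F t u fl = maxW (F.filter fun e => fl e = true) t u := fun t u => by
      funext e; simp [tiltW, maxW]
    simp only [he]
    refine (maxW_law G _ hA).trans (le_of_eq (lintegral_congr fun s => ?_))
    rw [Finset.prod_filter]
  refine (lintegral_mono hfix).trans (le_of_eq ?_)
  rw [lintegral_lintegral_swap]
  · refine lintegral_congr fun s => ?_
    have hwe : ∀ e, Measurable fun fl : Sym2 V → Bool => w e (fl e) (s e) := fun e =>
      (measurable_of_countable fun b => w e b (s e)).comp (measurable_pi_apply e)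
    rw [lintegral_const_mul _ (Finset.measurable_prod F fun e _ => hwe e)]
    congr 1
    have hi : iIndepFun (fun (e : Sym2 V) (fl : Sym2 V → Bool) => w e (fl e) (s e)) B :=
      iIndepFun_infinitePi (X := fun e b => w e b (s e)) fun _ => measurable_of_countable _
    rw [lintegral_prod_eq_prod_lintegral_of_indepFun F _ hi hwe]
    refine Finset.prod_congr rfl fun e _ => ?_
    rw [hB, ← lintegral_map (measurable_of_countable fun b => w e b (s e)) (measurable_pi_apply e),
      Measure.infinitePi_map_eval]
    simp [coin, dens, hw, add_comm]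
  · have hwj : ∀ e, Measurable fun q : (Sym2 V → Bool) × Conf => w e (q.1 e) (q.2 e) := fun e =>
      (hwm e).comp (((measurable_pi_apply e).comp measurable_fst).prodMk
        ((measurable_pi_apply e).comp measurable_snd) :
          Measurable fun q : (Sym2 V → Bool) × Conf => (q.1 e, q.2 e))
    exact (((measurable_one.indicator hA).comp measurable_snd).mul
      (Finset.measurable_prod F fun e _ => hwj e)).aemeasurable

lemma tilt_contig (hatom : ∀ x, G {x} = 0) (F : Finset (Sym2 V)) {ε : ℝ} (h0 : 0 ≤ ε) (h1 : ε ≤ 1)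
    {A : Set Conf} (hA : MeasurableSet A) :
    (tiltLaw G ε) {p | tiltW F p.1 p.2.1 p.2.2 ∈ A} ^ 2 ≤
      ENNReal.ofReal (Real.exp (F.card * ε ^ 2)) * env G A := by
  have hρ : Measurable fun s : Conf => ∏ e ∈ F, dens G ε (s e) :=
    Finset.measurable_prod F fun e _ => (dens_meas G ε).comp (measurable_pi_apply e)
  have hH := ENNReal.lintegral_mul_le_Lp_mul_Lq (env G) Real.HolderConjugate.two_two
    (f := A.indicator 1) (g := fun s => ∏ e ∈ F, dens G ε (s e))
    (measurable_one.indicator hA).aemeasurable hρ.aemeasurable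
  have h2 : ∀ x : ℝ≥0∞, x ^ (2 : ℝ) = x ^ (2 : ℕ) := fun x => by
    rw [← ENNReal.rpow_natCast]; norm_num
  have hind : ∀ s : Conf, A.indicator (1 : Conf → ℝ≥0∞) s ^ (2 : ℝ) = A.indicator 1 s := fun s => by
    by_cases hs : s ∈ A <;> simp [hs]
  simp only [hind, lintegral_indicator_one hA, Pi.mul_apply] at hH
  have h2' := h2
  have hsq : ∫⁻ s, (∏ e ∈ F, dens G ε (s e)) ^ (2 : ℝ) ∂env G ≤
      ENNReal.ofReal (Real.exp (F.card * ε ^ 2)) := by
    simp only [h2, ← Finset.prod_pow]
    have hi : iIndepFun (fun (e : Sym2 V) (s : Conf) => dens G ε (s e) ^ 2) (env G) :=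
      iIndepFun_infinitePi (X := fun _ x => dens G ε x ^ 2) fun _ => (dens_meas G ε).pow_const 2
    rw [lintegral_prod_eq_prod_lintegral_of_indepFun F _ hi fun e =>
      ((dens_meas G ε).pow_const 2).comp (measurable_pi_apply e)]
    refine (Finset.prod_le_prod' fun e _ => ?_).trans
      (b := ∏ _e ∈ F, ENNReal.ofReal (Real.exp (ε ^ 2))) (le_of_eq ?_)
    · refine le_trans (le_of_eq ?_) (dens_sq G hatom h0 h1)
      rw [env, ← lintegral_map ((dens_meas G ε).pow_const 2) (measurable_pi_apply e),
        Measure.infinitePi_map_eval]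
    · rw [Finset.prod_const, ← ENNReal.ofReal_pow (Real.exp_pos _).le, ← Real.exp_nat_mul]
  refine (pow_le_pow_left' ((tilt_density G F h0 h1 hA).trans hH) 2).trans ?_
  rw [mul_pow, ← ENNReal.rpow_natCast (env G A ^ (1 / 2 : ℝ)), ← ENNReal.rpow_mul,
    ← ENNReal.rpow_natCast ((∫⁻ _, _ ∂env G) ^ (1 / 2 : ℝ)), ← ENNReal.rpow_mul]
  norm_num
  rw [mul_comm]
  simp only [h2'] at hsq
  exact mul_le_mul' hsq le_rfl

lemma tilt_flag (F : Finset (Sym2 V)) {ε : ℝ} (h0 : 0 ≤ ε) (h1 : ε ≤ 1) {A : Set Conf}
    (hA : MeasurableSet A) {e : Sym2 V} (he : e ∈ F) {a b : ℝ} (hab : a ≤ b)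
    (hAb : A ⊆ {s | b ≤ s e}) :
    ENNReal.ofReal (ε / 2) * G (Set.Iio a) *
        (tiltLaw G ε) {p | tiltW F p.1 p.2.1 p.2.2 ∈ A} ≤
      (tiltLaw G ε) {p | tiltW F p.1 p.2.1 p.2.2 ∈ A ∧ p.2.2 e = true ∧ p.1 e < a} := by
  classical
  haveI := coin_prob h0 h1
  set B := Measure.infinitePi fun _ : Sym2 V => coin ε with hB
  set F' := F.erase e with hF'
  set K : Conf × Conf × (Sym2 V → Bool) → Conf := fun p =>
    Function.update (tiltW F' p.1 p.2.1 p.2.2) e (p.1 e) with hK
  set K' : Conf × Conf × (Sym2 V → Bool) → Conf := fun p =>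
    Function.update (tiltW F' p.1 p.2.1 p.2.2) e (p.2.1 e) with hK'
  have hKm : Measurable K := by
    refine measurable_pi_lambda _ fun f => ?_
    by_cases h : f = e
    · subst h; simp only [hK, Function.update_self]; fun_prop
    · simp only [hK, Function.update_of_ne h]
      exact (measurable_pi_apply f).comp (tiltW_meas F')
  have hK'm : Measurable K' := by
    refine measurable_pi_lambda _ fun f => ?_
    by_cases h : f = e
    · subst h; simp only [hK', Function.update_self]; fun_prop
    · simp only [hK', Function.update_of_ne h]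
      exact (measurable_pi_apply f).comp (tiltW_meas F')
  have hswap : ∀ t u fl, K' (t, u, fl) = K (mix {e} t u, mix {e} u t, fl) := by
    intro t u fl
    funext f
    by_cases h : f = e
    · subst h; simp [hK, hK', mix]
    · simp [hK, hK', mix, h, tiltW]
  set q : (Sym2 V → Bool) → ℝ≥0∞ := fun fl =>
    ((env G).prod (env G)) {p | K (p.1, p.2, fl) ∈ A} with hq
  have hqm : Measurable q := by
    have hm : MeasurableSet {p : (Sym2 V → Bool) × Conf × Conf | K (p.2.1, p.2.2, p.1) ∈ A} :=
      (hKm.comp (by fun_prop : Measurable fun p : (Sym2 V → Bool) × Conf × Conf =>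
        (p.2.1, p.2.2, p.1))) hA
    exact measurable_measure_prodMk_left hm
  have hq' : ∀ fl, ((env G).prod (env G)) {p | K' (p.1, p.2, fl) ∈ A} = q fl := by
    intro fl
    have hS : MeasurableSet {p : Conf × Conf | K (p.1, p.2, fl) ∈ A} :=
      (hKm.comp (by fun_prop : Measurable fun p : Conf × Conf => (p.1, p.2, fl))) hA
    simp only [hq]
    rw [← (swap_env G {e}).measure_preimage hS.nullMeasurableSet]
    simp only [hswap]
    rfl
  set Q := ∫⁻ fl, q fl ∂B with hQdef
  have hKA : MeasurableSet {p | K p ∈ A} := hKm hA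
  have hK'A : MeasurableSet {p | K' p ∈ A} := hK'm hA
  have hPK : tiltLaw G ε {p | K p ∈ A} = Q := tiltLaw_apply G h0 h1 hKA
  have hPK' : tiltLaw G ε {p | K' p ∈ A} = Q := by
    rw [tiltLaw_apply G h0 h1 hK'A]
    exact lintegral_congr hq'
  have hle : (tiltLaw G ε) {p | tiltW F p.1 p.2.1 p.2.2 ∈ A} ≤ Q + Q := by
    have hsub : {p : Conf × Conf × (Sym2 V → Bool) | tiltW F p.1 p.2.1 p.2.2 ∈ A} ⊆
        {p | K p ∈ A} ∪ {p | K' p ∈ A} := by
      rintro ⟨t, u, fl⟩ hp
      simp only [Set.mem_setOf_eq, Set.mem_union] at hp ⊢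
      have hor : tiltW F t u fl = K (t, u, fl) ∨ tiltW F t u fl = K' (t, u, fl) := by
        have hne : ∀ f, f ≠ e → tiltW F t u fl f = tiltW F' t u fl f := fun f hf => by
          simp [tiltW, hF', hf]
        by_cases hc : fl e = true ∧ t e < u e
        · refine Or.inr (funext fun f => ?_)
          by_cases hf : f = e
          · subst hf; simp [hK', tiltW, he, hc.1, hc.2.le]
          · simp [hK', hf, hne f hf]
        · refine Or.inl (funext fun f => ?_)
          by_cases hf : f = e
          · subst hf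
            simp only [hK, tiltW, Function.update_self, he, true_and]
            split_ifs with h
            · exact max_eq_left (not_lt.1 fun h' => hc ⟨h, h'⟩)
            · rfl
          · simp [hK, hf, hne f hf]
      rcases hor with h | h <;> rw [h] at hp
      · exact Or.inl hp
      · exact Or.inr hp
    refine (measure_mono hsub).trans ((measure_union_le _ _).trans ?_)
    rw [hPK, hPK']
  have hge : ENNReal.ofReal ε * G (Set.Iio a) * Q ≤
      (tiltLaw G ε) {p | tiltW F p.1 p.2.1 p.2.2 ∈ A ∧ p.2.2 e = true ∧ p.1 e < a} := by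
    set E := {p : Conf × Conf × (Sym2 V → Bool) | K' p ∈ A ∧ p.2.2 e = true ∧ p.1 e < a} with hE
    have hEm : MeasurableSet E := by
      rw [hE, Set.setOf_and, Set.setOf_and]
      exact (hK'm hA).inter
        (((by fun_prop : Measurable fun p : Conf × Conf × (Sym2 V → Bool) => p.2.2 e)
          (measurableSet_singleton true)).inter
          ((by fun_prop : Measurable fun p : Conf × Conf × (Sym2 V → Bool) => p.1 e)
            measurableSet_Iio))
    have hsub : E ⊆ {p | tiltW F p.1 p.2.1 p.2.2 ∈ A ∧ p.2.2 e = true ∧ p.1 e < a} := by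
      rintro ⟨t, u, fl⟩ ⟨hA', hfl, hta⟩
      refine ⟨?_, hfl, hta⟩
      have hb : b ≤ u e := by simpa [hK'] using hAb hA'
      have : tiltW F t u fl = K' (t, u, fl) := by
        funext f
        by_cases hf : f = e
        · subst hf
          simp only [hK', Function.update_self, tiltW]
          rw [if_pos ⟨he, hfl⟩]
          exact max_eq_right (hta.le.trans (hab.trans hb))
        · simp [hK', tiltW, hF', hf]
      simp only [this]
      exact hA'
    refine le_trans (le_of_eq ?_) (measure_mono hsub)
    rw [tiltLaw_apply G h0 h1 hEm]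
    have hsec : ∀ fl, ((env G).prod (env G)) {p | (p.1, p.2, fl) ∈ E} =
        ({true} : Set Bool).indicator 1 (fl e) * (G (Set.Iio a) * q fl) := by
      intro fl
      by_cases hfl : fl e = true
      swap
      · simp [hE, hfl]
      simp only [hE, hfl, Set.mem_setOf_eq, true_and, Set.mem_singleton_iff,
        Set.indicator_of_mem, Pi.one_apply, one_mul]
      have hS : MeasurableSet {p : Conf × Conf | K (p.1, p.2, fl) ∈ A ∧ p.2 e < a} := by
        rw [Set.setOf_and]
        exact ((hKm.comp (by fun_prop : Measurable fun p : Conf × Conf => (p.1, p.2, fl))) hA).inter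
          ((by fun_prop : Measurable fun p : Conf × Conf => p.2 e) measurableSet_Iio)
      have h3 : ((env G).prod (env G)) {p | K' (p.1, p.2, fl) ∈ A ∧ p.1 e < a} =
          ((env G).prod (env G)) {p : Conf × Conf | K (p.1, p.2, fl) ∈ A ∧ p.2 e < a} := by
        rw [← (swap_env G {e}).measure_preimage hS.nullMeasurableSet]
        congr 1
        ext p
        simp [hswap, mix]
      have hSq : MeasurableSet {p : Conf × Conf | K (p.1, p.2, fl) ∈ A} :=
        (hKm.comp (by fun_prop : Measurable fun p : Conf × Conf => (p.1, p.2, fl))) hA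
      simp only [hq]
      rw [h3, Measure.prod_apply hS, Measure.prod_apply hSq, ← lintegral_const_mul']
      swap
      · exact measure_ne_top _ _
      refine lintegral_congr fun t => ?_
      set R : Set Conf := {u | K (t, u, fl) ∈ A} with hR
      have hRm : MeasurableSet R :=
        (hKm.comp (by fun_prop : Measurable fun u : Conf => (t, u, fl))) hA
      have hRdep : ∀ x y, R.indicator (1 : Conf → ℝ≥0∞) (Function.update x e y) =
          R.indicator 1 x := by
        intro x y
        have : K (t, Function.update x e y, fl) = K (t, x, fl) := by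
          funext f
          by_cases hf : f = e
          · subst hf; simp [hK]
          · simp [hK, tiltW, hf]
        simp only [Set.indicator_apply, hR, Set.mem_setOf_eq, this, Pi.one_apply]
      have h4 := lintegral_coord G e (measurableSet_Iio (a := a)) (measurable_one.indicator hRm)
        hRdep
      rw [lintegral_indicator_one hRm] at h4
      change _ = G (Set.Iio a) * env G R
      rw [env, ← h4, ← lintegral_indicator_one]
      · refine lintegral_congr fun u => ?_
        simp only [Set.indicator_apply, Set.mem_preimage, Set.mem_setOf_eq, hR, Pi.one_apply,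
          Set.mem_Iio]
        split_ifs <;> simp_all
      · exact measurable_prodMk_left hS
    simp only [hsec]
    have hdep : ∀ x y, q (Function.update x e y) = q x := by
      intro x y
      have : ∀ p : Conf × Conf, K (p.1, p.2, Function.update x e y) = K (p.1, p.2, x) := fun p => by
        funext f
        by_cases hf : f = e
        · subst hf; simp [hK]
        · simp [hK, tiltW, hf]
      simp only [hq, this]
    rw [lintegral_coord (coin ε) e (measurableSet_singleton true) (hqm.const_mul _)
      (fun x y => by rw [hdep]), lintegral_const_mul _ hqm, mul_assoc]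
    congr 1
    simp [coin]
  refine le_trans ?_ hge
  calc ENNReal.ofReal (ε / 2) * G (Set.Iio a) * _
      ≤ ENNReal.ofReal (ε / 2) * G (Set.Iio a) * (Q + Q) := mul_le_mul' le_rfl hle
    _ = (ENNReal.ofReal (ε / 2) + ENNReal.ofReal (ε / 2)) * G (Set.Iio a) * Q := by ring
    _ = _ := by rw [← ENNReal.ofReal_add (by positivity) (by positivity), add_halves]

/-- The changes of measure. -/
theorem change_stmt : ChangeStmt G := fun hatom =>
  ⟨shift_law G, fun π _ hA => lower_law G π hA,
    fun F _ h0 h1 _ hA => tilt_contig G hatom F h0 h1 hA,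
    fun F _ h0 h1 _ hA _ he _ _ hab hAb => tilt_flag G F h0 h1 hA he hab hAb⟩

end Vale.Agent.P158.NB
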