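import Vale.Agent.P158.NB.Lowered

/-!
# P158: lines made of two rays from a common vertex

If, for arbitrarily large boxes, the concatenation of two rays from `x` is an optimal path in some
domain containing the box, then the two rays form a line.
-/

namespace Vale.Agent.P158.NB

open Vale.Agent.P158 Filter Topology

/-- Backwards along `p`, then forwards along `q`. -/
def gline (p q : ℕ → V) : ℤ → V := fun i => if 0 ≤ i then q i.toNat else p (-i).toNat

lemma gline_nonneg (p q : ℕ → V) (j : ℕ) : gline p q j = q j := by simp [gline]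

lemma gline_neg {p q : ℕ → V} (h0 : p 0 = q 0) (j : ℕ) : gline p q (-(j : ℤ)) = p j := by
  unfold gline
  rcases Nat.eq_zero_or_pos j with rfl | hj
  · simp [h0]
  · rw [if_neg (by omega)]
    simp

lemma gline_adj {p q : ℕ → V} (h0 : p 0 = q 0) (hp : ∀ k, Adj (p k) (p (k + 1)))
    (hq : ∀ k, Adj (q k) (q (k + 1))) (i : ℤ) : Adj (gline p q i) (gline p q (i + 1)) := by
  rcases le_or_gt 0 i with hi | hi
  · obtain ⟨j, rfl⟩ := Int.eq_ofNat_of_zero_le hi
    rw [show (j : ℤ) + 1 = ((j + 1 : ℕ) : ℤ) by push_cast; rfl, gline_nonneg, gline_nonneg]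
    exact hq j
  · obtain ⟨j, rfl⟩ : ∃ j : ℕ, i = -((j + 1 : ℕ) : ℤ) := ⟨(-i - 1).toNat, by omega⟩
    rw [gline_neg h0, show -((j + 1 : ℕ) : ℤ) + 1 = -((j : ℕ) : ℤ) by push_cast; ring,
      gline_neg h0]
    exact adj_comm (hp j)

lemma mem_box0 {r : ℕ} {v : V} : v ∈ box 0 r ↔ |v.1| ≤ r ∧ |v.2| ≤ r := by simp [box]

lemma box0_finite_bound (S : Finset V) : ∃ r : ℕ, ∀ v ∈ S, v ∈ box 0 r := by
  refine ⟨S.sup fun v => v.1.natAbs + v.2.natAbs, fun v hv => ?_⟩
  have := Finset.le_sup (f := fun v : V => v.1.natAbs + v.2.natAbs) hv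
  rw [mem_box0, abs_le, abs_le]
  omega

/-- The finite path `p A, …, p 0 = q 0, …, q B`. -/
lemma gline_cost {t : Conf} {p q : ℕ → V} (h0 : p 0 = q 0) (A B : ℕ) :
    cost t (fun k : ℕ => gline p q (-(A : ℤ) + k)) (A + B) = cost t p A + cost t q B := by
  unfold cost
  rw [Finset.sum_range_add]
  congr 1
  · rw [← Finset.sum_range_reflect (fun k => t s(p k, p (k + 1))) A]
    refine Finset.sum_congr rfl fun k hk => ?_
    have hk' := Finset.mem_range.1 hk
    beta_reduce
    rw [show -(A : ℤ) + (k : ℤ) = -((A - k : ℕ) : ℤ) by omega, gline_neg h0,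
      show -(A : ℤ) + ((k + 1 : ℕ) : ℤ) = -((A - 1 - k : ℕ) : ℤ) by omega, gline_neg h0,
      show A - 1 - k + 1 = A - k by omega, Sym2.eq_swap]
  · refine Finset.sum_congr rfl fun k _ => ?_
    beta_reduce
    rw [show -(A : ℤ) + ((A + k : ℕ) : ℤ) = (k : ℤ) by omega, gline_nonneg,
      show -(A : ℤ) + ((A + k + 1 : ℕ) : ℤ) = ((k + 1 : ℕ) : ℤ) by omega, gline_nonneg]

/-- The criterion. -/
theorem gline_isLine {t : Conf} (hpos : ∀ e, 0 < t e) {p q : ℕ → V} (h0 : p 0 = q 0)
    (hp : ∀ k, Adj (p k) (p (k + 1))) (hq : ∀ k, Adj (q k) (q (k + 1)))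
    (hopt : ∀ r : ℕ, ∃ (A B : ℕ) (K : Set (Sym2 V)), r ≤ A ∧ r ≤ B ∧ (∀ e ∈ edgesIn (box 0 r), IsEdge e → e ∈ K) ∧
      (∀ k < A, s(p k, p (k + 1)) ∈ K) ∧ (∀ k < B, s(q k, q (k + 1)) ∈ K) ∧
      ∀ w M, PathIn K (p A) (q B) w M → cost t p A + cost t q B ≤ cost t w M) :
    IsLine t (gline p q) := by
  have hgeo : ∀ (i : ℤ) (L : ℕ), IsGeo t (fun k => gline p q (i + k)) L := by
    intro i L
    refine ⟨fun k _ => ?_, fun w M hw hw0 hwM => ?_⟩
    · beta_reduce
      rw [show i + ((k + 1 : ℕ) : ℤ) = i + k + 1 by push_cast; ring]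
      exact gline_adj h0 hp hq _
    classical
    obtain ⟨r₀, hr₀⟩ := box0_finite_bound ((Finset.range (M + 1)).image w)
    obtain ⟨A, B, K, hA, hB, hbox, hpK, hqK, hmin⟩ := hopt (max r₀ (i.natAbs + L))
    set g := fun k : ℕ => gline p q (-(A : ℤ) + k) with hg
    have hgpath : IsPath g (A + B) := fun k _ => by
      simp only [hg]
      rw [show -(A : ℤ) + ((k + 1 : ℕ) : ℤ) = -(A : ℤ) + k + 1 by push_cast; ring]
      exact gline_adj h0 hp hq _
    have hgK : ∀ k < A + B, s(g k, g (k + 1)) ∈ K := by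
      intro k hk
      simp only [hg]
      rcases lt_or_ge k A with h | h
      · rw [show -(A : ℤ) + (k : ℤ) = -((A - k : ℕ) : ℤ) by omega, gline_neg h0,
          show -(A : ℤ) + ((k + 1 : ℕ) : ℤ) = -((A - 1 - k : ℕ) : ℤ) by omega, gline_neg h0,
          show A - k = A - 1 - k + 1 by omega, Sym2.eq_swap]
        exact hpK _ (by omega)
      · rw [show -(A : ℤ) + (k : ℤ) = ((k - A : ℕ) : ℤ) by omega, gline_nonneg,
          show -(A : ℤ) + ((k + 1 : ℕ) : ℤ) = ((k - A + 1 : ℕ) : ℤ) by omega, gline_nonneg]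
        exact hqK _ (by omega)
    -- position of the window inside `g`
    obtain ⟨a, ha⟩ : ∃ a : ℕ, (a : ℤ) = A + i := ⟨(A + i).toNat, by omega⟩
    have haL : a + L ≤ A + B := by omega
    have hwin : ∀ k, g (a + k) = gline p q (i + k) := fun k => by
      simp only [hg]
      congr 1
      omega
    have hpre : IsPath g a := fun k hk => hgpath k (by omega)
    have hsuf := hgpath.shift haL le_rfl
    have hw0' : w 0 = g a := hw0.trans (by simpa using (hwin 0).symm)
    have hwM' : (fun k => g (a + L + k)) 0 = cat g a w (a + M) := by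
      rw [cat_right g w a M hw0']
      simpa [hwin L] using hwM.symm
    set P := cat (cat g a w) (a + M) fun k => g (a + L + k) with hP
    have hPpath : IsPath P (a + M + (A + B - (a + L))) :=
      cat_path (cat_path hpre hw hw0') hsuf hwM'
    have hPK : ∀ k < a + M + (A + B - (a + L)), s(P k, P (k + 1)) ∈ K := by
      intro k hk
      simp only [hP]
      rcases lt_or_ge k (a + M) with h | h
      · rw [cat_left _ _ _ _ h.le, cat_left _ _ _ _ h]
        rcases lt_or_ge k a with h' | h'
        · rw [cat_left _ _ _ _ h'.le, cat_left _ _ _ _ h']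
          exact hgK k (by omega)
        · obtain ⟨l, rfl⟩ : ∃ l, k = a + l := ⟨k - a, by omega⟩
          show s(cat g a w (a + l), cat g a w (a + (l + 1))) ∈ K
          rw [cat_right _ _ _ _ hw0', cat_right _ _ _ _ hw0']
          refine hbox _ (fun v hv => ?_) ⟨_, _, hw l (by omega), rfl⟩
          have hmem : ∀ j, j ≤ M → w j ∈ box 0 (max r₀ (i.natAbs + L)) := fun j hj => by
            have := mem_box0.1 (hr₀ (w j) (Finset.mem_image_of_mem w (Finset.mem_range.2 (by omega))))
            rw [mem_box0]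
            constructor <;> omega
          rcases Sym2.mem_iff.1 hv with rfl | rfl <;> apply hmem <;> omega
      · obtain ⟨l, rfl⟩ : ∃ l, k = a + M + l := ⟨k - (a + M), by omega⟩
        show s(cat (cat g a w) (a + M) (fun k => g (a + L + k)) (a + M + l),
          cat (cat g a w) (a + M) (fun k => g (a + L + k)) (a + M + (l + 1))) ∈ K
        rw [cat_right _ _ _ _ hwM', cat_right _ _ _ _ hwM']
        exact hgK _ (by omega)
    have key := hmin P (a + M + (A + B - (a + L))) ⟨hPpath, hPK, by
        simp only [hP]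
        rw [cat_left _ _ _ _ (Nat.zero_le _), cat_left _ _ _ _ (Nat.zero_le _)]
        simp [hg, gline_neg h0], by
        simp only [hP]
        rw [cat_right _ _ _ _ hwM', show a + L + (A + B - (a + L)) = A + B by omega]
        simp only [hg]
        rw [show -(A : ℤ) + ((A + B : ℕ) : ℤ) = (B : ℤ) by omega, gline_nonneg]⟩
    rw [← gline_cost h0 A B, hP, cat_cost t hwM', cat_cost t hw0'] at key
    have hsplit : cost t g (A + B) = cost t g a + cost t (fun k : ℕ => gline p q (i + k)) L +
        cost t (fun k => g (a + L + k)) (A + B - (a + L)) := by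
      unfold cost
      conv_lhs => rw [show A + B = a + L + (A + B - (a + L)) by omega, Finset.sum_range_add,
        Finset.sum_range_add]
      congr 1
      congr 1
      exact Finset.sum_congr rfl fun k _ => by rw [hwin k, add_assoc, hwin (k + 1)]
    linarith
  refine ⟨fun a b hab => ?_, gline_adj h0 hp hq, hgeo⟩
  by_contra hne
  wlog hlt : a < b generalizing a b with H
  · exact H b a hab.symm (Ne.symm hne) (by omega)
  have h1 := isGeo_injOn hpos (hgeo a (b - a).toNat) (show (0 : ℕ) ∈ Set.Iic (b - a).toNat by simp)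
    (show (b - a).toNat ∈ Set.Iic (b - a).toNat by simp)
    (by
      rw [show a + (((b - a).toNat : ℕ) : ℤ) = b by omega, Nat.cast_zero, add_zero, hab])
  omega

end Vale.Agent.P158.NB
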