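import Vale.Agent.P158.NB.Cycle

/-!
# P158: geometry of the domain of a lattice cycle

Edges of the cycle lie in the domain, the domain is finite, a path starting deep inside stays in
the domain until it hits the cycle, an injective line must hit it, and everything commutes with
translations.
-/

namespace Vale.Agent.P158.NB

open Vale.Agent.P158

/-! ## Colours -/

lemma use_eq_zero_of_not_mem {e : Sym2 V} {a b w : V} (hw : w ∈ e) (ha : a ≠ w) (hb : b ≠ w) :
    use e a b = 0 := by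
  classical
  rw [use, if_neg]
  intro h
  subst h
  rcases Sym2.mem_iff.1 hw with rfl | rfl
  · exact ha rfl
  · exact hb rfl

/-- Left of all vertices of a closed walk the colour is zero. -/
lemma col_eq_zero_of_left {v : ℕ → V} {L : ℕ} (h : IsPath v L) (hcl : v L = v 0) {f : V}
    (hf : ∀ k ≤ L, f.1 < (v k).1) : col v L f = 0 := by
  classical
  let g : V → ZMod 2 := fun a => if a.2 ≤ f.2 then 1 else 0
  have key : ∀ k ∈ Finset.range L, hit f (v k) (v (k + 1)) = g (v (k + 1)) - g (v k) := by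
    intro k hk
    have hk' := Finset.mem_range.1 hk
    have h1 := hf k hk'.le
    have h2 := hf (k + 1) hk'
    have := adj_cases (h k hk')
    simp only [hit, g]
    split_ifs <;> first | decide | omega
  rw [col, Finset.sum_congr rfl key, Finset.sum_range_sub (fun k => g (v k)), hcl, sub_self]

lemma hit_shift (f a b z : V) : hit (f + z) (a + z) (b + z) = hit f a b := by
  classical
  simp only [hit, Prod.fst_add, Prod.snd_add]
  refine if_congr ?_ rfl rfl
  omega

namespace Cyc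

variable (C : Cyc)

lemma three_pos : 0 < C.m := by have := C.three; omega

lemma c_mem_range {k : ℕ} (hk : k ≤ C.m) : ∃ i < C.m, C.c i = C.c k := by
  rcases hk.lt_or_eq with h | rfl
  · exact ⟨k, h, rfl⟩
  · exact ⟨0, C.three_pos, C.closed.symm⟩

/-- A cycle vertex. -/
def OnC (w : V) : Prop := ∃ k < C.m, C.c k = w

lemma onC_c {k : ℕ} (hk : k ≤ C.m) : C.OnC (C.c k) := C.c_mem_range hk

lemma not_onC_ne {w : V} (hw : ¬ C.OnC w) {k : ℕ} (hk : k ≤ C.m) : C.c k ≠ w :=
  fun h => hw (h ▸ C.onC_c hk)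

lemma par_eq_zero_of_not_onC {w : V} {e : Sym2 V} (hw : ¬ C.OnC w) (he : w ∈ e) :
    par C.c C.m e = 0 :=
  Finset.sum_eq_zero fun k hk => by
    rw [Finset.mem_range] at hk
    exact use_eq_zero_of_not_mem he (C.not_onC_ne hw hk.le) (C.not_onC_ne hw hk)

/-- (a) Every cycle edge is an edge of the domain. -/
lemma cycleEdge_mem {k : ℕ} (hk : k < C.m) : s(C.c k, C.c (k + 1)) ∈ C.edges := C.edge_mem hk

lemma cycleEdge_mem_mod {k : ℕ} : s(C.c (k % C.m), C.c (k % C.m + 1)) ∈ C.edges :=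
  C.edge_mem (Nat.mod_lt _ C.three_pos)

/-! ## Finiteness -/

/-- An inner face lies between cycle vertices in both coordinates. -/
lemma inner_bounds {f : V} (hf : C.inner f) :
    (∃ i < C.m, (C.c i).1 ≤ f.1) ∧ (∃ i < C.m, f.1 + 1 ≤ (C.c i).1) ∧
      (∃ i < C.m, (C.c i).2 = f.2) ∧ (∃ i < C.m, (C.c i).2 = f.2 + 1) := by
  classical
  have h1 : ∃ i < C.m, (C.c i).1 ≤ f.1 := by
    by_contra hc
    push Not at hc
    have : col C.c C.m f = 0 := col_eq_zero_of_left C.path C.closed fun k hk => by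
      obtain ⟨i, hi, he⟩ := C.c_mem_range hk
      exact he ▸ hc i hi
    rw [inner, this] at hf
    exact zero_ne_one hf
  have h2 : ∃ k, k < C.m ∧ hit f (C.c k) (C.c (k + 1)) ≠ 0 := by
    by_contra hc
    push Not at hc
    have : col C.c C.m f = 0 :=
      Finset.sum_eq_zero fun k hk => hc k (Finset.mem_range.1 hk)
    rw [inner, this] at hf
    exact zero_ne_one hf
  obtain ⟨k, hk, hh⟩ := h2
  rw [hit] at hh
  split_ifs at hh with hc
  · obtain ⟨he, hmin, hlt, hne⟩ := hc
    obtain ⟨j, hj, hje⟩ := C.c_mem_range (show k + 1 ≤ C.m from hk)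
    have := adj_cases (C.path k hk)
    refine ⟨h1, ⟨k, hk, by omega⟩, ?_, ?_⟩
    · rcases le_total (C.c k).2 (C.c (k + 1)).2 with h | h
      · exact ⟨k, hk, by omega⟩
      · exact ⟨j, hj, by rw [hje]; omega⟩
    · rcases le_total (C.c k).2 (C.c (k + 1)).2 with h | h
      · exact ⟨j, hj, by rw [hje]; omega⟩
      · exact ⟨k, hk, by omega⟩
  · exact absurd rfl hh

/-- (b) Inner faces of a cycle in a box lie in the box with their four corners. -/
lemma inner_in_box {z : V} {R : ℕ} (h : ∀ k < C.m, C.c k ∈ box z R) {f : V} (hf : C.inner f) :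
    f ∈ box z R ∧ (f.1 + 1, f.2 + 1) ∈ box z R := by
  obtain ⟨⟨a, ha, ha'⟩, ⟨b, hb, hb'⟩, ⟨c, hc, hc'⟩, ⟨d, hd, hd'⟩⟩ := C.inner_bounds hf
  have ha2 := h a ha
  have hb2 := h b hb
  have hc2 := h c hc
  have hd2 := h d hd
  simp only [box, Set.mem_ofPred_eq, abs_le] at *
  omega

lemma inner_finite : {f | C.inner f}.Finite := by
  classical
  obtain ⟨R, hR⟩ : ∃ R : ℕ, ∀ k < C.m, C.c k ∈ box 0 R := by
    refine ⟨(Finset.range C.m).sup fun k => (C.c k).1.natAbs + (C.c k).2.natAbs, fun k hk => ?_⟩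
    have := Finset.le_sup (f := fun k => (C.c k).1.natAbs + (C.c k).2.natAbs)
      (Finset.mem_range.2 hk)
    simp only [box, Set.mem_ofPred_eq, abs_le, Prod.fst_zero, Prod.snd_zero] at *
    omega
  refine (((Set.finite_Icc (-(R : ℤ)) R).prod (Set.finite_Icc (-(R : ℤ)) R))).subset ?_
  intro f hf
  have := (C.inner_in_box hR hf).1
  simp only [box, Set.mem_ofPred_eq, abs_le, Prod.fst_zero, Prod.snd_zero, sub_zero] at this
  exact ⟨⟨this.1.1, this.1.2⟩, ⟨this.2.1, this.2.2⟩⟩

lemma edges_finite : C.edges.Finite := by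
  have hfin := C.inner_finite
  refine ((((hfin.image vE).union (hfin.image fun f => vE (f.1 + 1, f.2))).union
    (hfin.image hE)).union (hfin.image fun f => hE (f.1, f.2 + 1))).subset ?_
  rintro e ⟨f, ht, hf⟩
  rcases ht with rfl | rfl | rfl | rfl
  · exact Or.inl (Or.inl (Or.inl ⟨f, hf, rfl⟩))
  · exact Or.inl (Or.inl (Or.inr ⟨f, hf, rfl⟩))
  · exact Or.inl (Or.inr ⟨f, hf, rfl⟩)
  · exact Or.inr ⟨f, hf, rfl⟩

lemma edges_subset_box {z : V} {R : ℕ} (h : ∀ k < C.m, C.c k ∈ box z R) :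
    C.edges ⊆ edgesIn (box z R) := by
  rintro e ⟨f, ht, hf⟩ v hv
  obtain ⟨h1, h2⟩ := C.inner_in_box h hf
  simp only [box, Set.mem_ofPred_eq, abs_le] at *
  rcases ht with rfl | rfl | rfl | rfl <;> simp only [vE, hE, Sym2.mem_iff] at hv <;>
    rcases hv with rfl | rfl <;> first | exact h1 | exact h2 | omega | (simp only; omega)

lemma isEdge_of_mem {e : Sym2 V} (he : e ∈ C.edges) : IsEdge e := by
  obtain ⟨f, ht, -⟩ := he
  rcases ht with rfl | rfl | rfl | rfl <;>
    exact ⟨_, _, by simp [Adj], rfl⟩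

/-! ## Exit and hit -/

/-- Not on the cycle, all faces around it inner. -/
def Deep (w : V) : Prop :=
  ¬ C.OnC w ∧ C.inner w ∧ C.inner (w.1 - 1, w.2) ∧ C.inner (w.1, w.2 - 1) ∧
    C.inner (w.1 - 1, w.2 - 1)

/-- Around a vertex off the cycle all faces have one colour. -/
lemma deep_of_face {w f : V} (hw : ¬ C.OnC w) (hf : C.inner f)
    (h : f = w ∨ f = (w.1 - 1, w.2) ∨ f = (w.1, w.2 - 1) ∨ f = (w.1 - 1, w.2 - 1)) :
    C.Deep w := by
  obtain ⟨x, y⟩ := w
  have e1 := col_cross_v C.path x y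
  have e2 := col_cross_h C.path C.closed x y
  have e3 := col_cross_v C.path x (y - 1)
  rw [C.par_eq_zero_of_not_onC hw (by simp [vE])] at e1
  rw [C.par_eq_zero_of_not_onC hw (by simp [hE])] at e2
  rw [C.par_eq_zero_of_not_onC hw (by simp [vE])] at e3
  rw [CharTwo.add_eq_zero] at e1 e2 e3
  refine ⟨hw, ?_⟩
  simp only [inner] at hf ⊢
  rw [e1, e3, e2]
  suffices col C.c C.m (x, y) = 1 from ⟨this, this, this, this⟩
  rcases h with rfl | rfl | rfl | rfl
  · exact hf
  · rwa [e1] at hf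
  · rwa [e2] at hf
  · rw [e3, e2] at hf
    exact hf

lemma deep_edge {a b : V} (ha : C.Deep a) (h : Adj a b) :
    s(a, b) ∈ C.edges ∧ (¬ C.OnC b → C.Deep b) := by
  obtain ⟨-, i0, i1, i2, i3⟩ := ha
  obtain ⟨a1, a2⟩ := a
  obtain ⟨b1, b2⟩ := b
  rcases adj_cases h with ⟨h1, h2⟩ | ⟨h1, h2⟩ | ⟨h1, h2⟩ | ⟨h1, h2⟩ <;>
    simp only at h1 h2 <;> subst h1 h2
  · exact ⟨⟨_, by simp [touch, hE], i0⟩, fun hb => C.deep_of_face hb i0 (by simp)⟩
  · exact ⟨⟨_, by simp [touch, hE, Sym2.eq_swap], i1⟩, fun hb => C.deep_of_face hb i1 (by simp)⟩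
  · exact ⟨⟨_, by simp [touch, vE], i0⟩, fun hb => C.deep_of_face hb i0 (by simp)⟩
  · exact ⟨⟨_, by simp [touch, vE, Sym2.eq_swap], i2⟩, fun hb => C.deep_of_face hb i2 (by simp)⟩

lemma not_onC_of_box {z : V} {N : ℕ} (h : C.Encloses z N) {v : V} (hv : v ∈ box z N) :
    ¬ C.OnC v := fun ⟨k, hk, e⟩ => h.1 k hk (e ▸ hv)

lemma deep_of_box {z : V} {N : ℕ} (h : C.Encloses z N) (hN : 1 ≤ N) {v : V}
    (hv : v ∈ box z (N - 1)) : C.Deep v := by
  simp only [box, Set.mem_ofPred_eq, abs_le] at hv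
  have hvN : v ∈ box z N := by
    simp only [box, Set.mem_ofPred_eq, abs_le]; omega
  refine C.deep_of_face (C.not_onC_of_box h hvN) (h.2 v hvN ?_) (Or.inl rfl)
  simp only [box, Set.mem_ofPred_eq, abs_le]; omega

/-- A path from a deep vertex stays deep until it hits the cycle. -/
lemma deep_path {v : ℕ → V} {L : ℕ} (hp : IsPath v L) (h0 : C.Deep (v 0)) :
    ∀ k ≤ L, (∀ j ≤ k, ¬ C.OnC (v j)) → C.Deep (v k) := by
  intro k
  induction k with
  | zero => intro _ _; exact h0
  | succ k ih =>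
    intro hk hoff
    exact (C.deep_edge (ih (by omega) fun j hj => hoff j (by omega)) (hp k hk)).2
      (hoff (k + 1) le_rfl)

/-- (c) A path from a deep vertex uses domain edges until it hits the cycle. -/
lemma exit_edges_deep {v : ℕ → V} {L : ℕ} (hp : IsPath v L) (h0 : C.Deep (v 0))
    (hoff : ∀ k < L, ¬ C.OnC (v k)) : ∀ k < L, s(v k, v (k + 1)) ∈ C.edges :=
  fun k hk => (C.deep_edge (C.deep_path hp h0 k hk.le fun j hj => hoff j (by omega)) (hp k hk)).1

/-- (c) A path from inside uses domain edges until it hits the cycle. -/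
lemma exit_edges {z : V} {N : ℕ} (h : C.Encloses z N) (hN : 1 ≤ N) {v : ℕ → V} {L : ℕ}
    (hp : IsPath v L) (h0 : v 0 ∈ box z (N - 1)) (hoff : ∀ k < L, ¬ C.OnC (v k)) :
    ∀ k < L, s(v k, v (k + 1)) ∈ C.edges :=
  C.exit_edges_deep hp (C.deep_of_box h hN h0) hoff

/-- (c) The lattice edges of the inner box are domain edges. -/
lemma box_edges_subset {z : V} {N : ℕ} (h : C.Encloses z N) (hN : 1 ≤ N) {e : Sym2 V}
    (he : IsEdge e) (hin : e ∈ edgesIn (box z (N - 1))) : e ∈ C.edges := by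
  obtain ⟨a, b, hab, rfl⟩ := he
  exact (C.deep_edge (C.deep_of_box h hN (hin a (Sym2.mem_mk_left a b))) hab).1

/-- (d) An injective line from a deep vertex hits the cycle. -/
lemma hit_of_deep {v : ℕ → V} (hp : ∀ k, Adj (v k) (v (k + 1))) (hinj : Function.Injective v)
    (h0 : C.Deep (v 0)) : ∃ L, C.OnC (v L) ∧ ∀ k < L, ¬ C.OnC (v k) := by
  classical
  have hex : ∃ L, C.OnC (v L) := by
    by_contra hc
    push Not at hc
    refine (Set.infinite_range_of_injective hinj) (C.inner_finite.subset ?_)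
    rintro _ ⟨k, rfl⟩
    exact (C.deep_path (L := k) (fun j _ => hp j) h0 k le_rfl fun j _ => hc j).2.1
  exact ⟨Nat.find hex, Nat.find_spec hex, fun k hk => Nat.find_min hex hk⟩

/-- (d) The forward part of a line from inside hits the cycle. -/
lemma hit_forward {z : V} {N : ℕ} (h : C.Encloses z N) (hN : 1 ≤ N) {γ : ℤ → V}
    (hinj : Function.Injective γ) (hadj : ∀ i, Adj (γ i) (γ (i + 1))) {m0 : ℤ}
    (h0 : γ m0 ∈ box z (N - 1)) :
    ∃ L : ℕ, C.OnC (γ (m0 + L)) ∧ ∀ k < L, ¬ C.OnC (γ (m0 + k)) := by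
  refine C.hit_of_deep (v := fun k : ℕ => γ (m0 + k)) (fun k => ?_) (fun a b e => ?_) ?_
  · have := hadj (m0 + k)
    rwa [show m0 + (k : ℤ) + 1 = m0 + ((k + 1 : ℕ) : ℤ) by push_cast; ring] at this
  · have := hinj e; omega
  · simpa using C.deep_of_box h hN h0

/-- (d) The backward part of a line from inside hits the cycle. -/
lemma hit_backward {z : V} {N : ℕ} (h : C.Encloses z N) (hN : 1 ≤ N) {γ : ℤ → V}
    (hinj : Function.Injective γ) (hadj : ∀ i, Adj (γ i) (γ (i + 1))) {m0 : ℤ}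
    (h0 : γ m0 ∈ box z (N - 1)) :
    ∃ L : ℕ, C.OnC (γ (m0 - L)) ∧ ∀ k < L, ¬ C.OnC (γ (m0 - k)) := by
  obtain ⟨L, hL, hoff⟩ := C.hit_forward h hN (γ := fun i => γ (-i)) (fun a b e => by
    have := hinj e; omega) (fun i => by
      have := adj_comm (hadj (-(i + 1)))
      rwa [show -(i + 1) + 1 = -i by ring] at this) (m0 := -m0) (by simpa using h0)
  exact ⟨L, by simpa [neg_add_rev, sub_eq_add_neg, add_comm] using hL, fun k hk => by
    simpa [neg_add_rev, sub_eq_add_neg, add_comm] using hoff k hk⟩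

/-- (d) The statement with a cycle index. -/
lemma exists_hit {z : V} {N : ℕ} (h : C.Encloses z N) (hN : 1 ≤ N) {γ : ℤ → V}
    (hinj : Function.Injective γ) (hadj : ∀ i, Adj (γ i) (γ (i + 1))) {m0 : ℤ}
    (h0 : γ m0 ∈ box z (N - 1)) : ∃ n, m0 ≤ n ∧ ∃ k < C.m, C.c k = γ n := by
  obtain ⟨L, hL, -⟩ := C.hit_forward h hN hinj hadj h0
  exact ⟨m0 + L, by omega, hL⟩

end Cyc

/-! ## Translations -/

/-- Translation of an edge. -/
def trE (z : V) (e : Sym2 V) : Sym2 V := Sym2.map (fun v => v + z) e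

@[simp] lemma trE_mk (z a b : V) : trE z s(a, b) = s(a + z, b + z) := rfl

lemma trE_trE (z w : V) (e : Sym2 V) : trE z (trE w e) = trE (w + z) e := by
  induction e using Sym2.ind with
  | _ a b => simp [add_assoc]

@[simp] lemma trE_zero (e : Sym2 V) : trE 0 e = e := by
  induction e using Sym2.ind with
  | _ a b => simp

lemma trE_injective (z : V) : Function.Injective (trE z) := by
  intro e e' h
  simpa [trE_trE] using congrArg (trE (-z)) h

lemma shiftW_apply (z : V) (t : Conf) (e : Sym2 V) : shiftW z t e = t (trE z e) := rfl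

lemma adj_add_iff {a b z : V} : Adj (a + z) (b + z) ↔ Adj a b := by
  simp [Adj]

lemma isPath_add_iff {v : ℕ → V} {L : ℕ} {z : V} :
    IsPath (fun k => v k + z) L ↔ IsPath v L := by
  simp [IsPath, adj_add_iff]

lemma cost_shiftW (z : V) (t : Conf) (v : ℕ → V) (L : ℕ) :
    cost (shiftW z t) v L = cost t (fun k => v k + z) L := rfl

lemma isEdge_trE {z : V} {e : Sym2 V} (h : IsEdge e) : IsEdge (trE z e) := by
  obtain ⟨a, b, hab, rfl⟩ := h
  exact ⟨a + z, b + z, adj_add_iff.2 hab, rfl⟩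

lemma pathIn_add_iff {K : Set (Sym2 V)} {x y z : V} {v : ℕ → V} {L : ℕ} :
    PathIn (trE z '' K) (x + z) (y + z) (fun k => v k + z) L ↔ PathIn K x y v L := by
  constructor
  · rintro ⟨hp, hm, hf, hl⟩
    refine ⟨isPath_add_iff.1 hp, fun k hk => ?_, add_right_cancel hf, add_right_cancel hl⟩
    have := hm k hk
    rwa [← trE_mk, (trE_injective z).mem_set_image] at this
  · rintro ⟨hp, hm, hf, hl⟩
    exact ⟨isPath_add_iff.2 hp, fun k hk => ⟨_, hm k hk, rfl⟩, by rw [hf], by rw [hl]⟩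

lemma T_shift (z : V) (t : Conf) (K : Set (Sym2 V)) (x y : V) :
    T t (trE z '' K) (x + z) (y + z) = T (shiftW z t) K x y := by
  refine congrArg sInf (Set.ext fun r => ⟨?_, ?_⟩)
  · rintro ⟨v, L, hv, rfl⟩
    refine ⟨fun k => v k - z, L, (pathIn_add_iff (z := z)).1 (by simpa using hv), ?_⟩
    rw [cost_shiftW]
    simp
  · rintro ⟨v, L, hv, rfl⟩
    exact ⟨fun k => v k + z, L, pathIn_add_iff.2 hv, rfl⟩

lemma geoIn_add_iff {t : Conf} {K : Set (Sym2 V)} {x y z : V} {v : ℕ → V} {L : ℕ} :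
    GeoIn t (trE z '' K) (x + z) (y + z) (fun k => v k + z) L ↔ GeoIn (shiftW z t) K x y v L := by
  constructor
  · rintro ⟨hp, hi, hl⟩
    refine ⟨pathIn_add_iff.1 hp, fun a ha b hb h => hi ha hb (congrArg (· + z) h), ?_⟩
    intro w M hw
    exact hl _ M (pathIn_add_iff.2 hw)
  · rintro ⟨hp, hi, hl⟩
    refine ⟨pathIn_add_iff.2 hp, fun a ha b hb h => hi ha hb (add_right_cancel h), ?_⟩
    intro w M hw
    have := hl (fun k => w k - z) M ((pathIn_add_iff (z := z)).1 (by simpa using hw))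
    simpa [cost_shiftW] using this

lemma onGeo_shift (z : V) (t : Conf) (K : Set (Sym2 V)) (x y : V) (e : Sym2 V) :
    OnGeo t (trE z '' K) (x + z) (y + z) (trE z e) ↔ OnGeo (shiftW z t) K x y e := by
  constructor
  · rintro ⟨v, L, hv, k, hk, he⟩
    refine ⟨fun k => v k - z, L, (geoIn_add_iff (z := z)).1 (by simpa using hv), k, hk, ?_⟩
    exact trE_injective z (by simpa using he)
  · rintro ⟨v, L, hv, k, hk, rfl⟩
    exact ⟨fun k => v k + z, L, geoIn_add_iff.2 hv, k, hk, rfl⟩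

namespace Cyc

/-- The translated cycle. -/
def shift (C : Cyc) (z : V) : Cyc where
  c := fun k => C.c k + z
  m := C.m
  three := C.three
  path := isPath_add_iff.2 C.path
  closed := by rw [C.closed]
  inj := fun a ha b hb h => C.inj ha hb (add_right_cancel h)

variable (C : Cyc) (z : V)

@[simp] lemma shift_c (k : ℕ) : (C.shift z).c k = C.c k + z := rfl

@[simp] lemma shift_m : (C.shift z).m = C.m := rfl

lemma shift_col (f : V) : col (C.shift z).c C.m (f + z) = col C.c C.m f :=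
  Finset.sum_congr rfl fun k _ => hit_shift f _ _ z

lemma shift_inner (f : V) : (C.shift z).inner (f + z) ↔ C.inner f := by
  simp [inner, C.shift_col z f]

lemma touch_add {e : Sym2 V} {f : V} (z : V) : touch (trE z e) (f + z) ↔ touch e f := by
  have h1 : vE (f + z) = trE z (vE f) := by
    simp [vE, Prod.add_def, add_right_comm]
  have h2 : vE ((f + z).1 + 1, (f + z).2) = trE z (vE (f.1 + 1, f.2)) := by
    simp [vE, Prod.add_def, add_right_comm]
  have h3 : hE (f + z) = trE z (hE f) := by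
    simp [hE, Prod.add_def, add_right_comm]
  have h4 : hE ((f + z).1, (f + z).2 + 1) = trE z (hE (f.1, f.2 + 1)) := by
    simp [hE, Prod.add_def, add_right_comm]
  simp only [touch, h1, h2, h3, h4, (trE_injective z).eq_iff]

lemma shift_edges : (C.shift z).edges = trE z '' C.edges := by
  ext e
  constructor
  · rintro ⟨f, ht, hf⟩
    refine ⟨trE (-z) e, ⟨f - z, ?_, ?_⟩, by simp [trE_trE]⟩
    · rw [← touch_add z]; simpa [trE_trE] using ht
    · rw [← C.shift_inner z]; simpa using hf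
  · rintro ⟨e, ⟨f, ht, hf⟩, rfl⟩
    exact ⟨f + z, (touch_add z).2 ht, (C.shift_inner z f).2 hf⟩

lemma shift_onC (w : V) : (C.shift z).OnC (w + z) ↔ C.OnC w := by
  simp [OnC]

lemma box_add {w : V} {N : ℕ} (x : V) : x + z ∈ box (w + z) N ↔ x ∈ box w N := by
  simp [box]

lemma shift_encloses (w : V) (N : ℕ) : (C.shift z).Encloses (w + z) N ↔ C.Encloses w N := by
  have hs : ∀ f : V, ((f + z).1 + 1, (f + z).2 + 1) = (f.1 + 1, f.2 + 1) + z := fun f => by
    simp [Prod.add_def, add_right_comm]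
  constructor
  · rintro ⟨h1, h2⟩
    refine ⟨fun k hk hb => h1 k hk ((box_add z _).2 hb), fun f hf hf' => ?_⟩
    rw [← C.shift_inner z]
    exact h2 _ ((box_add z _).2 hf) (by rw [hs]; exact (box_add z _).2 hf')
  · rintro ⟨h1, h2⟩
    refine ⟨fun k hk hb => h1 k hk ((box_add z _).1 hb), fun f hf hf' => ?_⟩
    have e : f = f - z + z := by simp
    rw [e] at hf hf' ⊢
    rw [hs] at hf'
    rw [C.shift_inner z]
    exact h2 _ ((box_add z _).1 hf) ((box_add z _).1 hf')

variable (t : Conf)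

lemma shift_d (F : Set (Sym2 V)) (i j : ℕ) :
    (C.shift z).d t (trE z '' F) i j = C.d (shiftW z t) F i j := by
  rw [d, d, shift_edges, ← Set.image_sdiff (trE_injective z), shift_m, shift_c, shift_c, T_shift]

lemma shift_cellD (F : Set (Sym2 V)) (i j : ℕ) :
    (C.shift z).cellD t (trE z '' F) i j = C.cellD (shiftW z t) F i j := by
  simp only [cellD, shift_d]

lemma shift_d_empty (i j : ℕ) : (C.shift z).d t ∅ i j = C.d (shiftW z t) ∅ i j := by
  simpa using C.shift_d z t ∅ i j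

lemma shift_cellD_empty (i j : ℕ) :
    (C.shift z).cellD t ∅ i j = C.cellD (shiftW z t) ∅ i j := by
  simpa using C.shift_cellD z t ∅ i j

lemma shift_gainU (F : Set (Sym2 V)) (i j : ℕ) :
    (C.shift z).gainU t (trE z '' F) i j = C.gainU (shiftW z t) F i j := by
  simp only [gainU, shift_d, shift_d_empty]

lemma shift_meets (F : Set (Sym2 V)) (i j : ℕ) :
    (C.shift z).Meets t (trE z '' F) i j ↔ C.Meets (shiftW z t) F i j := by
  simp only [Meets, shift_edges, shift_m, shift_c, Set.exists_mem_image, onGeo_shift]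

lemma shift_cellMeets (F : Set (Sym2 V)) (i j : ℕ) :
    (C.shift z).CellMeets t (trE z '' F) i j ↔ C.CellMeets (shiftW z t) F i j := by
  simp only [CellMeets, shift_meets]

lemma shift_cells : (C.shift z).cells = C.cells := rfl

lemma shift_mass (F : Set (Sym2 V)) :
    (C.shift z).mass t (trE z '' F) = C.mass (shiftW z t) F := by
  classical
  unfold mass
  refine Finset.sum_congr ?_ fun p _ => C.shift_cellD_empty z t p.1 p.2
  ext p
  simp only [Finset.mem_filter, shift_cells, shift_cellMeets]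

lemma shift_mass_singleton (e : Sym2 V) :
    (C.shift z).mass t {trE z e} = C.mass (shiftW z t) {e} := by
  simpa using C.shift_mass z t {e}

end Cyc

end Vale.Agent.P158.NB
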