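import Vale.Agent.P158.NB.Sep
import Vale.Agent.P158.NB.CycGeom

/-!
# P158: the deterministic core of the tilt argument

If `t ≤ s` agree off `F`, then the gains on `F` of finitely many lines of `s` are at most the mass
of the cells meeting `F`, for every sufficiently distant cycle.
-/

namespace Vale.Agent.P158.NB

open Vale.Agent.P158 Filter Topology

theorem cycFacts (C : Cyc) : CycFacts C where
  edge _ hk := C.edge_mem hk
  exit N v L hC hv h0 hoff := C.exit_edges hC (Nat.succ_pos N) hv (by simpa using h0)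
    fun k hk ⟨j, hj, e⟩ => hoff k hk j hj e.symm
  hit N γ m₀ hC hinj hadj h0 := by
    obtain ⟨n, hn, k, hk, e⟩ := C.exists_hit hC (Nat.succ_pos N) hinj hadj (by simpa using h0)
    exact ⟨n, hn, k, hk, e.symm⟩

lemma cycle_not_mem {C : Cyc} {S : Set (Sym2 V)} {r : ℕ} (hC : C.Encloses 0 r)
    (hS : S ⊆ edgesIn (box 0 r)) : ∀ k < C.m, s(C.c k, C.c (k + 1)) ∉ S := fun k hk h =>
  hC.1 k hk (hS h _ (Sym2.mem_mk_left _ _))

lemma reach_marks {C : Cyc} {S : Set (Sym2 V)} (hS : ∀ k < C.m, s(C.c k, C.c (k + 1)) ∉ S)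
    {i j : ℕ} (hi : i < C.m) (hj : j < C.m) : Reach (C.edges \ S) (C.c i) (C.c j) := by
  rcases le_total i j with h | h
  · exact ⟨_, _, C.arc_pathIn hS h hj.le⟩
  · exact Reach.symm ⟨_, _, C.arc_pathIn hS h hi.le⟩

lemma meets_symm {C : Cyc} {t : Conf} {S : Set (Sym2 V)} {i j : ℕ} (h : C.Meets t S i j) :
    C.Meets t S j i := by
  obtain ⟨e, he, h⟩ := h
  exact ⟨e, he, h.symm⟩

/-- The gain of a line on the index window `[a, b)`. -/
noncomputable def winGain (t s : Conf) (γ : ℤ → V) (a b : ℤ) : ℝ :=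
  ∑ k ∈ Finset.range (b - a).toNat,
    (s s(γ (a + k), γ (a + (k + 1 : ℕ))) - t s(γ (a + k), γ (a + (k + 1 : ℕ))))

lemma winGain_mono {t s : Conf} (hle : ∀ e, t e ≤ s e) (γ : ℤ → V) {a b a' b' : ℤ} (ha : a' ≤ a)
    (hb : b ≤ b') : winGain t s γ a b ≤ winGain t s γ a' b' := by
  unfold winGain
  set f : ℕ → ℝ := fun k =>
    s s(γ (a' + k), γ (a' + (k + 1 : ℕ))) - t s(γ (a' + k), γ (a' + (k + 1 : ℕ))) with hf
  have e : ∀ k : ℕ, s s(γ (a + k), γ (a + (k + 1 : ℕ))) - t s(γ (a + k), γ (a + (k + 1 : ℕ))) =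
      f ((a - a').toNat + k) := fun k => by
    simp only [hf]
    rw [show a' + (((a - a').toNat + k : ℕ) : ℤ) = a + k by omega,
      show a' + (((a - a').toNat + k + 1 : ℕ) : ℤ) = a + ((k + 1 : ℕ) : ℤ) by omega]
  rw [Finset.sum_congr rfl fun k _ => e k]
  rw [show ∑ k ∈ Finset.range (b - a).toNat, f ((a - a').toNat + k) =
      ∑ x ∈ (Finset.range (b - a).toNat).map (addLeftEmbedding (a - a').toNat), f x by
    rw [Finset.sum_map]; rfl]
  refine Finset.sum_le_sum_of_subset_of_nonneg (fun x hx => ?_)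
    fun x _ _ => by simp only [hf]; linarith [hle s(γ (a' + x), γ (a' + (x + 1 : ℕ)))]
  obtain ⟨k, hk, rfl⟩ := Finset.mem_map.1 hx
  simp only [addLeftEmbedding_apply, Finset.mem_range] at hk ⊢
  omega

section

variable {t s : Conf} (ht : OK t) (hs : OK s) (F : Finset (Sym2 V)) (hle : ∀ e, t e ≤ s e)
  (heq : ∀ e, e ∉ F → t e = s e)
  (hJt : ∀ γ δ, IsLine t γ → IsLine t δ → ShareTail γ δ → SameLine γ δ)
  (hJs : ∀ γ δ, IsLine s γ → IsLine s δ → ShareTail γ δ → SameLine γ δ)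
  (hCs : ∀ γ, IsLine s γ → ∀ x, Joins s γ x)

include ht hle heq in
/-- The gain bounds the cost of avoiding `F`, and some best path passes through an end of `F`. -/
lemma line_gain {γ : ℤ → V} (hγ : IsLine s γ) {a b : ℤ} {g : ℝ} (hg : g ≤ winGain t s γ a b)
    (hpos : 0 < g) :
    ∃ N, ∀ C : Cyc, C.Encloses 0 N → ∀ i h j l, Hit C γ 0 i h → Hit C (rev γ) 0 j l →
      g ≤ C.gainU t (F : Set (Sym2 V)) j i ∧
        ∃ x ∈ F.biUnion (fun e => e.toFinset), Via t C x i j := by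
  classical
  set W := F.biUnion (fun e => e.toFinset) with hW
  obtain ⟨r₁, h₁⟩ := box0_finite_bound (insert (γ 0) W)
  obtain ⟨r₂, h₂⟩ := box_int_range γ 0 b
  obtain ⟨r₃, h₃⟩ := box_int_range (rev γ) 0 (-a)
  refine ⟨max r₁ (max r₂ r₃) + 1, fun C hC i h j l hi hj => ?_⟩
  have hC' := Encloses.mono hC (Nat.le_succ _)
  have hh : b < h := hit_far hi hC' fun k p q => box_mono (by omega) (h₂ k p q)
  have hl : -a < l := hit_far hj hC' fun k p q => box_mono (by omega) (h₃ k p q)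
  have hP := line_segment (cycFacts C) hγ hi (m₀ := 0) (by simpa using hj) hC
    (box_mono (by omega) (h₁ _ (Finset.mem_insert_self _ _)))
  set n := (h + l).toNat with hn
  set P := fun k : ℕ => γ (-l + k) with hPdef
  have hnF : ∀ k < C.m, s(C.c k, C.c (k + 1)) ∉ (F : Set (Sym2 V)) := by
    refine cycle_not_mem hC' fun e he v hv => box_mono (by omega) (h₁ v (Finset.mem_insert_of_mem ?_))
    exact Finset.mem_biUnion.2 ⟨e, he, by simpa using hv⟩
  have hsub : g ≤ cost s P n - cost t P n := by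
    refine le_trans (le_trans hg (winGain_mono hle γ (show -l ≤ a by omega) (show b ≤ h by omega))) ?_
    simp only [winGain, cost, hPdef, hn, ← Finset.sum_sub_distrib]
    rw [show (h - -l).toNat = (h + l).toNat by omega]
  have hnn := fun e => (ht.pos e).le
  have hd0 : T t C.edges (C.c j) (C.c i) ≤ cost t P n := T_le hnn hP
  have hdF : cost s P n ≤ T t (C.edges \ (F : Set (Sym2 V))) (C.c j) (C.c i) := by
    refine le_T (reach_marks hnF hj.lt hi.lt) fun w M hw => ?_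
    have hwe : cost t w M = cost s w M :=
      Finset.sum_congr rfl fun k hk => heq _ (hw.mem k (Finset.mem_range.1 hk)).2
    rw [hwe]
    exact (hγ.geo (-l) n).2 w M hw.path (hw.first.trans hP.first.symm)
      (hw.last.trans hP.last.symm)
  have hU : g ≤ C.gainU t (F : Set (Sym2 V)) j i := by
    simp only [Cyc.gainU, Cyc.d, Nat.mod_eq_of_lt hi.lt, Nat.mod_eq_of_lt hj.lt, Set.sdiff_empty]
    linarith
  refine ⟨hU, ?_⟩
  have hm : C.Meets t (F : Set (Sym2 V)) j i := by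
    by_contra hm
    have := T_avoid (F := (F : Set (Sym2 V))) ht ⟨_, _, hP⟩ fun e he hon =>
      hm ⟨e, he, by simpa [Nat.mod_eq_of_lt hi.lt, Nat.mod_eq_of_lt hj.lt] using hon⟩
    linarith
  exact via_of_meets ht.pos F hi.lt hj.lt (meets_symm hm)

include ht hs hle heq hJt hJs hCs in
/-- **Core.** The gains of at least two lines are at most the mass of the cells meeting `F`. -/
theorem core (hM : MongeStmt) (Γ : Finset (ℤ → V)) (hcard : 2 ≤ Γ.card)
    (hline : ∀ γ ∈ Γ, IsLine s γ) (hdiff : ∀ γ ∈ Γ, ∀ δ ∈ Γ, γ ≠ δ → ¬ SameLine γ δ)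
    (g : (ℤ → V) → ℝ) (hg : ∀ γ ∈ Γ, 0 < g γ ∧ ∃ a b, g γ ≤ winGain t s γ a b) :
    ∃ N, ∀ C : Cyc, C.Encloses 0 N → ∑ γ ∈ Γ, g γ ≤ C.mass t (F : Set (Sym2 V)) := by
  classical
  have hF : ∀ C, CycFacts C := cycFacts
  have hgain : ∀ γ : {x // x ∈ Γ}, ∃ N, ∀ C : Cyc, C.Encloses 0 N → ∀ i h j l,
      Hit C γ.1 0 i h → Hit C (rev γ.1) 0 j l → g γ.1 ≤ C.gainU t (F : Set (Sym2 V)) j i ∧
        ∃ x ∈ F.biUnion (fun e => e.toFinset), Via t C x i j := fun γ => by
    obtain ⟨h0, a, b, hab⟩ := hg γ.1 γ.2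
    exact line_gain ht F hle heq (hline γ.1 γ.2) hab h0
  choose N₁ hN₁ using hgain
  have hvia : ∀ γ : {x // x ∈ Γ}, ViaAll t (F.biUnion fun e => e.toFinset) γ.1 := fun γ =>
    ⟨N₁ γ, fun C hC i h j l hi hj => (hN₁ γ C hC i h j l hi hj).2⟩
  let or' : Bool → (ℤ → V) → (ℤ → V) := fun o γ => cond o γ (rev γ)
  have hor : ∀ o γ, SameLine (or' o γ) γ := fun o γ => by
    cases o
    · exact sameLine_rev γ
    · exact SameLine.refl γ
  have hsep : ∀ q : ({x // x ∈ Γ} × Bool) × ({x // x ∈ Γ} × Bool), ∃ N, q.1.1 ≠ q.2.1 →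
      ∀ C : Cyc, C.Encloses 0 N → ∀ i h j l, Hit C (or' q.1.2 q.1.1.1) 0 i h →
        Hit C (or' q.2.2 q.2.1.1) 0 j l → i ≠ j ∧ ¬ C.Meets t (F : Set (Sym2 V)) i j := by
    rintro ⟨⟨γ, o⟩, ⟨δ, o'⟩⟩
    by_cases hne : γ = δ
    · exact ⟨0, fun h => absurd hne h⟩
    have hl : ∀ o γ, IsLine s γ → IsLine s (or' o γ) := fun o γ h => by
      cases o
      · exact isLine_rev h
      · exact h
    have hab : ¬ SameLine (or' o γ.1) (or' o' δ.1) := fun h =>
      hdiff _ γ.2 _ δ.2 (fun e => hne (Subtype.ext e)) (((hor o γ.1).symm.trans h).trans (hor o' δ.1))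
    have hv : ViaAll t (F.biUnion fun e => e.toFinset) (or' o γ.1) := by
      cases o
      · exact (hvia γ).rev
      · exact hvia γ
    obtain ⟨N, hN⟩ := marks_ne hs hJs hCs (hl o _ (hline _ γ.2)) (hl o' _ (hline _ δ.2)) hab
    obtain ⟨N', hN'⟩ := marks_avoid ht hs F hle heq hJt hJs hCs hF (hl o _ (hline _ γ.2))
      (hl o' _ (hline _ δ.2)) hab hv
    exact ⟨max N N', fun _ C hC i h j l hi hj =>
      ⟨hN C (Encloses.mono hC (le_max_left _ _)) i h j l hi hj,
        hN' C (Encloses.mono hC (le_max_right _ _)) i h j l hi hj⟩⟩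
  choose N₂ hN₂ using hsep
  obtain ⟨r, hr⟩ := box0_finite_bound (Γ.image (fun γ => γ 0) ∪ F.biUnion fun e => e.toFinset)
  refine ⟨max (max (r + 1) (Finset.univ.sup N₁)) (Finset.univ.sup N₂), fun C hC => ?_⟩
  have hCr : C.Encloses 0 (r + 1) :=
    Encloses.mono hC (le_trans (le_max_left _ _) (le_max_left _ _))
  have hh : ∀ q : {x // x ∈ Γ} × Bool, ∃ i h, Hit C (or' q.2 q.1.1) 0 i h := fun q => by
    have h0 : q.1.1 0 ∈ box 0 r :=
      hr _ (Finset.mem_union_left _ (Finset.mem_image_of_mem _ q.1.2))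
    rcases q with ⟨γ, _ | _⟩
    · exact exists_hit (hF C) (isLine_rev (hline _ γ.2)) hCr (by simpa [or', rev] using h0)
    · exact exists_hit (hF C) (hline _ γ.2) hCr h0
  choose mk pos hmk using hh
  have hCN₁ : ∀ γ, C.Encloses 0 (N₁ γ) := fun γ => Encloses.mono hC
    (le_trans (Finset.le_sup (Finset.mem_univ γ)) (le_trans (le_max_right _ _) (le_max_left _ _)))
  have hCN₂ : ∀ q, C.Encloses 0 (N₂ q) := fun q => Encloses.mono hC
    (le_trans (Finset.le_sup (Finset.mem_univ q)) (le_max_right _ _))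
  have hmixed : ∀ γ δ : {x // x ∈ Γ}, γ ≠ δ → ∀ o o', mk (γ, o) ≠ mk (δ, o') ∧
      ¬ C.Meets t (F : Set (Sym2 V)) (mk (γ, o)) (mk (δ, o')) := fun γ δ hne o o' =>
    hN₂ ((γ, o), (δ, o')) hne C (hCN₂ _) _ _ _ _ (hmk (γ, o)) (hmk (δ, o'))
  have hown : ∀ γ, g γ.1 ≤ C.gainU t (F : Set (Sym2 V)) (mk (γ, false)) (mk (γ, true)) := fun γ =>
    (hN₁ γ C (hCN₁ γ) _ _ _ _ (hmk (γ, true)) (hmk (γ, false))).1
  have hne' : ∀ γ : {x // x ∈ Γ}, mk (γ, false) ≠ mk (γ, true) := fun γ e => by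
    have h1 := hmk (γ, false)
    have h2 := hmk (γ, true)
    have := (hline _ γ.2).inj
      ((show γ.1 (-pos (γ, false)) = C.c (mk (γ, false)) from h1.eq).trans
        ((congrArg C.c e).trans (show γ.1 (pos (γ, true)) = C.c (mk (γ, true)) from h2.eq).symm))
    have := h1.le
    have := h2.le
    have := hit_far h2 (Encloses.mono hCr (Nat.le_succ r)) (K := 0) fun k p q => by
      obtain rfl : k = 0 := by omega
      exact hr _ (Finset.mem_union_left _ (Finset.mem_image_of_mem (fun γ => γ 0) γ.2))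
    omega
  have hinj : Set.InjOn (fun γ => (mk (γ, false), mk (γ, true)))
      ((Finset.univ : Finset {x // x ∈ Γ}) : Set {x // x ∈ Γ}) := fun γ _ δ _ e => by
    by_contra hne
    exact (hmixed γ δ hne false false).1 (congrArg Prod.fst e)
  have hcyc : ∀ k < C.m, s(C.c k, C.c (k + 1)) ∉ (F : Set (Sym2 V)) := by
    refine cycle_not_mem (Encloses.mono hCr (Nat.le_succ r)) fun e he v hv =>
      hr v (Finset.mem_union_right _ ?_)
    exact Finset.mem_biUnion.2 ⟨e, he, by simpa using hv⟩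
  have key := (hM C t ht).2.2.1 (F : Set (Sym2 V))
    (Finset.univ.image fun γ => (mk (γ, false), mk (γ, true))) hcyc ?_ ?_ ?_
  · rw [Finset.sum_image hinj] at key
    refine le_trans ?_ key
    rw [← Finset.sum_coe_sort Γ g]
    exact Finset.sum_le_sum fun γ _ => hown γ
  · rwa [Finset.card_image_of_injOn hinj, Finset.card_univ, Fintype.card_coe]
  · intro p hp
    obtain ⟨γ, -, rfl⟩ := Finset.mem_image.1 hp
    exact ⟨(hmk (γ, false)).lt, (hmk (γ, true)).lt, hne' γ⟩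
  · intro p hp q hq hpq a ha b hb
    obtain ⟨γ, -, rfl⟩ := Finset.mem_image.1 hp
    obtain ⟨δ, -, rfl⟩ := Finset.mem_image.1 hq
    have hne : γ ≠ δ := fun e => hpq (by rw [e])
    simp only [Finset.mem_insert, Finset.mem_singleton] at ha hb
    rcases ha with rfl | rfl <;> rcases hb with rfl | rfl <;> exact hmixed γ δ hne _ _

end

end Vale.Agent.P158.NB
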