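import Vale.Agent.P158.Det

/-!
# P158: domains bounded by a lattice cycle and the crossing lemma

A face is named by its lower left corner. For a closed walk `col` is the parity of the number of
traversed vertical edges to the right of a face; it changes exactly across the edges of odd
multiplicity. For a simple cycle the inner faces are those of odd colour, and two paths between
interleaved cycle vertices, using only edges at inner faces, share a vertex.
-/

namespace Vale.Agent.P158.NB

open Vale.Agent.P158

/-- The vertical edge whose lower end is `p`. -/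
def vE (p : V) : Sym2 V := s(p, (p.1, p.2 + 1))

/-- The horizontal edge whose left end is `p`. -/
def hE (p : V) : Sym2 V := s(p, (p.1 + 1, p.2))

open Classical in
/-- `1` if `a → b` is a vertical step in the row of the face `f`, strictly to its right. -/
noncomputable def hit (f a b : V) : ZMod 2 :=
  if a.1 = b.1 ∧ min a.2 b.2 = f.2 ∧ f.1 < a.1 ∧ a.2 ≠ b.2 then 1 else 0

open Classical in
/-- `1` if the step `a → b` traverses the edge `e`. -/
noncomputable def use (e : Sym2 V) (a b : V) : ZMod 2 := if s(a, b) = e then 1 else 0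

open Classical in
noncomputable def side (f v : V) : ZMod 2 := if v.2 = f.2 ∧ f.1 < v.1 then 1 else 0

/-- Colour of the face `f` with respect to the walk `v 0, …, v L`. -/
noncomputable def col (v : ℕ → V) (L : ℕ) (f : V) : ZMod 2 :=
  ∑ k ∈ Finset.range L, hit f (v k) (v (k + 1))

/-- Traversal parity of an edge. -/
noncomputable def par (v : ℕ → V) (L : ℕ) (e : Sym2 V) : ZMod 2 :=
  ∑ k ∈ Finset.range L, use e (v k) (v (k + 1))

lemma adj_cases {a b : V} (h : Adj a b) :
    (b.1 = a.1 + 1 ∧ b.2 = a.2) ∨ (b.1 = a.1 - 1 ∧ b.2 = a.2) ∨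
      (b.1 = a.1 ∧ b.2 = a.2 + 1) ∨ (b.1 = a.1 ∧ b.2 = a.2 - 1) := by
  unfold Adj at h
  rcases abs_cases (a.1 - b.1) with ⟨h1, h1'⟩ | ⟨h1, h1'⟩ <;>
    rcases abs_cases (a.2 - b.2) with ⟨h2, h2'⟩ | ⟨h2, h2'⟩ <;> omega

lemma hit_cross_v {a b : V} (h : Adj a b) (x y : ℤ) :
    hit (x - 1, y) a b + hit (x, y) a b = use (vE (x, y)) a b := by
  classical
  obtain ⟨a1, a2⟩ := a
  obtain ⟨b1, b2⟩ := b
  have := adj_cases h
  simp only [hit, use, vE, Sym2.eq_iff, Prod.mk.injEq] at *
  split_ifs <;> first | decide | omega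

lemma hit_cross_h {a b : V} (h : Adj a b) (x y : ℤ) :
    hit (x, y - 1) a b + hit (x, y) a b + use (hE (x, y)) a b =
      side (x, y) a + side (x, y) b := by
  classical
  obtain ⟨a1, a2⟩ := a
  obtain ⟨b1, b2⟩ := b
  have := adj_cases h
  simp only [hit, use, hE, side, Sym2.eq_iff, Prod.mk.injEq] at *
  split_ifs <;> first | decide | omega

lemma col_cross_v {v : ℕ → V} {L : ℕ} (h : IsPath v L) (x y : ℤ) :
    col v L (x - 1, y) + col v L (x, y) = par v L (vE (x, y)) := by
  simp only [col, par, ← Finset.sum_add_distrib]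
  exact Finset.sum_congr rfl fun k hk => hit_cross_v (h k (Finset.mem_range.1 hk)) x y

lemma col_cross_h {v : ℕ → V} {L : ℕ} (h : IsPath v L) (hcl : v L = v 0) (x y : ℤ) :
    col v L (x, y - 1) + col v L (x, y) = par v L (hE (x, y)) := by
  have h1 : col v L (x, y - 1) + col v L (x, y) + par v L (hE (x, y)) =
      ∑ k ∈ Finset.range L, (side (x, y) (v k) + side (x, y) (v (k + 1))) := by
    simp only [col, par, ← Finset.sum_add_distrib]
    exact Finset.sum_congr rfl fun k hk => hit_cross_h (h k (Finset.mem_range.1 hk)) x y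
  have h2 : ∑ k ∈ Finset.range L, (side (x, y) (v k) + side (x, y) (v (k + 1))) =
      ∑ k ∈ Finset.range L, (side (x, y) (v (k + 1)) - side (x, y) (v k)) :=
    Finset.sum_congr rfl fun k _ => by
      rw [ZMod.neg_eq_self_mod_two (side (x, y) (v k)) |> fun hn => (sub_eq_add_neg _ _).trans
        (congrArg _ hn), add_comm]
  rw [h2, Finset.sum_range_sub (fun k => side (x, y) (v k)) L, hcl, sub_self] at h1
  exact CharTwo.add_eq_zero.1 h1

/-- Faces with an edge on their boundary. -/
def touch (e : Sym2 V) (f : V) : Prop :=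
  e = vE f ∨ e = vE (f.1 + 1, f.2) ∨ e = hE f ∨ e = hE (f.1, f.2 + 1)

/-- The two faces at an edge `vE p`/`hE p` differ in colour by its parity. -/
lemma col_cross {v : ℕ → V} {L : ℕ} (h : IsPath v L) (hcl : v L = v 0) {e : Sym2 V} {f g : V}
    (hf : touch e f) (hg : touch e g) (hne : f ≠ g) : col v L f + col v L g = par v L e := by
  obtain ⟨f1, f2⟩ := f
  obtain ⟨g1, g2⟩ := g
  have hv := col_cross_v (v := v) (L := L) h
  have hh := col_cross_h (v := v) (L := L) h hcl
  simp only [touch] at hf hg
  rcases hf with hf | hf | hf | hf <;> rcases hg with hg | hg | hg | hg <;>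
    (have heq := hf.symm.trans hg
     simp only [vE, hE, Sym2.eq_iff, Prod.mk.injEq, ne_eq] at heq hne
     first
      | omega
      | (have h1 : g1 = f1 - 1 := by omega
         have h2 : g2 = f2 := by omega
         rw [hf, h1, h2, add_comm]; exact hv f1 f2)
      | (have h1 : f1 = g1 - 1 := by omega
         have h2 : f2 = g2 := by omega
         rw [hg, h1, h2]; exact hv g1 g2)
      | (have h1 : g1 = f1 := by omega
         have h2 : g2 = f2 - 1 := by omega
         rw [hf, h1, h2, add_comm]; exact hh f1 f2)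
      | (have h1 : f1 = g1 := by omega
         have h2 : f2 = g2 - 1 := by omega
         rw [hg, h1, h2]; exact hh g1 g2))

/-- A simple lattice cycle `c 0, …, c (m-1), c m = c 0`. -/
structure Cyc where
  c : ℕ → V
  m : ℕ
  three : 3 ≤ m
  path : IsPath c m
  closed : c m = c 0
  inj : Set.InjOn c (Set.Iio m)

namespace Cyc

/-- Inner faces. -/
def inner (C : Cyc) (f : V) : Prop := col C.c C.m f = 1

/-- The edges of the domain: those at an inner face. -/
def edges (C : Cyc) : Set (Sym2 V) := {e | ∃ f, touch e f ∧ C.inner f}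

end Cyc

end Vale.Agent.P158.NB
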