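import Vale.Agent.P158.NB.Path

/-!
# P158: the crossing lemma in a domain bounded by a lattice cycle
-/

namespace Vale.Agent.P158.NB

open Vale.Agent.P158

lemma zadd_self (x : ZMod 2) : x + x = 0 := CharTwo.add_self_eq_zero x

lemma zcases (x : ZMod 2) : x = 0 ∨ x = 1 := by decide +revert

/-- `f` is one of the four faces at the vertex `v`. -/
def around (v f : V) : Prop := (f.1 = v.1 ∨ f.1 = v.1 - 1) ∧ (f.2 = v.2 ∨ f.2 = v.2 - 1)

lemma around_of_touch {e : Sym2 V} {f v : V} (h : touch e f) (hv : v ∈ e) : around v f := by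
  obtain ⟨f1, f2⟩ := f
  obtain ⟨v1, v2⟩ := v
  rcases h with rfl | rfl | rfl | rfl <;>
    (simp only [vE, hE, Sym2.mem_iff, Prod.mk.injEq] at hv
     simp only [around]
     omega)

lemma exists_two_touch {a b : V} (h : Adj a b) :
    ∃ f g, f ≠ g ∧ touch s(a, b) f ∧ touch s(a, b) g := by
  obtain ⟨a1, a2⟩ := a
  obtain ⟨b1, b2⟩ := b
  rcases adj_cases h with ⟨h1, h2⟩ | ⟨h1, h2⟩ | ⟨h1, h2⟩ | ⟨h1, h2⟩ <;> simp only at h1 h2 <;>
    subst h1 h2
  · exact ⟨(a1, b2), (a1, b2 - 1), (by simp [Prod.ext_iff]; omega), Or.inr (Or.inr (Or.inl rfl)),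
      Or.inr (Or.inr (Or.inr (by simp [hE])))⟩
  · exact ⟨(a1 - 1, b2), (a1 - 1, b2 - 1), (by simp [Prod.ext_iff]; omega),
      Or.inr (Or.inr (Or.inl (by simp [hE, Sym2.eq_swap]))),
      Or.inr (Or.inr (Or.inr (by simp [hE, Sym2.eq_swap])))⟩
  · exact ⟨(b1, a2), (b1 - 1, a2), (by simp [Prod.ext_iff]; omega), Or.inl rfl, Or.inr (Or.inl (by simp [vE]))⟩
  · exact ⟨(b1, a2 - 1), (b1 - 1, a2 - 1), (by simp [Prod.ext_iff]; omega), Or.inl (by simp [vE, Sym2.eq_swap]),
      Or.inr (Or.inl (by simp [vE, Sym2.eq_swap]))⟩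

lemma par_eq_zero {v : ℕ → V} {L : ℕ} {e : Sym2 V} (h : ¬ Uses v L e) : par v L e = 0 :=
  Finset.sum_eq_zero fun k hk => by
    rw [use, if_neg]
    exact fun he => h ⟨k, Finset.mem_range.1 hk, he⟩

lemma par_cat {v w : ℕ → V} {L M : ℕ} (h : w 0 = v L) (e : Sym2 V) :
    par (cat v L w) (L + M) e = par v L e + par w M e := by
  unfold par
  rw [Finset.sum_range_add]
  refine congrArg₂ (· + ·) (Finset.sum_congr rfl fun k hk => ?_) (Finset.sum_congr rfl fun k _ => ?_)
  · rw [cat_left v w L k (Finset.mem_range.1 hk).le, cat_left v w L (k + 1) (Finset.mem_range.1 hk)]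
  · rw [cat_right v w L k h, show L + k + 1 = L + (k + 1) by omega, cat_right v w L (k + 1) h]

lemma use_comm (e : Sym2 V) (a b : V) : use e a b = use e b a := by
  simp only [use, Sym2.eq_swap]

lemma par_rev (v : ℕ → V) (L : ℕ) (e : Sym2 V) :
    par (Vale.Agent.P158.rev v L) L e = par v L e := by
  unfold par
  rw [← Finset.sum_range_reflect (fun k => use e (v k) (v (k + 1))) L]
  refine Finset.sum_congr rfl fun k hk => ?_
  rw [Finset.mem_range] at hk
  simp only [Vale.Agent.P158.rev]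
  rw [use_comm, show L - 1 - k + 1 = L - k by omega, show L - (k + 1) = L - 1 - k by omega]

/-- Faces at a vertex in the same class of `p` have the same `q`, if `p` does not flip four
times around the vertex and `q` does not flip inside the class. -/
lemma four_faces {p q : V → ZMod 2} {v : V} (σ : ZMod 2)
    (hflip : ¬ (p (v.1, v.2) + p (v.1 - 1, v.2) = 1 ∧
      p (v.1 - 1, v.2) + p (v.1 - 1, v.2 - 1) = 1 ∧
      p (v.1 - 1, v.2 - 1) + p (v.1, v.2 - 1) = 1 ∧ p (v.1, v.2 - 1) + p (v.1, v.2) = 1))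
    (hv0 : p (v.1 - 1, v.2) = σ → p (v.1, v.2) = σ → q (v.1 - 1, v.2) = q (v.1, v.2))
    (hv1 : p (v.1 - 1, v.2 - 1) = σ → p (v.1, v.2 - 1) = σ →
      q (v.1 - 1, v.2 - 1) = q (v.1, v.2 - 1))
    (hh0 : p (v.1, v.2 - 1) = σ → p (v.1, v.2) = σ → q (v.1, v.2 - 1) = q (v.1, v.2))
    (hh1 : p (v.1 - 1, v.2 - 1) = σ → p (v.1 - 1, v.2) = σ →
      q (v.1 - 1, v.2 - 1) = q (v.1 - 1, v.2))
    {f g : V} (hf : around v f) (hg : around v g) (pf : p f = σ) (pg : p g = σ) : q f = q g := by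
  obtain ⟨f1, f2⟩ := f
  obtain ⟨g1, g2⟩ := g
  obtain ⟨v1, v2⟩ := v
  simp only [around] at hf hg
  simp only at hflip hv0 hv1 hh0 hh1
  have aux1 : ∀ a b c d s : ZMod 2, ¬ (a + b = 1 ∧ b + c = 1 ∧ c + d = 1 ∧ d + a = 1) →
      a = s → c = s → b = s ∨ d = s := by decide
  have aux2 : ∀ a b c d s : ZMod 2, ¬ (a + b = 1 ∧ b + c = 1 ∧ c + d = 1 ∧ d + a = 1) →
      b = s → d = s → a = s ∨ c = s := by decide
  have hAC : p (v1, v2) = σ → p (v1 - 1, v2 - 1) = σ → q (v1, v2) = q (v1 - 1, v2 - 1) := by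
    intro a c
    rcases aux1 _ _ _ _ σ hflip a c with b | d
    · exact (hv0 b a).symm.trans (hh1 c b).symm
    · exact (hh0 d a).symm.trans (hv1 c d).symm
  have hBD : p (v1 - 1, v2) = σ → p (v1, v2 - 1) = σ → q (v1 - 1, v2) = q (v1, v2 - 1) := by
    intro b d
    rcases aux2 _ _ _ _ σ hflip b d with a | c
    · exact (hv0 b a).trans (hh0 d a).symm
    · exact (hh1 c b).symm.trans (hv1 c d)
  obtain ⟨rfl | rfl, rfl | rfl⟩ := hf <;> obtain ⟨rfl | rfl, rfl | rfl⟩ := hg <;>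
    first
      | rfl
      | exact hv0 pf pg | exact (hv0 pg pf).symm | exact hv1 pf pg | exact (hv1 pg pf).symm
      | exact hh0 pf pg | exact (hh0 pg pf).symm | exact hh1 pf pg | exact (hh1 pg pf).symm
      | exact hAC pf pg | exact (hAC pg pf).symm | exact hBD pf pg | exact (hBD pg pf).symm

namespace Cyc

variable (C : Cyc)

lemma m_pos : 0 < C.m := by have := C.three; omega

lemma c_mod {a : ℕ} (h : a ≤ C.m) : C.c (a % C.m) = C.c a := by
  rcases h.eq_or_lt with rfl | h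
  · rw [Nat.mod_self, C.closed]
  · rw [Nat.mod_eq_of_lt h]

lemma c_eq {a b : ℕ} (ha : a ≤ C.m) (hb : b ≤ C.m) (h : C.c a = C.c b) :
    a = b ∨ (a = 0 ∧ b = C.m) ∨ (a = C.m ∧ b = 0) := by
  rw [← C.c_mod ha, ← C.c_mod hb] at h
  have := C.inj (Set.mem_Iio.2 (Nat.mod_lt _ C.m_pos)) (Set.mem_Iio.2 (Nat.mod_lt _ C.m_pos)) h
  rcases ha.eq_or_lt with rfl | ha <;> rcases hb.eq_or_lt with rfl | hb
  · exact Or.inl rfl
  · rw [Nat.mod_self, Nat.mod_eq_of_lt hb] at this; omega
  · rw [Nat.mod_self, Nat.mod_eq_of_lt ha] at this; omega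
  · rw [Nat.mod_eq_of_lt ha, Nat.mod_eq_of_lt hb] at this; omega

lemma edge_inj {a b : ℕ} (ha : a < C.m) (hb : b < C.m)
    (h : s(C.c a, C.c (a + 1)) = s(C.c b, C.c (b + 1))) : a = b := by
  have := C.three
  rcases Sym2.eq_iff.1 h with ⟨h1, -⟩ | ⟨h1, h2⟩
  · exact C.inj (Set.mem_Iio.2 ha) (Set.mem_Iio.2 hb) h1
  · rcases C.c_eq ha.le hb h1 with e | e | e <;> rcases C.c_eq ha hb.le h2 with e' | e' | e' <;>
      omega

lemma par_edge {s : ℕ} (hs : s < C.m) : par C.c C.m s(C.c s, C.c (s + 1)) = 1 := by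
  rw [par, Finset.sum_eq_single s (fun b hb hne => by
    rw [use, if_neg]
    exact fun he => hne (C.edge_inj (Finset.mem_range.1 hb) hs he))
    (fun h => absurd (Finset.mem_range.2 hs) h)]
  simp [use]

lemma exists_of_par {e : Sym2 V} (h : par C.c C.m e ≠ 0) :
    ∃ s < C.m, s(C.c s, C.c (s + 1)) = e := by
  by_contra hne
  exact h (par_eq_zero hne)

lemma exists_sides {s : ℕ} (hs : s < C.m) :
    ∃ f g, touch s(C.c s, C.c (s + 1)) f ∧ touch s(C.c s, C.c (s + 1)) g ∧ f ≠ g ∧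
      col C.c C.m f = 1 ∧ col C.c C.m g = 0 := by
  obtain ⟨f, g, hne, hf, hg⟩ := exists_two_touch (C.path s hs)
  have h := col_cross C.path C.closed hf hg hne
  rw [C.par_edge hs] at h
  rcases zcases (col C.c C.m f) with e | e
  · exact ⟨g, f, hg, hf, hne.symm, by rwa [e, zero_add] at h, e⟩
  · refine ⟨f, g, hf, hg, hne, e, ?_⟩
    rcases zcases (col C.c C.m g) with e' | e'
    · exact e'
    · rw [e, e'] at h; exact absurd h (by decide)

lemma edge_mem {s : ℕ} (hs : s < C.m) : s(C.c s, C.c (s + 1)) ∈ C.edges := by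
  obtain ⟨f, g, hf, -, -, h1, -⟩ := C.exists_sides hs
  exact ⟨f, hf, h1⟩

lemma not_four {v : V} (h1 : par C.c C.m s(v, (v.1, v.2 + 1)) = 1)
    (h2 : par C.c C.m s(v, (v.1 + 1, v.2)) = 1) (h3 : par C.c C.m s(v, (v.1 - 1, v.2)) = 1) :
    False := by
  have key : ∀ w, par C.c C.m s(v, w) = 1 →
      (∃ s < C.m, C.c s = v ∧ C.c (s + 1) = w) ∨ ∃ s < C.m, C.c (s + 1) = v ∧ C.c s = w := by
    intro w hw
    obtain ⟨s, hs, he⟩ := C.exists_of_par (by rw [hw]; decide)
    rcases Sym2.eq_iff.1 he with ⟨a, b⟩ | ⟨a, b⟩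
    · exact Or.inl ⟨s, hs, a, b⟩
    · exact Or.inr ⟨s, hs, b, a⟩
  have u1 : ∀ w w', (∃ s < C.m, C.c s = v ∧ C.c (s + 1) = w) →
      (∃ s < C.m, C.c s = v ∧ C.c (s + 1) = w') → w = w' := by
    rintro w w' ⟨s, hs, a, b⟩ ⟨s', hs', a', b'⟩
    obtain rfl := C.inj (Set.mem_Iio.2 hs) (Set.mem_Iio.2 hs') (a.trans a'.symm)
    exact b.symm.trans b'
  have u2 : ∀ w w', (∃ s < C.m, C.c (s + 1) = v ∧ C.c s = w) →
      (∃ s < C.m, C.c (s + 1) = v ∧ C.c s = w') → w = w' := by
    rintro w w' ⟨s, hs, a, b⟩ ⟨s', hs', a', b'⟩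
    rcases C.c_eq hs hs' (a.trans a'.symm) with e | e | e
    · obtain rfl : s = s' := by omega
      exact b.symm.trans b'
    · omega
    · omega
  have n12 : ((v.1, v.2 + 1) : V) ≠ (v.1 + 1, v.2) := by simp
  have n13 : ((v.1, v.2 + 1) : V) ≠ (v.1 - 1, v.2) := by simp
  have n23 : ((v.1 + 1, v.2) : V) ≠ (v.1 - 1, v.2) := by simp [Prod.ext_iff]; omega
  rcases key _ h1 with a | a <;> rcases key _ h2 with b | b <;> rcases key _ h3 with c | c
  all_goals first
    | exact n12 (u1 _ _ a b) | exact n12 (u2 _ _ a b) | exact n13 (u1 _ _ a c)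
    | exact n13 (u2 _ _ a c) | exact n23 (u1 _ _ b c) | exact n23 (u2 _ _ b c)

/-- Inside one class of faces at `v` a closed walk that avoids the edges between such faces has
constant colour. -/
lemma local_eq {W : ℕ → V} {N : ℕ} (hW : IsPath W N) (hcl : W N = W 0) {v : V} {σ : ZMod 2}
    (hz : ∀ e, v ∈ e → (∀ f, touch e f → col C.c C.m f = σ) → par W N e = 0)
    {f g : V} (hf : around v f) (hg : around v g) (pf : col C.c C.m f = σ)
    (pg : col C.c C.m g = σ) : col W N f = col W N g := by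
  obtain ⟨x, y⟩ := v
  have tV : ∀ a b f, touch (vE (a, b)) f → f = (a, b) ∨ f = (a - 1, b) := by
    rintro a b ⟨f1, f2⟩ h
    simp only [touch, vE, hE, Sym2.eq_iff, Prod.mk.injEq] at h ⊢
    omega
  have tH : ∀ a b f, touch (hE (a, b)) f → f = (a, b) ∨ f = (a, b - 1) := by
    rintro a b ⟨f1, f2⟩ h
    simp only [touch, vE, hE, Sym2.eq_iff, Prod.mk.injEq] at h ⊢
    omega
  have qV : ∀ b, (x, y) ∈ vE (x, b) → col C.c C.m (x - 1, b) = σ → col C.c C.m (x, b) = σ →
      col W N (x - 1, b) = col W N (x, b) := fun b hm h1 h2 => by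
    have := col_cross_v hW x b
    rw [hz _ hm fun f hf => (tV x b f hf).elim (· ▸ h2) (· ▸ h1)] at this
    exact CharTwo.add_eq_zero.1 this
  have qH : ∀ a, (x, y) ∈ hE (a, y) → col C.c C.m (a, y - 1) = σ → col C.c C.m (a, y) = σ →
      col W N (a, y - 1) = col W N (a, y) := fun a hm h1 h2 => by
    have := col_cross_h hW hcl a y
    rw [hz _ hm fun f hf => (tH a y f hf).elim (· ▸ h2) (· ▸ h1)] at this
    exact CharTwo.add_eq_zero.1 this
  refine four_faces (p := col C.c C.m) (q := col W N) (v := (x, y)) (σ := σ) ?_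
    (qV y (by simp [vE])) (qV (y - 1) (by simp [vE]))
    (qH x (by simp [hE])) (qH (x - 1) (by simp [hE])) hf hg pf pg
  rintro ⟨a1, a2, -, a4⟩
  simp only at a1 a2 a4
  refine C.not_four (v := (x, y)) ?_ ?_ ?_
  · have := col_cross_v C.path x y
    rw [add_comm] at a1
    rw [a1] at this
    simpa [vE] using this.symm
  · have := col_cross_h C.path C.closed x y
    rw [a4] at this
    simpa [hE] using this.symm
  · have := col_cross_h C.path C.closed (x - 1) y
    rw [add_comm] at a2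
    rw [a2] at this
    simpa [hE, Sym2.eq_swap] using this.symm

lemma arc_pathIn {F : Set (Sym2 V)} (hF : ∀ s < C.m, s(C.c s, C.c (s + 1)) ∉ F) {i k : ℕ}
    (hik : i ≤ k) (hk : k ≤ C.m) : PathIn (C.edges \ F) (C.c i) (C.c k) (seg C.c i) (k - i) :=
  ⟨C.path.shift hik hk, fun s hs => ⟨C.edge_mem (show i + s < C.m by omega),
    hF (i + s) (by omega)⟩, by simp, by simp [show i + (k - i) = k by omega]⟩

lemma par_arc {i k : ℕ} (hik : i ≤ k) (hk : k ≤ C.m) {s : ℕ} (hs : s < C.m) :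
    par (seg C.c i) (k - i) s(C.c s, C.c (s + 1)) = if i ≤ s ∧ s < k then 1 else 0 := by
  split_ifs with h
  · rw [par, Finset.sum_eq_single (s - i) (fun b hb hne => by
      rw [use, if_neg]
      intro he
      simp only [seg_apply, ← add_assoc] at he
      have := C.edge_inj (by rw [Finset.mem_range] at hb; omega) hs he
      omega) (fun hn => absurd (Finset.mem_range.2 (by omega)) hn)]
    simp only [use, seg_apply, ← add_assoc]
    rw [if_pos (by rw [show i + (s - i) = s by omega])]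
  · refine par_eq_zero ?_
    rintro ⟨b, hb, he⟩
    simp only [seg_apply, ← add_assoc] at he
    have := C.edge_inj (by omega) hs he
    omega

/-- **Crossing**, for indices in increasing order. -/
theorem crossing {i j k l : ℕ} (hij : i < j) (hjk : j < k) (hkl : k < l) (hl : l < C.m)
    {P Q : ℕ → V} {L M : ℕ} (hP : PathIn C.edges (C.c i) (C.c k) P L)
    (hQ : PathIn C.edges (C.c j) (C.c l) Q M) : ∃ a ≤ L, ∃ b ≤ M, P a = Q b := by
  by_contra hne
  push Not at hne
  have hA := C.arc_pathIn (F := ∅) (fun s _ => Set.notMem_empty _) (show i ≤ k by omega)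
    (show k ≤ C.m by omega)
  rw [Set.sdiff_empty] at hA
  have hW0 := hP.append hA.reverse
  set W := cat P L (Vale.Agent.P158.rev (seg C.c i) (k - i)) with hWdef
  have hcl : W (L + (k - i)) = W 0 := hW0.last.trans hW0.first.symm
  have hpar : ∀ e, par W (L + (k - i)) e = par P L e + par (seg C.c i) (k - i) e := fun e => by
    rw [hWdef, par_cat (hA.reverse.first.trans hP.last.symm), par_rev]
  have arc0 : ∀ e σ, (∀ f, touch e f → col C.c C.m f = σ) → par (seg C.c i) (k - i) e = 0 := by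
    intro e σ h
    refine par_eq_zero ?_
    rintro ⟨b, hb, rfl⟩
    simp only [seg_apply, ← add_assoc] at h
    obtain ⟨f, g, hf, hg, -, h1, h0⟩ := C.exists_sides (show i + b < C.m by omega)
    have := (h f hf).symm.trans h1
    rw [h g hg] at h0
    rw [h0] at this
    exact absurd this (by decide)
  have outer : ∀ v f g, around v f → around v g → col C.c C.m f = 0 → col C.c C.m g = 0 →
      col W (L + (k - i)) f = col W (L + (k - i)) g := fun v f g hf hg f0 g0 => by
    refine C.local_eq hW0.path hcl (σ := 0) (fun e _ he => ?_) hf hg f0 g0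
    rw [hpar, arc0 e 0 he, add_zero]
    refine par_eq_zero ?_
    rintro ⟨b, hb, rfl⟩
    obtain ⟨f', hf', hin⟩ := hP.mem b hb
    exact absurd ((he f' hf').symm.trans hin) (by decide)
  have innr : ∀ v, (∀ a ≤ L, P a ≠ v) → ∀ f g, around v f → around v g →
      col C.c C.m f = 1 → col C.c C.m g = 1 →
      col W (L + (k - i)) f = col W (L + (k - i)) g := fun v hv f g hf hg f1 g1 => by
    refine C.local_eq hW0.path hcl (σ := 1) (fun e hm he => ?_) hf hg f1 g1
    rw [hpar, arc0 e 1 he, add_zero]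
    refine par_eq_zero ?_
    rintro ⟨b, hb, rfl⟩
    rcases Sym2.mem_iff.1 hm with e | e
    · exact hv b hb.le e.symm
    · exact hv (b + 1) hb e.symm
  choose! fI fO hI hO hne' hI1 hO0 using fun s (hs : s < C.m) => C.exists_sides hs
  have outEq : ∀ s, j ≤ s → s < C.m → col W (L + (k - i)) (fO j) = col W (L + (k - i)) (fO s) := by
    intro s hs
    induction s, hs using Nat.le_induction with
    | base => exact fun _ => rfl
    | succ s hs ih =>
      intro h
      refine (ih (by omega)).trans (outer (C.c (s + 1)) _ _ ?_ ?_ (hO0 s (by omega)) (hO0 _ h))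
      · exact around_of_touch (hO s (by omega)) (Sym2.mem_mk_right _ _)
      · exact around_of_touch (hO _ h) (Sym2.mem_mk_left _ _)
  have cross : ∀ s < C.m, (∀ a ≤ L, P a ≠ C.c s) →
      col W (L + (k - i)) (fI s) + col W (L + (k - i)) (fO s) =
        if i ≤ s ∧ s < k then 1 else 0 := by
    intro s hs hsP
    rw [col_cross hW0.path hcl (hI s hs) (hO s hs) (hne' s hs), hpar, par_eq_zero, zero_add,
      C.par_arc (by omega) (by omega) hs]
    rintro ⟨b, hb, he⟩
    rcases Sym2.eq_iff.1 he with ⟨e, -⟩ | ⟨-, e⟩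
    · exact hsP b hb.le e
    · exact hsP (b + 1) hb e
  have along : ∀ b ≤ M, ∀ f, around (Q b) f → col C.c C.m f = 1 →
      col W (L + (k - i)) f = col W (L + (k - i)) (fI j) := by
    intro b hb
    induction b with
    | zero =>
      intro f hf f1
      refine innr (Q 0) (fun a ha => hne a ha 0 hb) f (fI j) hf ?_ f1 (hI1 j (by omega))
      exact around_of_touch (hI j (by omega)) (hQ.first ▸ Sym2.mem_mk_left _ _)
    | succ b ih =>
      intro f hf f1
      obtain ⟨g, hg, g1⟩ := hQ.mem b hb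
      rw [innr (Q (b + 1)) (fun a ha => hne a ha (b + 1) hb) f g hf
        (around_of_touch hg (Sym2.mem_mk_right _ _)) f1 g1]
      exact ih (by omega) g (around_of_touch hg (Sym2.mem_mk_left _ _)) g1
  have hj := cross j (by omega) fun a ha => hQ.first ▸ hne a ha 0 (Nat.zero_le _)
  have hll := cross l hl fun a ha => hQ.last ▸ hne a ha M le_rfl
  rw [along M le_rfl (fI l) (around_of_touch (hI l hl) (hQ.last ▸ Sym2.mem_mk_left _ _)) (hI1 l hl),
    ← outEq l (by omega) hl, hj, if_pos ⟨by omega, hjk⟩, if_neg (by omega)] at hll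
  exact absurd hll (by decide)

/-- **Crossing**, for interleaved indices in any order. -/
theorem crossing' {i j k l : ℕ} (hi : i < C.m) (hj : j < C.m) (hk : k < C.m) (hl : l < C.m)
    (hd : i ≠ k ∧ j ≠ i ∧ j ≠ k ∧ l ≠ i ∧ l ≠ k)
    (hint : (min i k < j ∧ j < max i k) ↔ ¬ (min i k < l ∧ l < max i k))
    {P Q : ℕ → V} {L M : ℕ} (hP : PathIn C.edges (C.c i) (C.c k) P L)
    (hQ : PathIn C.edges (C.c j) (C.c l) Q M) : ∃ a ≤ L, ∃ b ≤ M, P a = Q b := by
  wlog hik : i < k generalizing i k P with H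
  · obtain ⟨a, ha, b, hb, e⟩ := H (i := k) (k := i) hk hi ⟨hd.1.symm, hd.2.2.1, hd.2.1, hd.2.2.2.2,
      hd.2.2.2.1⟩ (by rwa [min_comm, max_comm]) hP.reverse (by omega)
    exact ⟨L - a, by omega, b, hb, e⟩
  wlog hjin : i < j ∧ j < k generalizing j l Q with H
  · obtain ⟨a, ha, b, hb, e⟩ := H (j := l) (l := j) hl hj hQ.reverse
      ⟨hd.1, hd.2.2.2.1, hd.2.2.2.2, hd.2.1, hd.2.2.1⟩ (by tauto)
      (by rw [min_eq_left hik.le, max_eq_right hik.le] at hint; tauto)
    exact ⟨a, ha, M - b, by omega, e⟩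
  rw [min_eq_left hik.le, max_eq_right hik.le] at hint
  have hlout : ¬ (i < l ∧ l < k) := hint.1 hjin
  rcases lt_or_gt_of_ne hd.2.2.2.2 with hlk | hlk
  · obtain ⟨a, ha, b, hb, e⟩ := C.crossing (i := l) (j := i) (k := j) (l := k) (by omega) hjin.1
      hjin.2 hk hQ.reverse hP
    exact ⟨b, hb, M - a, by omega, e.symm⟩
  · exact C.crossing hjin.1 hjin.2 hlk hl hP hQ

end Cyc

end Vale.Agent.P158.NB
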