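import Vale.Agent.P158.Prob
import Vale.Agent.P158.NB.Cross

/-!
# P158: no bigeodesics — definitions and the pinned statements of the pieces

See scratch/P158/NOTE1.md (branch helper1) for the argument.
-/

namespace Vale.Agent.P158.NB

open Vale.Agent.P158 MeasureTheory Filter Topology
open scoped ENNReal

/-- Weight configurations. -/
abbrev Conf := Sym2 V → ℝ

/-! ## Paths and passage times -/

/-- The vertices of a path. -/
def verts (v : ℕ → V) (L : ℕ) : Set V := v '' Set.Iic L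

/-- The path traverses `e`. -/
def Uses (v : ℕ → V) (L : ℕ) (e : Sym2 V) : Prop := ∃ k < L, s(v k, v (k + 1)) = e

/-- A path from `x` to `y` inside the edge set `K`. -/
structure PathIn (K : Set (Sym2 V)) (x y : V) (v : ℕ → V) (L : ℕ) : Prop where
  path : IsPath v L
  mem : ∀ k < L, s(v k, v (k + 1)) ∈ K
  first : v 0 = x
  last : v L = y

/-- Passage time inside `K`. -/
noncomputable def T (t : Conf) (K : Set (Sym2 V)) (x y : V) : ℝ :=
  sInf {r | ∃ v L, PathIn K x y v L ∧ cost t v L = r}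

/-- Passage time in the whole plane. -/
noncomputable def Tf (t : Conf) (x y : V) : ℝ := T t Set.univ x y

/-- A geodesic inside `K`. -/
structure GeoIn (t : Conf) (K : Set (Sym2 V)) (x y : V) (v : ℕ → V) (L : ℕ) : Prop
    extends PathIn K x y v L where
  inj : Set.InjOn v (Set.Iic L)
  least : ∀ (w : ℕ → V) (M : ℕ), PathIn K x y w M → cost t v L ≤ cost t w M

/-- The edge `e` lies on a geodesic inside `K` from `x` to `y`. -/
def OnGeo (t : Conf) (K : Set (Sym2 V)) (x y : V) (e : Sym2 V) : Prop :=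
  ∃ v L, GeoIn t K x y v L ∧ Uses v L e

/-- The deterministic properties of a typical configuration. -/
structure OK (t : Conf) : Prop where
  pos : ∀ e, 0 < t e
  uniq : ∀ (v w : ℕ → V) (L M : ℕ), IsPath v L → IsPath w M → Set.InjOn v (Set.Iic L) →
    Set.InjOn w (Set.Iic M) → v 0 = w 0 → v L = w M → cost t v L = cost t w M →
    L = M ∧ ∀ k ≤ L, v k = w k
  tough : ∀ (x : V) (C : ℝ), ∃ N : ℕ, ∀ (v : ℕ → V) (L : ℕ), IsPath v L →
    Set.InjOn v (Set.Iic L) → v 0 = x → N ≤ L → C < cost t v L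

/-! ## Boxes, translations -/

/-- The sup-norm box of radius `n` around `z`. -/
def box (z : V) (n : ℕ) : Set V := {v | |v.1 - z.1| ≤ n ∧ |v.2 - z.2| ≤ n}

/-- Edges with both ends in `S`. -/
def edgesIn (S : Set V) : Set (Sym2 V) := {e | ∀ v ∈ e, v ∈ S}

/-- The nearest-neighbour edges. -/
def IsEdge (e : Sym2 V) : Prop := ∃ a b, Adj a b ∧ e = s(a, b)

/-- The configuration seen from `z`. -/
def shiftW (z : V) (t : Conf) : Conf := fun e => t (Sym2.map (fun v => v + z) e)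

/-! ## Lines -/

/-- A bigeodesic. -/
structure IsLine (t : Conf) (γ : ℤ → V) : Prop where
  inj : Function.Injective γ
  adj : ∀ i, Adj (γ i) (γ (i + 1))
  geo : ∀ (i : ℤ) (L : ℕ), IsGeo t (fun k => γ (i + k)) L

/-- The line traverses `e`. -/
def LineUses (γ : ℤ → V) (e : Sym2 V) : Prop := ∃ i, s(γ i, γ (i + 1)) = e

/-- The reversed line. -/
def rev (γ : ℤ → V) : ℤ → V := fun i => γ (-i)

/-- Geodesics from `x` to far points of the forward tail join the line at a fixed vertex. -/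
def Joins (t : Conf) (γ : ℤ → V) (x : V) : Prop :=
  ∃ k : ℤ, ∀ n, k ≤ n → Tf t x (γ n) = Tf t x (γ k) + Tf t (γ k) (γ n)

/-- The forward tails coincide eventually. -/
def ShareTail (γ δ : ℤ → V) : Prop := ∃ i j : ℤ, ∀ k : ℕ, γ (i + k) = δ (j + k)

/-- The same unoriented line. -/
def SameLine (γ δ : ℤ → V) : Prop := ∀ e, LineUses γ e ↔ LineUses δ e

/-- A geodesic segment of radius `k` whose middle edge is `e`. -/
structure Seg (t : Conf) (e : Sym2 V) (k : ℕ) (v : ℕ → V) : Prop where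
  geo : IsGeo t v (2 * k + 1)
  inj : Set.InjOn v (Set.Iic (2 * k + 1))
  mid : s(v k, v (k + 1)) = e

/-- Windows of radius `H` at `e` extending to geodesic segments of every radius. -/
def wins (t : Conf) (e : Sym2 V) (H : ℕ) : Set (Fin (2 * H + 2) → V) :=
  {w | ∀ k, H ≤ k → ∃ v, Seg t e k v ∧ ∀ i : Fin (2 * H + 2), v (k - H + i) = w i}

/-- The number of (oriented) lines through `e`. -/
noncomputable def Nln (t : Conf) (e : Sym2 V) : ℝ≥0∞ := ⨆ H, ((wins t e H).encard : ℝ≥0∞)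

/-! ## Cycles: passage times between boundary marks -/

namespace Cyc

variable (C : Cyc)

/-- Passage time between marks, inside the domain and avoiding `F`. -/
noncomputable def d (t : Conf) (F : Set (Sym2 V)) (i j : ℕ) : ℝ :=
  T t (C.edges \ F) (C.c (i % C.m)) (C.c (j % C.m))

/-- The mixed difference of the cell (i, j). -/
noncomputable def cellD (t : Conf) (F : Set (Sym2 V)) (i j : ℕ) : ℝ :=
  C.d t F i j + C.d t F (i + 1) (j + 1) - C.d t F i (j + 1) - C.d t F (i + 1) j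

/-- The geodesic between two marks meets the edge set `F`. -/
def Meets (t : Conf) (F : Set (Sym2 V)) (i j : ℕ) : Prop :=
  ∃ e ∈ F, OnGeo t C.edges (C.c (i % C.m)) (C.c (j % C.m)) e

/-- One of the four geodesics of the cell meets `F`. -/
def CellMeets (t : Conf) (F : Set (Sym2 V)) (i j : ℕ) : Prop :=
  C.Meets t F i j ∨ C.Meets t F (i + 1) (j + 1) ∨ C.Meets t F i (j + 1) ∨ C.Meets t F (i + 1) j

/-- The ordered cells. -/
def cells : Finset (ℕ × ℕ) :=
  (Finset.range C.m ×ˢ Finset.range C.m).filter fun p => p.1 ≠ p.2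

open Classical in
/-- Total mixed difference of the cells meeting `F`. -/
noncomputable def mass (t : Conf) (F : Set (Sym2 V)) : ℝ :=
  ∑ p ∈ C.cells with C.CellMeets t F p.1 p.2, C.cellD t ∅ p.1 p.2

/-- What avoiding `F` costs between two marks. -/
noncomputable def gainU (t : Conf) (F : Set (Sym2 V)) (i j : ℕ) : ℝ :=
  C.d t F i j - C.d t ∅ i j

/-- `x` lies on a geodesic from some mark to the mark `a`. -/
def InTree (t : Conf) (a : ℕ) (x : V) : Prop :=
  ∃ b < C.m, ∃ v L, GeoIn t C.edges (C.c b) (C.c (a % C.m)) v L ∧ x ∈ verts v L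

/-- Two geodesics from marks to the mark `a` merge at `w`. -/
def Merge (t : Conf) (a : ℕ) (w : V) : Prop :=
  ∃ b b', b < C.m ∧ b' < C.m ∧ ∃ v L v' L',
    GeoIn t C.edges (C.c b) (C.c (a % C.m)) v L ∧ GeoIn t C.edges (C.c b') (C.c (a % C.m)) v' L' ∧
    ∃ k k', k + 1 ≤ L ∧ k' + 1 ≤ L' ∧ v (k + 1) = w ∧ v' (k' + 1) = w ∧ v k ≠ v' k'

/-- The cycle surrounds the box of radius `n` around `z`, at positive distance. -/
def Encloses (z : V) (n : ℕ) : Prop :=
  (∀ k, k < C.m → C.c k ∉ box z n) ∧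
    ∀ f : V, f ∈ box z n → (f.1 + 1, f.2 + 1) ∈ box z n → C.inner f

end Cyc

variable (G : Measure ℝ) [IsProbabilityMeasure G]

/-- Thresholds: long paths have half their edges above `θ`; `θ' < θ` is in reach. -/
def LongGood (θ : ℝ) (n : ℕ) : Set Conf :=
  {t | ∀ (v : ℕ → V) (L : ℕ), IsPath v L → Set.InjOn v (Set.Iic L) → v 0 ∈ box 0 (4 * n) →
    n ≤ L → L ≤ 2 * ((Finset.range L).filter fun k => θ ≤ t s(v k, v (k + 1))).card}

/-- The constants of the argument. -/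
structure Params where
  θ : ℝ
  θ' : ℝ
  pos : 0 < θ'
  lt : θ' < θ
  mass : 0 < G (Set.Iio θ')
  strong : 0 < G (Set.Ici θ)
  long : Tendsto (fun n : ℕ => (n : ℝ≥0∞) ^ 4 * env G (LongGood θ n)ᶜ) atTop (𝓝 0)

/-- A random domain: a cycle of good edges in the annulus between radii `n` and `2 n`. -/
structure Ring where
  cyc : ℕ → Conf → Cyc
  good : ℕ → Set Conf
  A : ℝ
  loc : ∀ n t t', (∀ e ∈ edgesIn (box 0 (2 * n) \ box 0 n), t e = t' e) →
    cyc n t = cyc n t' ∧ (t ∈ good n ↔ t' ∈ good n)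
  fin : ∀ n, (Set.range (cyc n)).Finite
  meas_cyc : ∀ n C, MeasurableSet {t | cyc n t = C}
  meas_good : ∀ n, MeasurableSet (good n)
  encl : ∀ n t, t ∈ good n → (cyc n t).Encloses 0 n
  sub : ∀ n t, t ∈ good n → ∀ k, k < (cyc n t).m → (cyc n t).c k ∈ box 0 (2 * n)
  prob : Tendsto (fun n => env G (good n)ᶜ) atTop (𝓝 0)
  sq : ∀ n, ∫⁻ t in good n,
    ENNReal.ofReal ((cost t (cyc n t).c (cyc n t).m + (cyc n t).m) ^ 2) ∂env G
      ≤ ENNReal.ofReal (A * n ^ 2)

/-! ## The pinned statements -/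

/-- (i) The deterministic budget: nonnegativity, total, rectangles, and the sum over edges. -/
def MongeStmt : Prop :=
  ∀ (C : Cyc) (t : Conf), OK t →
    (∀ F : Set (Sym2 V), (∀ k < C.m, s(C.c k, C.c (k + 1)) ∉ F) →
      ∀ p ∈ C.cells, 0 ≤ C.cellD t F p.1 p.2) ∧
    (∑ p ∈ C.cells, C.cellD t ∅ p.1 p.2 ≤ 2 * cost t C.c C.m) ∧
    (∀ (F : Set (Sym2 V)) (M : Finset (ℕ × ℕ)), (∀ k < C.m, s(C.c k, C.c (k + 1)) ∉ F) →
      2 ≤ M.card → (∀ p ∈ M, p.1 < C.m ∧ p.2 < C.m ∧ p.1 ≠ p.2) →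
      (∀ p ∈ M, ∀ q ∈ M, p ≠ q → ∀ a ∈ ({p.1, p.2} : Finset ℕ), ∀ b ∈ ({q.1, q.2} : Finset ℕ),
        a ≠ b ∧ ¬ C.Meets t F a b) →
      ∑ p ∈ M, C.gainU t F p.1 p.2 ≤ C.mass t F) ∧
    (∀ (S : Finset (Sym2 V)) (N : ℕ), (∀ i j v L, GeoIn t C.edges (C.c i) (C.c j) v L → L ≤ N) →
      ∑ e ∈ S, C.mass t {e} ≤ 4 * N * (2 * cost t C.c C.m))

/-- Lowering on `π`. -/
noncomputable def lowerW (π : Finset (Sym2 V)) (t u : Conf) : Conf :=
  fun e => if e ∈ π then min (t e) (u e) else t e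

/-- The tilt on `F`: where flagged, the maximum with a fresh copy. -/
noncomputable def tiltW (F : Finset (Sym2 V)) (t t' : Conf) (fl : Sym2 V → Bool) : Conf :=
  fun e => if e ∈ F ∧ fl e = true then max (t e) (t' e) else t e

/-- The joint law of configuration, fresh copy and flags of probability `ε`. -/
noncomputable def tiltLaw (ε : ℝ) : Measure (Conf × Conf × (Sym2 V → Bool)) :=
  (env G).prod ((env G).prod (Measure.infinitePi fun _ : Sym2 V =>
    ENNReal.ofReal ε • Measure.dirac true + ENNReal.ofReal (1 - ε) • Measure.dirac false))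

/-- (ii) Change of measure. -/
def ChangeStmt : Prop :=
  (∀ x, G {x} = 0) → (∀ z, (env G).map (shiftW z) = env G) ∧
    (∀ (π : Finset (Sym2 V)) (A : Set Conf), MeasurableSet A →
      ((env G).prod (env G)) {p | lowerW π p.1 p.2 ∈ A} ≤ 2 ^ π.card * env G A) ∧
    (∀ (F : Finset (Sym2 V)) (ε : ℝ), 0 ≤ ε → ε ≤ 1 → ∀ A : Set Conf, MeasurableSet A →
      (tiltLaw G ε) {p | tiltW F p.1 p.2.1 p.2.2 ∈ A} ^ 2 ≤
        ENNReal.ofReal (Real.exp (F.card * ε ^ 2)) * env G A) ∧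
    (∀ (F : Finset (Sym2 V)) (ε : ℝ), 0 ≤ ε → ε ≤ 1 → ∀ A : Set Conf, MeasurableSet A →
      ∀ e ∈ F, ∀ a b : ℝ, a ≤ b → A ⊆ {s | b ≤ s e} →
      ENNReal.ofReal (ε / 2) * G (Set.Iio a) *
          (tiltLaw G ε) {p | tiltW F p.1 p.2.1 p.2.2 ∈ A} ≤
        (tiltLaw G ε) {p | tiltW F p.1 p.2.1 p.2.2 ∈ A ∧ p.2.2 e = true ∧ p.1 e < a})

/-- (ii) A typical configuration. -/
def OKStmt : Prop :=
  G (Set.Iio 0) = 0 → (∀ x, G {x} = 0) → (∀ᵐ t ∂env G, OK t) ∧ Nonempty (Params G)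

/-- (vi) Random domains exist. -/
def RingStmt : Prop :=
  G (Set.Iio 0) = 0 → (∀ x, G {x} = 0) → Nonempty (Ring G)

/-- (iii) Lemma A: merges in the trees of boundary targets are rare. -/
def MergeStmt : Prop :=
  ∀ (_P : Params G) (R : Ring G), (∀ᵐ t ∂env G, OK t) → ∀ δ : ℝ, 0 < δ → ∀ᶠ n : ℕ in atTop,
    ∫⁻ t in R.good n, (∑ a ∈ Finset.range (R.cyc n t).m,
      ({w | w ∈ box 0 (n / 2) ∧ (R.cyc n t).Merge t a w}.encard : ℝ≥0∞)) ∂env G
      ≤ ENNReal.ofReal (δ * n ^ 2)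

/-- (iv) Lemma B: boundedly many lines through a strong edge. -/
def LinesStmt : Prop :=
  ∀ (P : Params G) (_R : Ring G), (∀ᵐ t ∂env G, OK t) → ∃ B : ℝ≥0∞, B < ⊤ ∧
    ∀ e, IsEdge e → ∫⁻ t in {t | P.θ ≤ t e}, Nln t e ∂env G ≤ B

/-- (iv) Lemma J: distinct lines share no tail. -/
def TailStmt : Prop :=
  ∀ (_P : Params G) (_R : Ring G), ∀ᵐ t ∂env G,
    ∀ γ δ, IsLine t γ → IsLine t δ → ShareTail γ δ → SameLine γ δ

/-- (iv) Lemma C: geodesics towards a tail join it. -/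
def JoinStmt : Prop :=
  ∀ (_P : Params G) (_R : Ring G), ∀ᵐ t ∂env G, ∀ γ, IsLine t γ → ∀ x, Joins t γ x

/-- The conjecture. -/
def NoBigeodesicStmt : Prop :=
  G (Set.Iio 0) = 0 → (∀ x, G {x} = 0) → ∀ᵐ t ∂env G, ¬ ∃ γ, IsLine t γ

end Vale.Agent.P158.NB
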