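import Vale.Agent.P158.NB.Join.Meas

/-!
# P158 (iv): geodesics towards the tail of a line join it

A line marked at `0` yields, after lowering many strong edges, a line whose last marked position is
in a given window. Such a line has boundedly many such windows, so translation invariance and the
bound on the number of lines through a box make this event null.
-/

namespace Vale.Agent.P158.NB

open Vale.Agent.P158 MeasureTheory Filter Topology Lines
open scoped ENNReal

namespace Join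

/-- A maximal family of pairwise unrelated elements. -/
lemma exists_reps {α : Type*} (Z : Finset α) (r : α → α → Prop) (hr : ∀ a, r a a)
    (hs : ∀ a b, r a b → r b a) :
    ∃ S ⊆ Z, (∀ a ∈ S, ∀ b ∈ S, a ≠ b → ¬ r a b) ∧ ∀ z ∈ Z, ∃ a ∈ S, r a z := by
  classical
  induction Z using Finset.induction with
  | empty => exact ⟨∅, subset_rfl, by simp, by simp⟩
  | insert x Z _ ih =>
    obtain ⟨S, hS, h1, h2⟩ := ih
    by_cases hx : ∃ a ∈ S, r a x
    · refine ⟨S, hS.trans (Finset.subset_insert _ _), h1, fun z hz => ?_⟩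
      rcases Finset.mem_insert.1 hz with rfl | hz
      exacts [hx, h2 z hz]
    · push Not at hx
      refine ⟨insert x S, Finset.insert_subset_insert _ hS, ?_, fun z hz => ?_⟩
      · intro a ha b hb hab
        rcases Finset.mem_insert.1 ha with rfl | ha' <;> rcases Finset.mem_insert.1 hb with rfl | hb'
        · exact absurd rfl hab
        · exact fun h => hx b hb' (hs _ _ h)
        · exact hx a ha'
        · exact h1 a ha' b hb' hab
      · rcases Finset.mem_insert.1 hz with rfl | hz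
        · exact ⟨z, Finset.mem_insert_self _ _, hr z⟩
        · obtain ⟨a, ha, haz⟩ := h2 z hz
          exact ⟨a, Finset.mem_insert_of_mem ha, haz⟩

/-- Positions of windows with a common line number at most `2 * D`. -/
lemma card_positions_le {t : Conf} {R c D : ℕ} (hD : 0 < D) {S Z : Finset V} (δ : V → ℤ → V)
    (hpos : ∀ z ∈ Z, IsLine t (δ z) ∧ JPos t R c D (δ z))
    (hstart : ∀ z ∈ Z, ∀ z' ∈ Z, δ z 0 = δ z' 0 → z = z') (hS : S ⊆ Z)
    (hcov : ∀ z ∈ Z, ∃ a ∈ S, SameLine (δ a) (δ z)) : Z.card ≤ 2 * D * S.card := by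
  classical
  have h : ∀ z ∈ Z, ∃ p : V × Bool × ℤ,
      p.1 ∈ S ∧ ∀ i, δ z i = δ p.1 ((if p.2.1 then i else -i) + p.2.2) := by
    intro z hz
    obtain ⟨a, ha, hsame⟩ := hcov z hz
    obtain ⟨d, hd⟩ := sameLine_param (hpos a (hS ha)).1.inj (hpos z hz).1.inj hsame
    rcases hd with hd | hd
    · exact ⟨(a, true, d), ha, by simpa using hd⟩
    · exact ⟨(a, false, d), ha, by simpa using hd⟩
  choose! p hp using h
  refine (Finset.card_le_card_of_injOn
    (fun z => ((p z).1, (p z).2.1, ((p z).2.2 % (D : ℤ)).toNat))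
    (t := S ×ˢ (Finset.univ : Finset Bool) ×ˢ Finset.range D) (fun z hz => ?_) ?_).trans
    (le_of_eq (by simp; ring))
  · have hz' : z ∈ Z := hz
    have h1 := Int.emod_nonneg (p z).2.2 (by omega : (D : ℤ) ≠ 0)
    have h2 := Int.emod_lt_of_pos (p z).2.2 (by omega : (0 : ℤ) < D)
    simp only [Finset.coe_product, Set.mem_prod, Finset.mem_coe, Finset.mem_univ, Finset.mem_range]
    exact ⟨(hp z hz').1, trivial, by omega⟩
  · intro z hz z' hz' e
    obtain ⟨e1, e2, e3⟩ : (p z).1 = (p z').1 ∧ (p z).2.1 = (p z').2.1 ∧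
        ((p z).2.2 % (D : ℤ)).toNat = ((p z').2.2 % (D : ℤ)).toNat := by simpa using e
    have h := (hp z hz).2
    have h' := (hp z' hz').2
    rw [← e1, ← e2] at h'
    have hmod : (p z').2.2 % (D : ℤ) = (p z).2.2 % (D : ℤ) := by
      have := Int.emod_nonneg (p z).2.2 (by omega : (D : ℤ) ≠ 0)
      have := Int.emod_nonneg (p z').2.2 (by omega : (D : ℤ) ≠ 0)
      omega
    have hdvd : (D : ℤ) ∣ (p z').2.2 - (p z).2.2 := Int.ModEq.dvd (hmod.symm : Int.ModEq (D : ℤ) (p z).2.2 (p z').2.2)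
    refine hstart z hz z' hz' ?_
    obtain ⟨d, hd, hdd⟩ : ∃ d : ℤ, (∀ i, δ z' i = δ z (i + d)) ∧
        ((D : ℤ) ∣ d) := by
      cases hb : (p z).2.1
      · refine ⟨(p z).2.2 - (p z').2.2, fun i => ?_, (dvd_sub_comm).1 hdvd⟩
        rw [h', h, hb]
        simp only [Bool.false_eq_true, if_false]
        congr 1
        ring
      · refine ⟨(p z').2.2 - (p z).2.2, fun i => ?_, hdvd⟩
        rw [h', h, hb]
        simp only [if_true]
        congr 1
        ring
    have hlt := jpos_close hd (hpos z hz).2 (hpos z' hz').2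
    obtain rfl := Int.eq_zero_of_abs_lt_dvd hdd hlt
    simpa using (hd 0).symm

/-- Translates of `z` in the box of radius `N`. -/
noncomputable def boxN (N : ℕ) : Finset V :=
  Finset.Icc (-(N : ℤ)) N ×ˢ Finset.Icc (-(N : ℤ)) N

lemma boxN_card (N : ℕ) : (boxN N).card = (2 * N + 1) ^ 2 := by
  simp only [boxN, Finset.card_product, Int.card_Icc]
  rw [show ((N : ℤ) + 1 - -(N : ℤ)).toNat = 2 * N + 1 by omega]
  ring

variable (G : Measure ℝ) [IsProbabilityMeasure G]

variable {θ : ℝ} {R c D : ℕ} {q : Fin (D + 1) → V} {k : ℕ}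

/-- The measurable core is null. -/
theorem core_null (hk : k < D) {B : ℝ≥0∞} (hBtop : B < ⊤)
    (hB : ∀ e, IsEdge e → ∫⁻ t in {t | θ ≤ t e}, Nln t e ∂env G ≤ B)
    (hlong : Tendsto (fun n => env G (LongGood θ n)ᶜ) atTop (𝓝 0)) {A : Set Conf}
    (hA : MeasurableSet A) (hsub : A ⊆ Cand θ R c q k) : env G A = 0 := by
  classical
  set bad : ℕ → Set Conf := fun N => toMeasurable (env G) (LongGood θ N)ᶜ with hbad
  set g : ℕ → Conf → ℝ≥0∞ := fun N t =>
    2 * ∑ e ∈ stepsFin (5 * N), {t : Conf | θ ≤ t e}.indicator (fun t => Nln t e) t with hg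
  have hAz : ∀ z, MeasurableSet (shiftW z ⁻¹' A) := fun z => measurable_shiftW z hA
  have key : ∀ N : ℕ, (q 0).1.natAbs + (q 0).2.natAbs ≤ N → ∀ t : Conf,
      (N : ℝ≥0∞) * ∑ z ∈ boxN N, (shiftW z ⁻¹' A).indicator (fun _ => (1 : ℝ≥0∞)) t ≤
        (N : ℝ≥0∞) * (boxN N).card * (bad N).indicator (fun _ => 1) t +
          (2 * D : ℕ) * g N t := by
    intro N hN t
    set Z := (boxN N).filter fun z => shiftW z t ∈ A with hZ
    have hsum : ∑ z ∈ boxN N, (shiftW z ⁻¹' A).indicator (fun _ => (1 : ℝ≥0∞)) t = (Z.card : ℝ≥0∞) := by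
      simp only [hZ, Set.indicator_apply, Set.mem_preimage]
      rw [Finset.sum_boole]
    rw [hsum]
    by_cases hgood : t ∈ LongGood θ N
    swap
    · refine le_add_right ?_
      rw [Set.indicator_of_mem (subset_toMeasurable _ _ hgood), mul_one]
      exact mul_le_mul' le_rfl (Nat.cast_le.2 (Finset.card_filter_le _ _))
    refine le_add_left ?_
    have hline : ∀ z ∈ Z, ∃ δ : ℤ → V, IsLine t δ ∧ JPos t R c D δ ∧ δ 0 = q 0 + z := by
      intro z hz
      obtain ⟨-, γ, h1, h2, h3⟩ := hsub (Finset.mem_filter.1 hz).2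
      refine ⟨fun i => γ i + z, isLine_translate h1, jpos_translate.2 h3, ?_⟩
      simpa using congrArg (· + z) (h2 0)
    choose! δ hδ using hline
    obtain ⟨S, hS, hne, hcov⟩ :=
      exists_reps Z (fun a b => SameLine (δ a) (δ b)) (fun _ => SameLine.refl _) fun _ _ h => h.symm
    have hcount := card_positions_le (by omega : 0 < D) δ
      (fun z hz => ⟨(hδ z hz).1, (hδ z hz).2.1⟩)
      (fun z hz z' hz' e => by
        rw [(hδ z hz).2.2, (hδ z' hz').2.2] at e
        exact add_left_cancel e) hS hcov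
    have hbox := card_lines_box_le hgood S δ (fun a ha => ⟨(hδ a (hS ha)).1, 0, ?_⟩) hne
    · calc (N : ℝ≥0∞) * Z.card ≤ (N : ℝ≥0∞) * ((2 * D * S.card : ℕ) : ℝ≥0∞) :=
            mul_le_mul' le_rfl (Nat.cast_le.2 hcount)
        _ = (2 * D : ℕ) * ((N : ℝ≥0∞) * S.card) := by push_cast; ring
        _ ≤ (2 * D : ℕ) * g N t := mul_le_mul' le_rfl hbox
    · have hz := Finset.mem_filter.1 (hS ha)
      simp only [boxN, Finset.mem_product, Finset.mem_Icc] at hz
      rw [(hδ a (hS ha)).2.2]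
      simp only [box, Set.mem_ofPred_eq, Prod.fst_add, Prod.snd_add, Prod.fst_zero, Prod.snd_zero,
        sub_zero, abs_le]
      push_cast
      omega
  have hbound : ∀ N : ℕ, (q 0).1.natAbs + (q 0).2.natAbs ≤ N → 1 ≤ N →
      env G A ≤ env G (LongGood θ N)ᶜ + ((400 * D : ℕ) : ℝ≥0∞) * B * (N : ℝ≥0∞)⁻¹ := by
    intro N hN hN1
    have hI := lintegral_mono (μ := env G) (key N hN)
    have hind : ∀ S : Set Conf, MeasurableSet S →
        Measurable (S.indicator fun _ => (1 : ℝ≥0∞)) := fun S hS => measurable_const.indicator hS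
    have hone : ∀ S : Set Conf, MeasurableSet S →
        ∫⁻ t, S.indicator (fun _ => (1 : ℝ≥0∞)) t ∂env G = env G S := fun S hS =>
      lintegral_indicator_one hS
    have hgm : Measurable (g N) := measurable_const.mul (Finset.measurable_sum _ fun e _ =>
      (measurable_Nln e).indicator (measurableSet_le measurable_const (measurable_pi_apply e)))
    rw [lintegral_const_mul' _ _ (ENNReal.natCast_ne_top N),
      lintegral_finsetSum _ fun z _ => hind _ (hAz z),
      lintegral_add_right _ (hgm.const_mul ((2 * D : ℕ) : ℝ≥0∞)),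
      lintegral_const_mul' _ _ (ENNReal.natCast_ne_top _),
      lintegral_const_mul' _ _ (ENNReal.mul_ne_top (ENNReal.natCast_ne_top N)
        (ENNReal.natCast_ne_top _)),
      hone (bad N) (measurableSet_toMeasurable _ _)] at hI
    simp only [hbad, measure_toMeasurable] at hI
    have hz : ∀ z ∈ boxN N, ∫⁻ t, (shiftW z ⁻¹' A).indicator (fun _ => (1 : ℝ≥0∞)) t ∂env G =
        env G A := fun z _ => by
      rw [hone _ (hAz z), ← Measure.map_apply (measurable_shiftW z) hA, env_shiftW]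
    rw [Finset.sum_congr rfl hz, Finset.sum_const, nsmul_eq_mul] at hI
    have hgi := lintegral_lines_box_le G θ hB N
    have h25 : 8 * (10 * N + 1) ^ 2 * (2 * D) ≤ 400 * D * (boxN N).card := by
      rw [boxN_card]
      have : (10 * N + 1) ^ 2 ≤ (5 * (2 * N + 1)) ^ 2 := Nat.pow_le_pow_left (by omega) 2
      nlinarith
    set K : ℝ≥0∞ := ((boxN N).card : ℝ≥0∞) with hK
    have hK0 : K ≠ 0 := by simp [hK, boxN_card]
    have hKt : K ≠ ⊤ := ENNReal.natCast_ne_top _
    have h1 : K * ((N : ℝ≥0∞) * env G A) ≤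
        K * ((N : ℝ≥0∞) * env G (LongGood θ N)ᶜ + ((400 * D : ℕ) : ℝ≥0∞) * B) := by
      calc K * ((N : ℝ≥0∞) * env G A) = (N : ℝ≥0∞) * (K * env G A) := by ring
        _ ≤ (N : ℝ≥0∞) * K * env G (LongGood θ N)ᶜ + (2 * D : ℕ) * ∫⁻ t, g N t ∂env G := hI
        _ ≤ (N : ℝ≥0∞) * K * env G (LongGood θ N)ᶜ +
            (2 * D : ℕ) * (8 * ((10 * N + 1) ^ 2 : ℕ) * B) := by gcongr
        _ ≤ (N : ℝ≥0∞) * K * env G (LongGood θ N)ᶜ + ((400 * D : ℕ) : ℝ≥0∞) * K * B := by
            refine add_le_add le_rfl ?_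
            rw [← mul_assoc]
            refine mul_le_mul' ?_ le_rfl
            rw [hK, ← Nat.cast_mul (400 * D)]
            refine le_trans (le_of_eq ?_) (Nat.cast_le.2 h25)
            push_cast
            ring
        _ = _ := by ring
    rw [ENNReal.mul_le_mul_iff_right hK0 hKt] at h1
    have hN0 : (N : ℝ≥0∞) ≠ 0 := by simp; omega
    calc env G A = (N : ℝ≥0∞)⁻¹ * ((N : ℝ≥0∞) * env G A) := by
          rw [← mul_assoc, ENNReal.inv_mul_cancel hN0 (ENNReal.natCast_ne_top N), one_mul]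
      _ ≤ (N : ℝ≥0∞)⁻¹ * ((N : ℝ≥0∞) * env G (LongGood θ N)ᶜ + ((400 * D : ℕ) : ℝ≥0∞) * B) :=
          mul_le_mul' le_rfl h1
      _ = _ := by
          rw [mul_add, ← mul_assoc, ENNReal.inv_mul_cancel hN0 (ENNReal.natCast_ne_top N), one_mul,
            mul_comm (N : ℝ≥0∞)⁻¹]
  have hlim : Tendsto (fun N : ℕ => env G (LongGood θ N)ᶜ +
      ((400 * D : ℕ) : ℝ≥0∞) * B * (N : ℝ≥0∞)⁻¹) atTop (𝓝 0) := by
    have := hlong.add (ENNReal.Tendsto.const_mul (a := ((400 * D : ℕ) : ℝ≥0∞) * B)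
      ENNReal.tendsto_inv_nat_nhds_zero
      (Or.inr (ENNReal.mul_ne_top (ENNReal.natCast_ne_top _) hBtop.ne)))
    simpa using this
  refine le_antisymm (ge_of_tendsto hlim ?_) zero_le
  filter_upwards [eventually_ge_atTop ((q 0).1.natAbs + (q 0).2.natAbs), eventually_ge_atTop 1] with
    N h1 h2 using hbound N h1 h2

/-- The event itself is null. -/
theorem cand_null (hk : k < D) {B : ℝ≥0∞} (hBtop : B < ⊤)
    (hB : ∀ e, IsEdge e → ∫⁻ t in {t | θ ≤ t e}, Nln t e ∂env G ≤ B)
    (hlong : Tendsto (fun n => env G (LongGood θ n)ᶜ) atTop (𝓝 0)) :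
    env G (Cand θ R c q k) = 0 := by
  set e := s(ext q k, ext q (k + 1)) with he
  obtain ⟨A, hA, hAsub, hsub⟩ := exists_core θ R c q hk
  rcases (Cand θ R c q k).eq_empty_or_nonempty with h0 | ⟨t₀, -, γ, h1, h2, -⟩
  · simp [h0]
  have hedge : IsEdge e := by
    refine ⟨ext q k, ext q (k + 1), ?_, rfl⟩
    have := h1.adj (k : ℤ)
    rw [← Nat.cast_one, ← Nat.cast_add] at this
    have e1 := h2 ⟨k, by omega⟩
    have e2 := h2 ⟨k + 1, by omega⟩
    simp only at e1 e2
    rw [e1, e2] at this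
    simpa [ext, min_eq_left hk.le, min_eq_left (show k + 1 ≤ D from hk)] using this
  have hs : MeasurableSet {t : Conf | θ ≤ t e} :=
    measurableSet_le measurable_const (measurable_pi_apply e)
  have hfin : env G ({t | θ ≤ t e} ∩ {t | Nln t e < ⊤}ᶜ) = 0 := by
    have h := ae_lt_top (μ := (env G).restrict {t | θ ≤ t e}) (measurable_Nln e)
      ((hB e hedge).trans_lt hBtop).ne
    rw [ae_restrict_iff' hs] at h
    refine measure_mono_null (fun t ht => ?_) (ae_iff.1 h)
    simp only [Set.mem_ofPred_eq, Classical.not_imp]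
    exact ⟨ht.1, ht.2⟩
  refine measure_mono_null (t := A ∪ ({t | θ ≤ t e} ∩ {t | Nln t e < ⊤}ᶜ)) (fun t ht => ?_)
    (measure_union_null (core_null G hk hBtop hB hlong hA hAsub) hfin)
  by_cases h : Nln t e < ⊤
  · exact Or.inl (hsub ⟨ht, h⟩)
  · exact Or.inr ⟨ht.1, h⟩

/-- A line marked at `0`. -/
def Marked (R c : ℕ) : Set Conf := {t | ∃ γ : ℤ → V, IsLine t γ ∧ γ 0 = 0 ∧ JRep t R c γ 0}

/-- The configurations to be lowered: strong steps `T` of the window, a far tail, a strong step `k`. -/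
def Prep (P : Params G) (R c M : ℕ) (q : Fin (2 * M + 1) → V) (T : Finset ℕ) (k : ℕ) : Set Conf :=
  {t | OK t ∧ k < 2 * M ∧ M ≤ k ∧ (∀ i ∈ T, i < M ∧ P.θ ≤ t s(ext q i, ext q (i + 1))) ∧
    M ≤ 2 * T.card ∧ P.θ ≤ t s(ext q k, ext q (k + 1)) ∧
    ∃ γ : ℤ → V, IsLine t γ ∧ (∀ j : Fin (2 * M + 1), γ (j : ℕ) = q j) ∧
      JRep t R c γ ((2 * M : ℕ) : ℤ) ∧
      ∀ a : ℕ, a ≤ M → (R : ℝ) * c ≤ Tf t (γ a) (γ ((2 * M : ℕ) : ℤ))}

variable {G}

omit [IsProbabilityMeasure G] in
lemma marked_subset (P : Params G) {M : ℕ} (hM : (R : ℝ) * c ≤ P.θ * (M / 2)) (hM0 : 0 < M) :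
    Marked R c ∩ {t | OK t} ∩ LongGood P.θ M ⊆
      ⋃ (q : Fin (2 * M + 1) → V) (T : Finset ℕ) (k : ℕ), Prep G P R c M q T k := by
  classical
  rintro t ⟨⟨⟨γ, hl, h0, hrep⟩, hok⟩, hgood⟩
  set δ : ℤ → V := fun i => γ (i + -((2 * M : ℕ) : ℤ)) with hδ
  have hlδ : IsLine t δ := isLine_shift _ hl
  have hbox : ∀ a : ℕ, a ≤ 2 * M → δ (a : ℤ) ∈ box 0 (4 * M) := by
    intro a ha
    have h := path_dist (v := fun i : ℕ => δ ((a : ℤ) + i)) (L := 2 * M - a) fun i _ => by
      simpa [add_assoc] using hlδ.adj ((a : ℤ) + i)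
    have e : δ ((a : ℤ) + ((2 * M - a : ℕ) : ℤ)) = 0 := by
      rw [← h0]
      simp only [hδ]
      congr 1
      omega
    simp only [Nat.cast_zero, add_zero, e, Prod.fst_zero, Prod.snd_zero, zero_sub, abs_neg] at h
    simp only [box, Set.mem_ofPred_eq, Prod.fst_zero, Prod.snd_zero, sub_zero]
    have := abs_nonneg (δ (a : ℤ)).1
    have := abs_nonneg (δ (a : ℤ)).2
    push_cast at h ⊢
    omega
  have hcount : ∀ (a n : ℕ), a + M ≤ 2 * M → M ≤ n →
      n ≤ 2 * ((Finset.range n).filter fun i : ℕ =>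
        P.θ ≤ t s(δ ((a + i : ℕ) : ℤ), δ ((a + i : ℕ) + 1 : ℤ))).card := by
    intro a n ha hn
    have := hgood (fun i : ℕ => δ ((a + i : ℕ) : ℤ)) n (fun i _ => by
        simpa [add_assoc] using hlδ.adj ((a + i : ℕ) : ℤ))
      (fun i _ j _ e => by have := hlδ.inj e; omega) (by simpa using hbox a (by omega)) hn
    simpa [add_assoc] using this
  have hq : ∀ j : ℕ, j ≤ 2 * M → ext (fun j : Fin (2 * M + 1) => δ (j : ℕ)) j = δ (j : ℕ) :=
    fun j hj => ext_restrict (fun j : ℕ => δ (j : ℕ)) (2 * M) j hj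
  set T := (Finset.range M).filter fun i : ℕ => P.θ ≤ t s(δ (i : ℤ), δ ((i : ℤ) + 1)) with hT
  obtain ⟨k, hk, hkθ⟩ : ∃ k, k < M ∧ P.θ ≤ t s(δ ((M + k : ℕ) : ℤ), δ ((M + k : ℕ) + 1 : ℤ)) := by
    have h := hcount M M (by omega) le_rfl
    obtain ⟨k, hk⟩ := Finset.card_pos.1 (show 0 < ((Finset.range M).filter fun i : ℕ =>
      P.θ ≤ t s(δ ((M + i : ℕ) : ℤ), δ ((M + i : ℕ) + 1 : ℤ))).card by omega)
    exact ⟨k, Finset.mem_range.1 (Finset.mem_filter.1 hk).1, (Finset.mem_filter.1 hk).2⟩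
  simp only [Set.mem_iUnion]
  refine ⟨fun j => δ (j : ℕ), T, M + k, hok, by omega, by omega, fun i hi => ?_, ?_, ?_, δ, hlδ,
    fun j => rfl, ?_, fun a ha => ?_⟩
  · obtain ⟨h1, h2⟩ := Finset.mem_filter.1 hi
    rw [Finset.mem_range] at h1
    rw [hq i (by omega), hq (i + 1) (by omega)]
    push_cast
    exact ⟨h1, h2⟩
  · simpa [hT] using hcount 0 M (by omega) le_rfl
  · rw [hq (M + k) (by omega), hq (M + k + 1) (by omega)]
    push_cast at hkθ ⊢
    exact hkθ
  · rw [hδ, jrep_shift, add_neg_cancel]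
    exact hrep
  · have h := hcount a (2 * M - a) (by omega) (by omega)
    set F := (Finset.range (2 * M - a)).filter fun i : ℕ =>
      P.θ ≤ t s(δ ((a + i : ℕ) : ℤ), δ ((a + i : ℕ) + 1 : ℤ)) with hF
    have hcard : (M : ℝ) ≤ 2 * F.card := by exact_mod_cast (show M ≤ 2 * F.card by omega)
    have hθ : 0 < P.θ := P.pos.trans P.lt
    rw [line_Tf hok.pos hlδ (by omega : (a : ℤ) ≤ ((2 * M : ℕ) : ℤ)),
      show (((2 * M : ℕ) : ℤ) - a).toNat = 2 * M - a by omega]
    calc (R : ℝ) * c ≤ P.θ * (M / 2) := hM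
      _ ≤ F.card * P.θ := by nlinarith
      _ ≤ ∑ i ∈ F, t s(δ ((a + i : ℕ) : ℤ), δ ((a + i : ℕ) + 1 : ℤ)) := by
          rw [← nsmul_eq_mul]
          exact Finset.card_nsmul_le_sum _ _ _ fun i hi => (Finset.mem_filter.1 hi).2
      _ ≤ cost t (fun i : ℕ => δ ((a : ℤ) + i)) (2 * M - a) := by
          refine (Finset.sum_le_sum_of_subset_of_nonneg (Finset.filter_subset _ _)
            fun i _ _ => (hok.pos _).le).trans (le_of_eq (Finset.sum_congr rfl fun i _ => ?_))
          push_cast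
          rw [add_assoc]

variable (G)

/-- Lines are not marked. -/
theorem marked_null (P : Params G) (hOK : ∀ᵐ t ∂env G, OK t)
    (hlow : ∀ (π : Finset (Sym2 V)) (A : Set Conf), MeasurableSet A →
      ((env G).prod (env G)) {p | lowerW π p.1 p.2 ∈ A} ≤ 2 ^ π.card * env G A)
    {B : ℝ≥0∞} (hBtop : B < ⊤)
    (hB : ∀ e, IsEdge e → ∫⁻ t in {t | P.θ ≤ t e}, Nln t e ∂env G ≤ B) (R c : ℕ) :
    env G (Marked R c) = 0 := by
  classical
  have hlong : Tendsto (fun n => env G (LongGood P.θ n)ᶜ) atTop (𝓝 0) := by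
    refine tendsto_of_tendsto_of_tendsto_of_le_of_le' tendsto_const_nhds P.long
      (Eventually.of_forall fun _ => zero_le) ?_
    filter_upwards [eventually_ge_atTop 1] with n hn
    exact le_mul_of_one_le_left' (one_le_pow₀ (by exact_mod_cast hn))
  by_contra hne
  have hθ : 0 < P.θ := P.pos.trans P.lt
  have hev : ∀ᶠ M : ℕ in atTop, env G (LongGood P.θ M)ᶜ < env G (Marked R c) ∧ 0 < M ∧
      2 * ((R : ℝ) * c) < (P.θ - P.θ') * (M / 2) ∧ (R : ℝ) * c ≤ P.θ * (M / 2) := by
    have h2 : Tendsto (fun M : ℕ => (M : ℝ) / 2) atTop atTop :=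
      tendsto_natCast_atTop_atTop.atTop_div_const (by norm_num)
    exact (hlong.eventually (gt_mem_nhds (pos_iff_ne_zero.2 hne))).and ((eventually_gt_atTop 0).and
      (((h2.const_mul_atTop (sub_pos.2 P.lt)).eventually_gt_atTop _).and
        ((h2.const_mul_atTop hθ).eventually_ge_atTop _)))
  obtain ⟨M, hMlong, hM0, hgain, hfar⟩ := hev.exists
  set bad := {t : Conf | OK t}ᶜ with hbad
  have hbad0 : env G bad = 0 := ae_iff.1 hOK
  have hcover : Marked R c ⊆
      ((⋃ (q : Fin (2 * M + 1) → V) (T : Finset ℕ) (k : ℕ), Prep G P R c M q T k) ∪ bad) ∪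
        (LongGood P.θ M)ᶜ := by
    intro t ht
    by_cases h1 : OK t
    · by_cases h2 : t ∈ LongGood P.θ M
      · exact Or.inl (Or.inl (marked_subset P hfar hM0 ⟨⟨ht, h1⟩, h2⟩))
      · exact Or.inr h2
    · exact Or.inl (Or.inr h1)
  obtain ⟨q, T, k, hpos⟩ : ∃ q T k, env G (Prep G P R c M q T k) ≠ 0 := by
    by_contra h
    push Not at h
    refine (lt_irrefl _) (lt_of_le_of_lt ((measure_mono hcover).trans ?_) hMlong)
    refine (measure_union_le _ _).trans (le_of_eq ?_)
    rw [measure_union_null (measure_iUnion_null fun q => measure_iUnion_null fun T =>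
      measure_iUnion_null fun k => h q T k) hbad0, zero_add]
  obtain ⟨t₀, -, hk, -, -⟩ := nonempty_of_measure_ne_zero hpos
  set π := T.image fun i : ℕ => s(ext q i, ext q (i + 1)) with hπ
  set U := {u : Conf | ∀ e ∈ π, u e < P.θ'} with hU
  have hU0 : env G U ≠ 0 := by
    rw [hU, env_low]
    exact pow_ne_zero _ P.mass.ne'
  have hnull : ∀ X : Set Conf, env G X = 0 →
      ((env G).prod (env G)) {p | lowerW π p.1 p.2 ∈ X} = 0 := fun X hX => by
    refine measure_mono_null (fun p hp => subset_toMeasurable (env G) X hp) (le_antisymm ?_ zero_le)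
    refine (hlow π _ (measurableSet_toMeasurable _ _)).trans (le_of_eq ?_)
    rw [measure_toMeasurable, hX, mul_zero]
  have hpair : Prep G P R c M q T k ×ˢ U ⊆
      {p | lowerW π p.1 p.2 ∈ Cand P.θ R c q k} ∪ {p | lowerW π p.1 p.2 ∈ bad} := by
    rintro ⟨t, u⟩ ⟨⟨hok, hk2, hkM, hTs, hTc, hkθ, γ, hl, hpre, hrep, hfarT⟩, hu⟩
    rw [Set.mem_union, or_iff_not_imp_right]
    intro hgood
    have hok' : OK (lowerW π t u) := not_not.1 hgood
    have hq : ∀ j : ℕ, j ≤ 2 * M → γ (j : ℤ) = ext q j := fun j hj => by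
      simpa [ext, min_eq_left hj] using hpre ⟨j, by omega⟩
    have hedge : ∀ j : ℕ, j < 2 * M →
        s(γ (j : ℤ), γ ((j : ℤ) + 1)) = s(ext q j, ext q (j + 1)) := fun j hj => by
      rw [← hq j hj.le, ← hq (j + 1) hj]
      push_cast
      rfl
    have hlowE : lowEdges γ T = π :=
      Finset.image_congr fun i hi => hedge i (by have := (hTs i hi).1; omega)
    have heq : ∀ e, e ∉ π → lowerW π t u e = t e := fun e he => by simp [lowerW, he]
    have hle : ∀ e, lowerW π t u e ≤ t e := fun e => by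
      unfold lowerW; split_ifs <;> simp
    have hgainπ : 2 * ((R : ℝ) * c) < ∑ e ∈ π, (t e - lowerW π t u e) := by
      have hcard : π.card = T.card := by
        rw [← hlowE]
        refine Finset.card_image_of_injOn fun i _ j _ e => ?_
        have := line_edge_inj hl.inj e
        omega
      have hT2 : (M : ℝ) / 2 ≤ T.card := by
        have : (M : ℝ) ≤ 2 * T.card := by exact_mod_cast hTc
        linarith
      calc 2 * ((R : ℝ) * c) < (P.θ - P.θ') * (M / 2) := hgain
        _ ≤ π.card • (P.θ - P.θ') := by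
            rw [nsmul_eq_mul, hcard]
            nlinarith [sub_pos.2 P.lt]
        _ ≤ _ := Finset.card_nsmul_le_sum _ _ _ fun e he => by
            obtain ⟨i, hi, rfl⟩ := Finset.mem_image.1 he
            have h1 := (hTs i hi).2
            have h2 := hu _ he
            simp only [lowerW, if_pos he]
            have := min_le_right (t s(ext q i, ext q (i + 1))) (u s(ext q i, ext q (i + 1)))
            linarith
    obtain ⟨hl', hpos'⟩ := jpos_lowered hok.pos hok'.pos (geoEx_ok hok') hl T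
      (fun i hi => (hTs i hi).1) (by omega) hle (by rwa [hlowE]) (by rwa [hlowE]) hfarT hrep
    refine ⟨?_, γ, hl', hpre, hpos'⟩
    rw [heq _ fun he => ?_]
    · exact hkθ
    · rw [← hlowE, ← hedge k hk2] at he
      obtain ⟨i, hi, hik⟩ := Finset.mem_image.1 he
      have := line_edge_inj hl.inj hik
      have := (hTs i hi).1
      omega
  refine mul_ne_zero hpos hU0 ?_
  rw [← Measure.prod_prod]
  exact measure_mono_null hpair
    (measure_union_null (hnull _ (cand_null G hk hBtop hB hlong)) (hnull _ hbad0))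

end Join

variable (G : Measure ℝ) [IsProbabilityMeasure G]

/-- Lemma C: geodesics towards the tail of a line join it. -/
theorem join_stmt (hatom : ∀ x, G {x} = 0) (hOK : ∀ᵐ t ∂env G, OK t) (hchange : ChangeStmt G)
    (hlines : LinesStmt G) : JoinStmt G := by
  intro P R
  obtain ⟨B, hBtop, hB⟩ := hlines P R hOK
  have h : ∀ᵐ t ∂env G, ∀ (r c : ℕ) (z : V), shiftW z t ∉ Join.Marked r c := by
    simp only [ae_all_iff]
    intro r c z
    exact (MeasurePreserving.quasiMeasurePreserving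
      ⟨measurable_shiftW z, env_shiftW G z⟩).ae (measure_eq_zero_iff_ae_notMem.1
        (Join.marked_null G P hOK (hchange hatom).2.1 hBtop hB r c))
  filter_upwards [h, hOK] with t ht hok γ hγ x
  by_contra hJ
  obtain ⟨r, c, u, hu⟩ := Join.exists_jrep hok.pos hJ
  refine ht r c (γ u) ⟨fun i => γ (i + u) + -γ u, Join.isLine_translate ?_, by simp,
    Join.jrep_translate.2 ?_⟩
  · rw [Join.shiftW_neg]
    exact Join.isLine_shift u hγ
  · rw [Join.shiftW_neg, Join.jrep_shift, zero_add]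
    exact hu

end Vale.Agent.P158.NB
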