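import Vale.Agent.P158.NB.Defs

/-!
# P158: passage times and geodesics inside an edge set

Existence, sub-geodesics, reversal, the triangle inequality, uniqueness and the exchange at a
common vertex.
-/

namespace Vale.Agent.P158.NB

open Vale.Agent.P158

variable {t : Conf} {K K' : Set (Sym2 V)} {x y z : V} {v w : ℕ → V} {L M : ℕ}

/-- The part of a path from the index `i` on. -/
def seg (v : ℕ → V) (i : ℕ) : ℕ → V := fun k => v (i + k)

@[simp] lemma seg_apply (v : ℕ → V) (i k : ℕ) : seg v i k = v (i + k) := rfl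

lemma cost_seg_add (t : Conf) (v : ℕ → V) {i L : ℕ} (h : i ≤ L) :
    cost t v L = cost t v i + cost t (seg v i) (L - i) := by
  unfold cost
  conv_lhs => rw [show L = i + (L - i) by omega, Finset.sum_range_add]
  simp [seg, add_assoc]

lemma cost_congr {v w : ℕ → V} {L : ℕ} (h : ∀ k ≤ L, v k = w k) : cost t v L = cost t w L :=
  Finset.sum_congr rfl fun k hk => by
    rw [Finset.mem_range] at hk
    rw [h k hk.le, h (k + 1) hk]

lemma cost_nonneg (hp : ∀ e, 0 ≤ t e) (v : ℕ → V) (L : ℕ) : 0 ≤ cost t v L :=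
  Finset.sum_nonneg fun k _ => hp _

lemma edge_le_cost (hp : ∀ e, 0 ≤ t e) {k : ℕ} (hk : k < L) :
    t s(v k, v (k + 1)) ≤ cost t v L :=
  Finset.single_le_sum (f := fun k => t s(v k, v (k + 1))) (fun k _ => hp _) (Finset.mem_range.2 hk)

lemma cost_mono {t u : Conf} (h : ∀ e, t e ≤ u e) (v : ℕ → V) (L : ℕ) : cost t v L ≤ cost u v L :=
  Finset.sum_le_sum fun k _ => h _

lemma OK.nonneg (h : OK t) (e : Sym2 V) : 0 ≤ t e := (h.pos e).le

/-! ## Paths inside an edge set -/

lemma PathIn.refl (K : Set (Sym2 V)) (x : V) : PathIn K x x (fun _ => x) 0 :=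
  ⟨fun k hk => absurd hk (Nat.not_lt_zero k), fun k hk => absurd hk (Nat.not_lt_zero k), rfl, rfl⟩

lemma PathIn.congr (h : PathIn K x y v L) (hvw : ∀ k ≤ L, v k = w k) : PathIn K x y w L :=
  ⟨fun k hk => by rw [← hvw k hk.le, ← hvw (k + 1) hk]; exact h.path k hk,
    fun k hk => by rw [← hvw k hk.le, ← hvw (k + 1) hk]; exact h.mem k hk,
    (hvw 0 (Nat.zero_le _)).symm.trans h.first, (hvw L le_rfl).symm.trans h.last⟩

lemma PathIn.mono (h : PathIn K x y v L) (hK : K ⊆ K') : PathIn K' x y v L :=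
  ⟨h.path, fun k hk => hK (h.mem k hk), h.first, h.last⟩

lemma PathIn.single {a b : V} (h : Adj a b) (hm : s(a, b) ∈ K) :
    PathIn K a b (fun k => if k = 0 then a else b) 1 :=
  ⟨fun k hk => by rw [Nat.lt_one_iff.1 hk]; simpa using h,
    fun k hk => by rw [Nat.lt_one_iff.1 hk]; simpa using hm, by simp, by simp⟩

lemma PathIn.reverse (h : PathIn K x y v L) : PathIn K y x (Vale.Agent.P158.rev v L) L := by
  refine ⟨rev_path h.path, fun k hk => ?_, by simpa [Vale.Agent.P158.rev] using h.last,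
    by simpa [Vale.Agent.P158.rev] using h.first⟩
  have := h.mem (L - (k + 1)) (by omega)
  rw [show L - (k + 1) + 1 = L - k by omega, Sym2.eq_swap] at this
  exact this

lemma PathIn.append (h : PathIn K x y v L) (h' : PathIn K y z w M) :
    PathIn K x z (cat v L w) (L + M) := by
  have e : w 0 = v L := h'.first.trans h.last.symm
  refine ⟨cat_path h.path h'.path e, fun k hk => ?_, ?_, ?_⟩
  · by_cases hk' : k < L
    · rw [cat_left v w L k hk'.le, cat_left v w L (k + 1) hk']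
      exact h.mem k hk'
    · obtain ⟨i, rfl⟩ : ∃ i, k = L + i := ⟨k - L, by omega⟩
      rw [cat_right v w L i e, show L + i + 1 = L + (i + 1) by omega, cat_right v w L (i + 1) e]
      exact h'.mem i (by omega)
  · rw [cat_left _ _ _ _ (Nat.zero_le _), h.first]
  · rw [cat_right v w L M e, h'.last]

lemma PathIn.append_cost (h : PathIn K x y v L) (h' : PathIn K' y z w M) :
    cost t (cat v L w) (L + M) = cost t v L + cost t w M :=
  cat_cost t (h'.first.trans h.last.symm)

lemma PathIn.take (h : PathIn K x y v L) {i : ℕ} (hi : i ≤ L) : PathIn K x (v i) v i :=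
  ⟨fun k hk => h.path k (by omega), fun k hk => h.mem k (by omega), h.first, rfl⟩

lemma PathIn.drop (h : PathIn K x y v L) {i : ℕ} (hi : i ≤ L) :
    PathIn K (v i) y (seg v i) (L - i) :=
  ⟨h.path.shift hi le_rfl, fun k hk => by simpa [seg, add_assoc] using h.mem (i + k) (by omega),
    by simp, by simpa [show i + (L - i) = L by omega] using h.last⟩

lemma PathIn.between (h : PathIn K x y v L) {i j : ℕ} (hij : i ≤ j) (hj : j ≤ L) :
    PathIn K (v i) (v j) (seg v i) (j - i) :=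
  (h.take hj).drop hij

/-- A path has a simple path below it. -/
lemma PathIn.simplify (hp : ∀ e, 0 ≤ t e) :
    ∀ {L : ℕ} {v : ℕ → V}, PathIn K x y v L →
      ∃ w M, PathIn K x y w M ∧ Set.InjOn w (Set.Iic M) ∧ cost t w M ≤ cost t v L ∧ M ≤ L := by
  intro L
  induction L using Nat.strong_induction_on with
  | _ L ih =>
    intro v h
    by_cases hi : Set.InjOn v (Set.Iic L)
    · exact ⟨v, L, h, hi, le_rfl, le_rfl⟩
    obtain ⟨a, b, hab, hb, e⟩ : ∃ a b, a < b ∧ b ≤ L ∧ v a = v b := by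
      by_contra hne
      push Not at hne
      refine hi fun a ha b hb e => ?_
      rcases lt_trichotomy a b with hab | hab | hab
      · exact absurd e (hne a b hab hb)
      · exact hab
      · exact absurd e.symm (hne b a hab ha)
    have h1 := h.take (show a ≤ L by omega)
    have h2 : PathIn K (v a) y (seg v b) (L - b) := e ▸ h.drop hb
    obtain ⟨w, M, hw, hwi, hc, hM⟩ := ih (a + (L - b)) (by omega) (h1.append h2)
    refine ⟨w, M, hw, hwi, hc.trans ?_, hM.trans (by omega)⟩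
    rw [h1.append_cost h2, cost_seg_add t v hb, cost_seg_add t v (show a ≤ b from hab.le)]
    linarith [cost_nonneg hp (seg v a) (b - a)]

/-! ## Passage times -/

/-- `y` can be reached from `x` inside `K`. -/
def Reach (K : Set (Sym2 V)) (x y : V) : Prop := ∃ v L, PathIn K x y v L

lemma Reach.symm (h : Reach K x y) : Reach K y x := by
  obtain ⟨v, L, h⟩ := h
  exact ⟨_, _, h.reverse⟩

lemma Reach.trans (h : Reach K x y) (h' : Reach K y z) : Reach K x z := by
  obtain ⟨v, L, h⟩ := h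
  obtain ⟨w, M, h'⟩ := h'
  exact ⟨_, _, h.append h'⟩

lemma T_bddBelow (hp : ∀ e, 0 ≤ t e) :
    BddBelow {r | ∃ v L, PathIn K x y v L ∧ cost t v L = r} :=
  ⟨0, by rintro r ⟨v, L, -, rfl⟩; exact cost_nonneg hp v L⟩

lemma T_le (hp : ∀ e, 0 ≤ t e) (h : PathIn K x y v L) : T t K x y ≤ cost t v L :=
  csInf_le (T_bddBelow hp) ⟨v, L, h, rfl⟩

lemma T_nonneg (hp : ∀ e, 0 ≤ t e) : 0 ≤ T t K x y :=
  Real.sInf_nonneg (by rintro r ⟨v, L, -, rfl⟩; exact cost_nonneg hp v L)

lemma le_T {r : ℝ} (hr : Reach K x y) (h : ∀ v L, PathIn K x y v L → r ≤ cost t v L) :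
    r ≤ T t K x y := by
  obtain ⟨v, L, hv⟩ := hr
  refine le_csInf ⟨_, v, L, hv, rfl⟩ ?_
  rintro s ⟨v, L, hv, rfl⟩
  exact h v L hv

lemma finite_costs (t : Conf) : ∀ (L : ℕ) (x : V),
    {r | ∃ v : ℕ → V, IsPath v L ∧ v 0 = x ∧ cost t v L = r}.Finite
  | 0, x => (Set.finite_singleton 0).subset (by rintro r ⟨v, -, -, rfl⟩; simp [cost])
  | L + 1, x => by
    refine (((Set.finite_Icc (x.1 - 1) (x.1 + 1)).prod (Set.finite_Icc (x.2 - 1) (x.2 + 1))).biUnion
      fun a _ => (finite_costs t L a).image (fun r => t s(x, a) + r)).subset ?_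
    rintro r ⟨v, hv, hx, rfl⟩
    have h1 := hv 0 (Nat.succ_pos L)
    rw [hx] at h1
    simp only [Set.mem_iUnion, Set.mem_image, Set.mem_prod, Set.mem_Icc]
    refine ⟨v 1, ?_, cost t (seg v 1) L, ⟨seg v 1, ?_, rfl, rfl⟩, ?_⟩
    · have hA := abs_le.1 (le_of_le_of_eq (le_add_of_nonneg_right (abs_nonneg _)) h1)
      have hB := abs_le.1 (le_of_le_of_eq (le_add_of_nonneg_left (abs_nonneg _)) h1)
      constructor <;> constructor <;> linarith
    · intro k hk
      simpa [seg, add_assoc] using hv (1 + k) (by omega)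
    · have := cost_seg_add t v (show 1 ≤ L + 1 by omega)
      rw [this, Nat.add_sub_cancel]
      simp [cost, hx]

/-- A cheapest path exists, and it is simple. -/
lemma exists_geoIn (hok : OK t) (hr : Reach K x y) : ∃ v L, GeoIn t K x y v L := by
  obtain ⟨v, L, h⟩ := hr
  obtain ⟨v₀, L₀, h₀, hi₀, -, -⟩ := h.simplify hok.nonneg
  obtain ⟨N, hN⟩ := hok.tough x (cost t v₀ L₀)
  let S : Set ℝ := {r | ∃ w M, PathIn K x y w M ∧ Set.InjOn w (Set.Iic M) ∧
    r ≤ cost t v₀ L₀ ∧ cost t w M = r}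
  have hS : S.Finite := by
    refine ((Set.finite_Iio N).biUnion fun M _ => finite_costs t M x).subset ?_
    rintro r ⟨w, M, hw, hwi, hle, rfl⟩
    refine Set.mem_biUnion (x := M) ?_ ⟨w, hw.path, hw.first, rfl⟩
    by_contra hM
    exact (hN w M hw.path hwi hw.first (not_lt.1 hM)).not_ge hle
  obtain ⟨r, ⟨w, M, hw, hwi, hle, rfl⟩, hmin⟩ :=
    hS.exists_minimal ⟨_, v₀, L₀, h₀, hi₀, le_rfl, rfl⟩
  refine ⟨w, M, ⟨hw, hwi, fun u P hu => ?_⟩⟩
  obtain ⟨u', P', hu', hui, huc, -⟩ := hu.simplify hok.nonneg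
  rcases le_total (cost t w M) (cost t u' P') with hc | hc
  · exact hc.trans huc
  · exact (hmin ⟨u', P', hu', hui, hc.trans hle, rfl⟩ hc).trans huc

lemma GeoIn.reach (g : GeoIn t K x y v L) : Reach K x y := ⟨v, L, g.toPathIn⟩

lemma GeoIn.T_eq (g : GeoIn t K x y v L) : T t K x y = cost t v L :=
  IsLeast.csInf_eq ⟨⟨v, L, g.toPathIn, rfl⟩, by rintro r ⟨w, M, hw, rfl⟩; exact g.least w M hw⟩

lemma GeoIn.of_T (h : PathIn K x y v L) (hp : ∀ e, 0 ≤ t e) (hi : Set.InjOn v (Set.Iic L))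
    (hc : cost t v L ≤ T t K x y) : GeoIn t K x y v L :=
  ⟨h, hi, fun w M hw => hc.trans (T_le hp hw)⟩

lemma T_self (hp : ∀ e, 0 ≤ t e) : T t K x x = 0 :=
  le_antisymm ((T_le hp (PathIn.refl K x)).trans (le_of_eq (by simp [cost]))) (T_nonneg hp)

lemma T_comm (t : Conf) (K : Set (Sym2 V)) (x y : V) : T t K x y = T t K y x := by
  unfold T
  congr 1
  ext r
  constructor <;> rintro ⟨v, L, h, rfl⟩ <;> exact ⟨_, _, h.reverse, rev_cost t v L⟩

lemma T_triangle (hp : ∀ e, 0 ≤ t e) (hxy : Reach K x y) (hyz : Reach K y z) :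
    T t K x z ≤ T t K x y + T t K y z := by
  have : T t K x z - T t K y z ≤ T t K x y := le_T hxy fun v L hv => by
    have : T t K x z - cost t v L ≤ T t K y z := le_T hyz fun w M hw => by
      linarith [T_le hp (hv.append hw), hv.append_cost (t := t) hw]
    linarith
  linarith

lemma T_mono (hp : ∀ e, 0 ≤ t e) (hK : K ⊆ K') (hr : Reach K x y) : T t K' x y ≤ T t K x y :=
  le_T hr fun _ _ hv => T_le hp (hv.mono hK)

lemma T_mono_weight {u : Conf} (hp : ∀ e, 0 ≤ t e) (h : ∀ e, t e ≤ u e) (hr : Reach K x y) :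
    T t K x y ≤ T u K x y :=
  le_T hr fun v L hv => (T_le hp hv).trans (cost_mono h v L)

lemma T_congr {u : Conf} (h : ∀ e ∈ K, t e = u e) : T t K x y = T u K x y := by
  unfold T
  congr 1
  ext r
  constructor <;> rintro ⟨v, L, hv, rfl⟩ <;> refine ⟨v, L, hv, Finset.sum_congr rfl fun k hk => ?_⟩
  · exact (h _ (hv.mem k (Finset.mem_range.1 hk))).symm
  · exact h _ (hv.mem k (Finset.mem_range.1 hk))

/-! ## Geodesics -/

lemma GeoIn.congr (g : GeoIn t K x y v L) (h : ∀ k ≤ L, v k = w k) : GeoIn t K x y w L :=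
  ⟨g.toPathIn.congr h, fun a ha b hb e => g.inj ha hb (by rw [h a ha, h b hb]; exact e),
    fun u P hu => (cost_congr (fun k hk => (h k hk).symm)).le.trans (g.least u P hu)⟩

lemma GeoIn.reverse (g : GeoIn t K x y v L) : GeoIn t K y x (Vale.Agent.P158.rev v L) L := by
  refine ⟨g.toPathIn.reverse, fun a ha b hb e => ?_, fun u P hu => ?_⟩
  · simp only [Set.mem_Iic] at ha hb
    have := g.inj (show L - a ≤ L by omega) (show L - b ≤ L by omega) e
    omega
  · rw [rev_cost, ← rev_cost t u P]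
    exact g.least _ P hu.reverse

lemma GeoIn.take (g : GeoIn t K x y v L) {i : ℕ} (hi : i ≤ L) : GeoIn t K x (v i) v i := by
  refine ⟨g.toPathIn.take hi, g.inj.mono (Set.Iic_subset_Iic.2 hi), fun u P hu => ?_⟩
  have := g.least _ _ (hu.append (g.toPathIn.drop hi))
  rw [hu.append_cost (g.toPathIn.drop hi), cost_seg_add t v hi] at this
  linarith

lemma GeoIn.drop (g : GeoIn t K x y v L) {i : ℕ} (hi : i ≤ L) :
    GeoIn t K (v i) y (seg v i) (L - i) := by
  refine ⟨g.toPathIn.drop hi, fun a ha b hb e => ?_, fun u P hu => ?_⟩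
  · simp only [Set.mem_Iic] at ha hb
    have := g.inj (show i + a ≤ L by omega) (show i + b ≤ L by omega) e
    omega
  · have := g.least _ _ ((g.toPathIn.take hi).append hu)
    rw [(g.toPathIn.take hi).append_cost hu, cost_seg_add t v hi] at this
    linarith

lemma GeoIn.between (g : GeoIn t K x y v L) {i j : ℕ} (hij : i ≤ j) (hj : j ≤ L) :
    GeoIn t K (v i) (v j) (seg v i) (j - i) :=
  (g.take hj).drop hij

lemma GeoIn.T_split (g : GeoIn t K x y v L) {i : ℕ} (hi : i ≤ L) :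
    T t K x y = T t K x (v i) + T t K (v i) y := by
  rw [g.T_eq, (g.take hi).T_eq, (g.drop hi).T_eq, cost_seg_add t v hi]

lemma GeoIn.restrict (g : GeoIn t K x y v L) (hK : K' ⊆ K)
    (hm : ∀ k < L, s(v k, v (k + 1)) ∈ K') : GeoIn t K' x y v L :=
  ⟨⟨g.path, hm, g.first, g.last⟩, g.inj, fun u P hu => g.least u P (hu.mono hK)⟩

lemma GeoIn.cost_le (g : GeoIn t K x y v L) (h : PathIn K x y w M) : cost t v L ≤ cost t w M :=
  g.least w M h

lemma GeoIn.unique (hok : OK t) (g : GeoIn t K x y v L) (g' : GeoIn t K x y w M) :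
    L = M ∧ ∀ k ≤ L, v k = w k :=
  hok.uniq v w L M g.path g'.path g.inj g'.inj (g.first.trans g'.first.symm)
    (g.last.trans g'.last.symm) (le_antisymm (g.least _ _ g'.toPathIn) (g'.least _ _ g.toPathIn))

/-- Two geodesics with the same end that share a vertex coincide afterwards. -/
lemma GeoIn.tail_eq {x' : V} (hok : OK t) (g : GeoIn t K x y v L) (g' : GeoIn t K x' y w M)
    {i j : ℕ} (hi : i ≤ L) (hj : j ≤ M) (h : v i = w j) :
    L - i = M - j ∧ ∀ k ≤ L - i, v (i + k) = w (j + k) :=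
  (g.drop hi).unique hok (h ▸ g'.drop hj)

/-- Two geodesics sharing two vertices in this order coincide between them. -/
lemma GeoIn.between_eq {x' y' : V} (hok : OK t) (g : GeoIn t K x y v L)
    (g' : GeoIn t K x' y' w M) {i j a b : ℕ} (hij : i ≤ j) (hj : j ≤ L) (hab : a ≤ b) (hb : b ≤ M)
    (h1 : v i = w a) (h2 : v j = w b) :
    j - i = b - a ∧ ∀ k ≤ j - i, v (i + k) = w (a + k) := by
  have g2 := g'.between hab hb
  rw [← h1, ← h2] at g2
  exact (g.between hij hj).unique hok g2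

/-- Geodesics of the plane. -/
lemma geoIn_univ_iff : GeoIn t Set.univ x y v L ↔
    IsGeo t v L ∧ Set.InjOn v (Set.Iic L) ∧ v 0 = x ∧ v L = y := by
  constructor
  · exact fun g => ⟨⟨g.path, fun w M hw h0 hM => g.least w M
      ⟨hw, fun _ _ => trivial, h0.trans g.first, hM.trans g.last⟩⟩, g.inj, g.first, g.last⟩
  · rintro ⟨hg, hi, h0, hL⟩
    exact ⟨⟨hg.1, fun _ _ => trivial, h0, hL⟩, hi,
      fun w M hw => hg.2 w M hw.path (hw.first.trans h0.symm) (hw.last.trans hL.symm)⟩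

/-- **Exchange at a common vertex.** -/
lemma T_exchange (hp : ∀ e, 0 ≤ t e) {a b c d : V} (h : PathIn K a b v L) (h' : PathIn K c d w M)
    {i j : ℕ} (hi : i ≤ L) (hj : j ≤ M) (e : v i = w j) :
    T t K a d + T t K c b ≤ cost t v L + cost t w M := by
  have h3 := (h.take hi).append (e ▸ h'.drop hj)
  have h4 := (h'.take hj).append (e ▸ h.drop hi)
  have k1 := T_le (t := t) hp h3
  have k2 := T_le (t := t) hp h4
  rw [cat_cost t (by simp [e])] at k1 k2
  rw [cost_seg_add t v hi, cost_seg_add t w hj]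
  linarith

/-! ## Geodesics and edges -/

lemma OnGeo.symm {e : Sym2 V} (h : OnGeo t K x y e) : OnGeo t K y x e := by
  obtain ⟨v, L, g, k, hk, he⟩ := h
  refine ⟨_, _, g.reverse, L - (k + 1), by omega, ?_⟩
  rw [← he]
  simp only [Vale.Agent.P158.rev]
  rw [show L - (L - (k + 1)) = k + 1 by omega, show L - (L - (k + 1) + 1) = k by omega, Sym2.eq_swap]

lemma onGeo_iff (hok : OK t) (g : GeoIn t K x y v L) {e : Sym2 V} :
    OnGeo t K x y e ↔ Uses v L e := by
  refine ⟨?_, fun h => ⟨v, L, g, h⟩⟩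
  rintro ⟨w, M, g', k, hk, he⟩
  obtain ⟨rfl, heq⟩ := g.unique hok g'
  exact ⟨k, hk, by rw [heq k hk.le, heq (k + 1) hk]; exact he⟩

/-- A geodesic avoiding `F` is one inside `K \ F`. -/
lemma GeoIn.avoid (g : GeoIn t K x y v L) {F : Set (Sym2 V)}
    (hF : ∀ e ∈ F, ¬ OnGeo t K x y e) : GeoIn t (K \ F) x y v L :=
  g.restrict Set.sdiff_subset fun k hk => ⟨g.mem k hk, fun he => hF _ he ⟨v, L, g, k, hk, rfl⟩⟩

lemma T_avoid (hok : OK t) (hr : Reach K x y) {F : Set (Sym2 V)}
    (hF : ∀ e ∈ F, ¬ OnGeo t K x y e) : T t (K \ F) x y = T t K x y := by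
  obtain ⟨v, L, g⟩ := exists_geoIn hok hr
  rw [g.T_eq, (g.avoid hF).T_eq]

end Vale.Agent.P158.NB
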