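import Vale.Agent.P158.NB.LineFacts
import Vale.Agent.P158.NB.Path

/-!
# P158: lines seen from a lowered configuration

If `t ≤ s` agree off a finite edge set and geodesics join the lines of `s`, then they also join
them in `t`. No modified path is needed: only the last exit from the edge set.
-/

namespace Vale.Agent.P158.NB

open Vale.Agent.P158 Filter Topology

/-- Every pair of vertices has a geodesic. -/
def GeoEx (t : Conf) : Prop :=
  ∀ x y : V, ∃ (v : ℕ → V) (L : ℕ), IsGeo t v L ∧ v 0 = x ∧ v L = y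

lemma Tf_le {t : Conf} (hpos : ∀ e, 0 < t e) {x y : V} {v : ℕ → V} {L : ℕ} (hv : IsPath v L)
    (h0 : v 0 = x) (hL : v L = y) : Tf t x y ≤ cost t v L :=
  csInf_le ⟨0, by rintro _ ⟨w, M, _, rfl⟩; exact cost_nonneg (fun e => (hpos e).le) w M⟩
    ⟨v, L, ⟨hv, fun _ _ => trivial, h0, hL⟩, rfl⟩

lemma Tf_geo {t : Conf} (hpos : ∀ e, 0 < t e) {v : ℕ → V} {L : ℕ} (h : IsGeo t v L) :
    Tf t (v 0) (v L) = cost t v L :=
  le_antisymm (Tf_le hpos h.1 rfl rfl) <|
    le_csInf ⟨_, v, L, ⟨h.1, fun _ _ => trivial, rfl, rfl⟩, rfl⟩ <| by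
      rintro _ ⟨w, M, hw, rfl⟩
      exact h.2 w M hw.path hw.first hw.last

lemma Tf_tri {t : Conf} (hpos : ∀ e, 0 < t e) (hex : GeoEx t) (x y z : V) :
    Tf t x z ≤ Tf t x y + Tf t y z := by
  obtain ⟨v, L, hv, hv0, hvL⟩ := hex x y
  obtain ⟨w, M, hw, hw0, hwM⟩ := hex y z
  have h := hw0.trans hvL.symm
  have := Tf_le hpos (cat_path hv.1 hw.1 h) (by rw [cat_left _ _ _ _ (Nat.zero_le _), hv0])
    (by rw [cat_right _ _ _ _ h, hwM])
  rw [cat_cost t h, ← Tf_geo hpos hv, ← Tf_geo hpos hw, hv0, hvL, hw0, hwM] at this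
  exact this

lemma line_Tf {t : Conf} (hpos : ∀ e, 0 < t e) {γ : ℤ → V} (h : IsLine t γ) {a b : ℤ} (hab : a ≤ b) :
    Tf t (γ a) (γ b) = cost t (fun k : ℕ => γ (a + k)) (b - a).toNat := by
  have := Tf_geo hpos (h.geo a (b - a).toNat)
  rwa [show γ (a + (((b - a).toNat : ℕ) : ℤ)) = γ b from congrArg γ (by omega),
    show γ (a + ((0 : ℕ) : ℤ)) = γ a from congrArg γ (by omega)] at this

lemma line_Tf_add {t : Conf} (hpos : ∀ e, 0 < t e) {γ : ℤ → V} (h : IsLine t γ) {a b c : ℤ}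
    (hab : a ≤ b) (hbc : b ≤ c) :
    Tf t (γ a) (γ c) = Tf t (γ a) (γ b) + Tf t (γ b) (γ c) := by
  rw [line_Tf hpos h (hab.trans hbc), line_Tf hpos h hab, line_Tf hpos h hbc]
  unfold cost
  rw [show (c - a).toNat = (b - a).toNat + (c - b).toNat by omega, Finset.sum_range_add]
  congr 1
  refine Finset.sum_congr rfl fun k _ => ?_
  beta_reduce
  rw [show a + (((b - a).toNat + k : ℕ) : ℤ) = b + (k : ℤ) by omega,
    show a + (((b - a).toNat + k + 1 : ℕ) : ℤ) = b + ((k + 1 : ℕ) : ℤ) by omega]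

/-- A joining index may be increased. -/
lemma joins_mono {t : Conf} (hpos : ∀ e, 0 < t e) {γ : ℤ → V} (h : IsLine t γ)
    {x : V} {k K : ℤ}
    (hk : ∀ n, k ≤ n → Tf t x (γ n) = Tf t x (γ k) + Tf t (γ k) (γ n)) (hkK : k ≤ K) {n : ℤ}
    (hn : K ≤ n) : Tf t x (γ n) = Tf t x (γ K) + Tf t (γ K) (γ n) := by
  rw [hk n (hkK.trans hn), hk K hkK, line_Tf_add hpos h hkK hn, add_assoc]

/-- A vertex of the last edge in `F` on a path: beyond it the cost is the same in `t` and `s`. -/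
lemma last_exit {t s : Conf} (F : Finset (Sym2 V)) (heq : ∀ e, e ∉ F → t e = s e)
    (W : Finset V) (hW : ∀ e ∈ F, ∀ v ∈ e, v ∈ W) (v : ℕ → V) (L : ℕ) :
    ∃ j, j ≤ L ∧ (v j = v 0 ∨ v j ∈ W) ∧
      cost t (fun k => v (j + k)) (L - j) = cost s (fun k => v (j + k)) (L - j) := by
  induction L with
  | zero => exact ⟨0, le_rfl, Or.inl rfl, by simp [cost]⟩
  | succ L ih =>
    by_cases hF : s(v L, v (L + 1)) ∈ F
    · exact ⟨L + 1, le_rfl, Or.inr (hW _ hF _ (Sym2.mem_mk_right _ _)), by simp [cost]⟩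
    · obtain ⟨j, hj, hjv, hc⟩ := ih
      refine ⟨j, by omega, hjv, ?_⟩
      unfold cost at *
      rw [show L + 1 - j = L - j + 1 by omega, Finset.sum_range_succ, Finset.sum_range_succ, hc]
      simp only [show j + (L - j) = L by omega, show j + (L - j + 1) = L + 1 by omega, heq _ hF]

/-- The far tail of an `s`-line costs the same in `t`, and is a `t`-geodesic;
geodesics of `t` join it. -/
theorem joins_lowered {t s : Conf} (htp : ∀ e, 0 < t e) (hsp : ∀ e, 0 < s e) (htx : GeoEx t)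
    (hsx : GeoEx s) (F : Finset (Sym2 V)) (hle : ∀ e, t e ≤ s e)
    (heq : ∀ e, e ∉ F → t e = s e) {γ : ℤ → V} (hγ : IsLine s γ)
    (hC : ∀ y, Joins s γ y) (x : V) :
    ∃ K : ℤ, (∀ n, K ≤ n → Tf t x (γ n) = Tf t x (γ K) + Tf s (γ K) (γ n)) ∧
      ∀ n, K ≤ n → s(γ n, γ (n + 1)) ∉ F := by
  classical
  let W : Finset V := insert x (F.biUnion fun e => e.toFinset)
  choose k hk using hC
  obtain ⟨k₀, hk₀⟩ := line_eventually_out hγ.inj W
  obtain ⟨K, hK⟩ : ∃ K : ℤ, k₀ ≤ K ∧ ∀ y ∈ W, k y ≤ K := by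
    refine ⟨((W.image k) ∪ {k₀}).max' ⟨k₀, by simp⟩, ?_, fun y hy => ?_⟩
    · exact Finset.le_max' _ _ (by simp)
    · exact Finset.le_max' _ _ (Finset.mem_union_left _ (Finset.mem_image_of_mem k hy))
  have hout : ∀ n, K ≤ n → s(γ n, γ (n + 1)) ∉ F := fun n hn hF =>
    hk₀ n (hK.1.trans hn) (Finset.mem_insert_of_mem (Finset.mem_biUnion.2
      ⟨_, hF, by simp⟩))
  refine ⟨K, fun n hn => le_antisymm ?_ ?_, hout⟩
  · have hseg : cost t (fun i : ℕ => γ (K + i)) (n - K).toNat = Tf s (γ K) (γ n) := by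
      rw [line_Tf hsp hγ hn]
      refine Finset.sum_congr rfl fun i _ => heq _ ?_
      have := hout (K + i) (by omega)
      simpa [add_assoc] using this
    calc Tf t x (γ n) ≤ Tf t x (γ K) + Tf t (γ K) (γ n) := Tf_tri htp htx _ _ _
      _ ≤ Tf t x (γ K) + Tf s (γ K) (γ n) := by
        refine add_le_add le_rfl ?_
        rw [← hseg]
        exact Tf_le htp (fun i _ => by simpa [add_assoc] using hγ.adj (K + i))
          (by simp) (congrArg γ (by omega))
  · obtain ⟨v, L, hv, hv0, hvL⟩ := htx x (γ n)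
    obtain ⟨j, hj, hjv, hc⟩ := last_exit F heq W
      (fun e he w hw => Finset.mem_insert_of_mem (Finset.mem_biUnion.2 ⟨e, he, by simpa using hw⟩))
      v L
    have hjW : v j ∈ W := hjv.elim (fun h => by rw [h, hv0]; exact Finset.mem_insert_self _ _) id
    have hpre := hv.sub (Nat.zero_le j) hj
    have hsuf := hv.sub hj le_rfl
    have hp : Tf t x (v j) ≤ cost t (fun k => v (0 + k)) (j - 0) :=
      Tf_le htp hpre.1 (by simpa using hv0) (by simp)
    have hq : Tf s (v j) (γ n) ≤ cost t (fun k => v (j + k)) (L - j) := by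
      rw [hc]
      exact Tf_le hsp hsuf.1 (by simp) (by simp only [show j + (L - j) = L by omega, hvL])
    have hsplit : cost t v L =
        cost t (fun k => v (0 + k)) (j - 0) + cost t (fun k => v (j + k)) (L - j) := by
      unfold cost
      conv_lhs => rw [show L = j + (L - j) by omega, Finset.sum_range_add]
      simp [add_assoc]
    have hT : Tf t x (γ n) = cost t v L := by rw [← Tf_geo htp hv, hv0, hvL]
    have hjoin := joins_mono hsp hγ (hk (v j)) (hK.2 _ hjW) hn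
    have hts : Tf t (v j) (γ K) ≤ Tf s (v j) (γ K) := by
      obtain ⟨w, M, hw, hw0, hwM⟩ := hsx (v j) (γ K)
      calc Tf t (v j) (γ K) ≤ cost t w M := Tf_le htp hw.1 hw0 hwM
        _ ≤ cost s w M := Finset.sum_le_sum fun i _ => hle _
        _ = Tf s (v j) (γ K) := by rw [← Tf_geo hsp hw, hw0, hwM]
    have := Tf_tri htp htx x (v j) (γ K)
    linarith

end Vale.Agent.P158.NB
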