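import Vale.Agent.P158.NB.Defs

/-!
# P158: elementary facts on lines

Injectivity of geodesics, tails leaving finite sets, lines with the same edges and with shared tails.
-/

namespace Vale.Agent.P158.NB

open Vale.Agent.P158 Filter Topology

/-- With positive weights a geodesic repeats no vertex. -/
lemma isGeo_injOn {t : Conf} (hpos : ∀ e, 0 < t e) {v : ℕ → V} {L : ℕ} (h : IsGeo t v L) :
    Set.InjOn v (Set.Iic L) := by
  intro i hi j hj hij
  by_contra hne
  wlog hlt : i < j generalizing i j with H
  · exact H hj hi hij.symm (Ne.symm hne) (by omega)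
  have hs := h.sub hlt.le (Set.mem_Iic.1 hj)
  have h0 : cost t (fun k => v (i + k)) (j - i) ≤ cost t (fun _ => v i) 0 :=
    hs.2 _ 0 (fun k hk => absurd hk (Nat.not_lt_zero k)) (by simp) (by
      simp only [Nat.add_sub_cancel' hlt.le, hij])
  have h1 : 0 < cost t (fun k => v (i + k)) (j - i) :=
    Finset.sum_pos (fun k _ => hpos _) (Finset.nonempty_range_iff.2 (by omega))
  simp only [cost, Finset.range_zero, Finset.sum_empty] at h0 h1
  linarith

/-- A line eventually stays outside a finite set. -/
lemma line_eventually_out {γ : ℤ → V} (hγ : Function.Injective γ) (S : Finset V) :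
    ∃ k₀ : ℤ, ∀ k, k₀ ≤ k → γ k ∉ S := by
  have hfin : (γ ⁻¹' (S : Set V)).Finite := S.finite_toSet.preimage hγ.injOn
  obtain ⟨B, hB⟩ := hfin.bddAbove
  exact ⟨B + 1, fun k hk hm => by
    have := hB (show k ∈ γ ⁻¹' (S : Set V) from hm)
    omega⟩

lemma isLine_rev {t : Conf} {γ : ℤ → V} (h : IsLine t γ) : IsLine t (rev γ) := by
  refine ⟨fun a b hab => neg_injective (h.inj hab), fun i => ?_, fun i L => ?_⟩
  · have := h.adj (-(i + 1))
    simp only [rev] at *
    rw [show -(i + 1) + 1 = -i by ring] at this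
    exact adj_comm this
  · have hg := h.geo (-i - L) L
    have key : ∀ k, k ≤ L → (fun k : ℕ => γ (-i - L + k)) (L - k) = (fun k : ℕ => rev γ (i + k)) k := by
      intro k hk
      simp only [rev]
      congr 1
      omega
    constructor
    · intro k hk
      simp only [rev]
      have := h.adj (-(i + k + 1))
      rw [show -(i + k + 1) + 1 = -(i + k) by ring] at this
      rw [show -(i + ((k + 1 : ℕ) : ℤ)) = -(i + k + 1) by push_cast; ring]
      exact adj_comm this
    · intro w M hw hw0 hwM
      have hrev : IsPath (fun k => w (M - k)) M := fun k hk => by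
        have := hw (M - k - 1) (by omega)
        rw [show M - k - 1 + 1 = M - k by omega, show M - k - 1 = M - (k + 1) by omega] at this
        exact adj_comm this
      have hc := hg.2 (fun k => w (M - k)) M hrev
        (by simp only [Nat.sub_zero, hwM]; simpa using (key L le_rfl).symm)
        (by simp only [Nat.sub_self, hw0]; simpa using (key 0 (Nat.zero_le _)).symm)
      have e1 : cost t (fun k : ℕ => rev γ (i + k)) L = cost t (fun k : ℕ => γ (-i - L + k)) L := by
        unfold cost
        rw [← Finset.sum_range_reflect (fun k : ℕ => t s(γ (-i - L + k), γ (-i - L + (k + 1 : ℕ)))) L]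
        refine Finset.sum_congr rfl fun k hk => ?_
        have hk' := Finset.mem_range.1 hk
        rw [Sym2.eq_swap]
        simp only [rev]
        congr 3 <;> omega
      have e2 : cost t (fun k => w (M - k)) M = cost t w M := by
        unfold cost
        rw [← Finset.sum_range_reflect (fun k : ℕ => t s(w k, w (k + 1))) M]
        refine Finset.sum_congr rfl fun k hk => ?_
        have hk' := Finset.mem_range.1 hk
        rw [show M - 1 - k + 1 = M - k by omega, show M - 1 - k = M - (k + 1) by omega]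
        rw [Sym2.eq_swap]
      linarith

lemma lineUses_rev {γ : ℤ → V} {e : Sym2 V} : LineUses (rev γ) e ↔ LineUses γ e := by
  constructor
  · rintro ⟨i, hi⟩
    refine ⟨-(i + 1), ?_⟩
    rw [← hi, Sym2.eq_swap]
    simp only [rev]
    rw [show -(i + 1) + 1 = -i by ring]
  · rintro ⟨i, hi⟩
    refine ⟨-(i + 1), ?_⟩
    rw [← hi, Sym2.eq_swap]
    simp only [rev]
    rw [show - -(i + 1) = i + 1 by ring, show -(-(i + 1) + 1) = i by ring]

lemma SameLine.refl (γ : ℤ → V) : SameLine γ γ := fun _ => Iff.rfl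

lemma SameLine.symm {γ δ : ℤ → V} (h : SameLine γ δ) : SameLine δ γ := fun e => (h e).symm

lemma SameLine.trans {γ δ ρ : ℤ → V} (h : SameLine γ δ) (h' : SameLine δ ρ) : SameLine γ ρ :=
  fun e => (h e).trans (h' e)

lemma ShareTail.symm {γ δ : ℤ → V} (h : ShareTail γ δ) : ShareTail δ γ := by
  obtain ⟨i, j, h⟩ := h
  exact ⟨j, i, fun k => (h k).symm⟩

lemma ShareTail.trans {γ δ ρ : ℤ → V} (h : ShareTail γ δ) (h' : ShareTail δ ρ) : ShareTail γ ρ := by
  obtain ⟨i, j, h⟩ := h
  obtain ⟨j', l, h'⟩ := h'
  rcases le_total j j' with hle | hle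
  · refine ⟨i + (j' - j), l, fun k => ?_⟩
    rw [show i + (j' - j) + (k : ℤ) = i + (((j' - j).toNat + k : ℕ) : ℤ) by omega, h,
      show j + (((j' - j).toNat + k : ℕ) : ℤ) = j' + k by omega, h']
  · refine ⟨i, l + (j - j'), fun k => ?_⟩
    rw [h k, show j + (k : ℤ) = j' + (((j - j').toNat + k : ℕ) : ℤ) by omega, h']
    congr 1
    omega

/-- Lines with the same edges differ by a shift and possibly a reversal. -/
lemma sameLine_param {γ δ : ℤ → V} (hγ : Function.Injective γ) (hδ : Function.Injective δ)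
    (h : SameLine γ δ) : ∃ c : ℤ, (∀ i, δ i = γ (i + c)) ∨ ∀ i, δ i = γ (-i + c) := by
  have key : ∀ i : ℤ, ∃ k : ℤ, (δ i = γ k ∧ δ (i + 1) = γ (k + 1)) ∨
      (δ i = γ k ∧ δ (i + 1) = γ (k - 1)) := by
    intro i
    obtain ⟨k, hk⟩ := (h _).2 ⟨i, rfl⟩
    rcases Sym2.eq_iff.1 hk with ⟨a, b⟩ | ⟨a, b⟩
    · exact ⟨k, Or.inl ⟨a.symm, b.symm⟩⟩
    · exact ⟨k + 1, Or.inr ⟨b.symm, by rw [show k + 1 - 1 = k by ring]; exact a.symm⟩⟩
  choose k hk using key
  have hd : ∀ i, δ i = γ (k i) := fun i => (hk i).elim And.left And.left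
  have hstep : ∀ i, k (i + 1) = k i + 1 ∨ k (i + 1) = k i - 1 := fun i => by
    rcases hk i with ⟨_, b⟩ | ⟨_, b⟩
    · exact Or.inl (hγ ((hd _).symm.trans b))
    · exact Or.inr (hγ ((hd _).symm.trans b))
  have hne : ∀ i, k (i + 2) ≠ k i := fun i he => by
    have := hδ ((hd (i + 2)).trans ((congrArg γ he).trans (hd i).symm))
    omega
  have hdiff : ∀ i, k (i + 1 + 1) - k (i + 1) = k (i + 1) - k i := fun i => by
    have h1 := hstep i
    have h2 := hstep (i + 1)
    have h3 := hne i
    rw [show i + 2 = i + 1 + 1 by ring] at h3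
    omega
  have hall : ∀ i, k (i + 1) - k i = k 1 - k 0 := fun i => by
    induction i using Int.induction_on with
    | zero => simp
    | succ m ih => rw [hdiff]; exact ih
    | pred m ih =>
      have := hdiff (-(m : ℤ) - 1)
      rw [show -(m : ℤ) - 1 + 1 = -(m : ℤ) by ring] at this
      rw [show -(m : ℤ) - 1 + 1 = -(m : ℤ) by ring]
      omega
  have hlin : ∀ i, k i = k 0 + i * (k 1 - k 0) := fun i => by
    induction i using Int.induction_on with
    | zero => simp
    | succ m ih => have := hall m; linarith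
    | pred m ih =>
      have := hall (-(m : ℤ) - 1)
      rw [show -(m : ℤ) - 1 + 1 = -(m : ℤ) by ring] at this
      linarith
  refine ⟨k 0, ?_⟩
  rcases hstep 0 with h1 | h1 <;> rw [zero_add] at h1
  · exact Or.inl fun i => by rw [hd, hlin, h1]; ring_nf
  · exact Or.inr fun i => by rw [hd, hlin, h1]; ring_nf

/-- The two tails of a line are distinct. -/
lemma not_shareTail_rev {γ : ℤ → V} (hγ : Function.Injective γ) : ¬ ShareTail γ (rev γ) := by
  rintro ⟨i, j, h⟩
  have h1 := hγ (h 0)
  have h2 := hγ (h 1)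
  push_cast at h1 h2
  omega

end Vale.Agent.P158.NB
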