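import Vale.Agent.P158.NB.Lines.Pairs
import Vale.Agent.P158.NB.Lines.Meas

/-!
# P158 (iv): boundedly many lines through a strong edge

Summing the window bound over the translates of one edge inside a random domain: the masses add up
to `O(n ^ 2)` and merges near an edge are rare, so the expected number of windows at a strong edge
is bounded independently of their radius.
-/

namespace Vale.Agent.P158.NB

open Vale.Agent.P158 MeasureTheory Filter Topology
open scoped ENNReal

namespace Lines

/-- The cycle with marks extended periodically. -/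
def periodic (C : Cyc) : Cyc where
  c k := C.c (k % C.m)
  m := C.m
  three := C.three
  path k hk := by
    show Adj (C.c (k % C.m)) (C.c ((k + 1) % C.m))
    rw [Nat.mod_eq_of_lt hk]
    rcases Nat.lt_or_ge (k + 1) C.m with h | h
    · rw [Nat.mod_eq_of_lt h]; exact C.path k hk
    · rw [show k + 1 = C.m by omega, Nat.mod_self, ← C.closed]
      have := C.path k hk
      rwa [show k + 1 = C.m by omega] at this
  closed := by simp
  inj := C.inj.congr fun k hk => by simp [Nat.mod_eq_of_lt (Set.mem_Iio.1 hk)]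

lemma periodic_agree (C : Cyc) {k : ℕ} (hk : k ≤ C.m) : (periodic C).c k = C.c k := by
  rcases hk.lt_or_eq with h | h
  · exact congrArg C.c (Nat.mod_eq_of_lt h)
  · simp [periodic, h, C.closed]

lemma periodic_edges (C : Cyc) : (periodic C).edges = C.edges := by
  have hcol : ∀ f, col (periodic C).c C.m f = col C.c C.m f := fun f =>
    Finset.sum_congr rfl fun k hk => by
      rw [Finset.mem_range] at hk
      rw [periodic_agree C hk.le, periodic_agree C hk]
  ext e
  simp only [Cyc.edges, Cyc.inner, Set.mem_ofPred_eq]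
  exact exists_congr fun f => and_congr_right fun _ => by rw [← hcol f]; rfl

lemma periodic_mass (C : Cyc) (t : Conf) (F : Set (Sym2 V)) :
    (periodic C).mass t F = C.mass t F := by
  classical
  have hd : ∀ F i j, (periodic C).d t F i j = C.d t F i j := fun F i j => by
    rw [Cyc.d, Cyc.d, periodic_edges]
    simp [periodic]
  have hmeets : ∀ i j, (periodic C).Meets t F i j ↔ C.Meets t F i j := fun i j => by
    rw [Cyc.Meets, Cyc.Meets, periodic_edges]
    simp [periodic]
  simp only [Cyc.mass, Cyc.cellD, Cyc.CellMeets, hd, hmeets]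
  exact Finset.sum_congr (Finset.ext fun p => by simp [Cyc.cells, periodic]) fun _ _ => rfl

/-- The edge masses add up to the perimeter cost times the longest geodesic. -/
lemma sum_mass_le {t : Conf} {C : Cyc} {n : ℕ} {θ : ℝ} (hM : MongeStmt) (hok : OK t) (hθ : 0 < θ)
    (hlong : t ∈ LongGood θ n) (hsub : ∀ k, k < C.m → C.c k ∈ box 0 (2 * n))
    (S : Finset (Sym2 V)) : ∑ e ∈ S, C.mass t {e} ≤
      4 * ((n : ℝ) + 1 + 2 * cost t C.c C.m / θ) * (2 * cost t C.c C.m) := by
  set P := cost t C.c C.m with hP
  have hP0 : 0 ≤ P := cost_nonneg hok.pos _ _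
  set N := n + ⌈2 * P / θ⌉₊ with hN
  have hcost : cost t (periodic C).c (periodic C).m = P :=
    cost_congr' t fun k hk => periodic_agree C hk
  have key := (hM (periodic C) t hok).2.2.2 S N fun i j v L hv => by
    have hm : 0 < C.m := by have := C.three; omega
    rcases Nat.lt_or_ge L n with h | h
    · omega
    obtain ⟨q, M, hq, hqc⟩ := exists_mark_path C t hok.pos (Nat.mod_lt i hm).le (Nat.mod_lt j hm).le
      (F := ∅) fun _ _ => Set.notMem_empty _
    rw [periodic_edges] at hv
    have hle : cost t v L ≤ P :=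
      (hv.least q M ⟨hq.path, fun k hk => (hq.mem k hk).1, hq.first, hq.last⟩).trans hqc
    have hstart : v 0 ∈ box 0 (4 * n) := by
      rw [hv.first]
      have := hsub _ (Nat.mod_lt i hm)
      simp only [periodic, box, Prod.fst_zero, Prod.snd_zero, sub_zero,
        Set.mem_ofPred_eq] at this ⊢
      constructor <;> (push_cast at this ⊢; linarith [this.1, this.2])
    have hs := hlong v L hv.path hv.inj hstart h
    set K := (Finset.range L).filter fun k => θ ≤ t s(v k, v (k + 1)) with hK
    have hstrong : (K.card : ℝ) * θ ≤ cost t v L := by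
      rw [← nsmul_eq_mul]
      refine (Finset.card_nsmul_le_sum K _ _ fun k hk => (Finset.mem_filter.1 hk).2).trans ?_
      exact Finset.sum_le_sum_of_subset_of_nonneg (Finset.filter_subset _ _)
        fun k _ _ => (hok.pos _).le
    have hLr : (L : ℝ) ≤ 2 * P / θ := by
      rw [le_div_iff₀ hθ]
      have : (L : ℝ) ≤ 2 * (K.card : ℝ) := by exact_mod_cast hs
      nlinarith
    have := Nat.le_ceil (2 * P / θ)
    have hL2 : L ≤ ⌈2 * P / θ⌉₊ := by exact_mod_cast hLr.trans this
    omega
  simp only [periodic_mass] at key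
  refine key.trans ?_
  rw [hcost]
  have hceil : (⌈2 * P / θ⌉₊ : ℝ) ≤ 2 * P / θ + 1 := (Nat.ceil_lt_add_one (by positivity)).le
  have : (N : ℝ) ≤ n + 1 + 2 * P / θ := by
    rw [hN]; push_cast; linarith
  nlinarith

variable (G : Measure ℝ) [IsProbabilityMeasure G]

/-- A random domain's perimeter cost and length. -/
noncomputable def perim (R : Ring G) (n : ℕ) (t : Conf) : ℝ :=
  cost t (R.cyc n t).c (R.cyc n t).m + (R.cyc n t).m

lemma measurable_perim (R : Ring G) (n : ℕ) : Measurable (perim G R n) := by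
  classical
  have heq : perim G R n = fun t => ∑ C ∈ (R.fin n).toFinset,
      {t | R.cyc n t = C}.indicator (fun t => cost t C.c C.m + C.m) t := by
    funext t
    rw [Finset.sum_eq_single (R.cyc n t)]
    · simp [perim]
    · intro C _ hC
      exact Set.indicator_of_notMem (fun h => hC h.symm) _
    · intro h
      exact absurd ((R.fin n).mem_toFinset.2 ⟨t, rfl⟩) h
  rw [heq]
  exact Finset.measurable_sum _ fun C _ =>
    ((measurable_cost C.c C.m).add_const _).indicator (R.meas_cyc n C)

/-- Truncated windows of a resampled weak edge. -/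
noncomputable def resampled (θ θ' : ℝ) (H A : ℕ) (e : Sym2 V) (p : Conf × ℝ) : ℝ≥0∞ :=
  (Set.Iio θ').indicator 1 (p.1 e) *
    ({t : Conf | θ ≤ t e}.indicator (fun t => min (A : ℝ≥0∞) (NH H t e)) (Function.update p.1 e p.2))

lemma measurable_capped (θ : ℝ) (H A : ℕ) (e : Sym2 V) :
    Measurable ({t : Conf | θ ≤ t e}.indicator (fun t => min (A : ℝ≥0∞) (NH H t e))) :=
  (measurable_const.min (measurable_NH H e)).indicator
    (measurableSet_le measurable_const (measurable_pi_apply e))

lemma measurable_resampled (θ θ' : ℝ) (H A : ℕ) (e : Sym2 V) :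
    Measurable (resampled θ θ' H A e) :=
  Measurable.mul ((measurable_one.indicator measurableSet_Iio).comp
    ((measurable_pi_apply e).comp measurable_fst))
    ((measurable_capped θ H A e).comp measurable_update')

lemma integral_resampled (θ θ' : ℝ) (H A : ℕ) (e : Sym2 V) :
    ∫⁻ t, ∫⁻ u, resampled θ θ' H A e (t, u) ∂G ∂env G =
      G (Set.Iio θ') * ∫⁻ t in {t | θ ≤ t e}, min (A : ℝ≥0∞) (NH H t e) ∂env G := by
  have hm : Measurable fun p : Conf × ℝ => (p.1 e, Function.update p.1 e p.2) :=
    ((measurable_pi_apply e).comp measurable_fst).prodMk measurable_update'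
  have hΨ : Measurable fun q : ℝ × Conf => (Set.Iio θ').indicator (1 : ℝ → ℝ≥0∞) q.1 *
      ({t : Conf | θ ≤ t e}.indicator (fun t => min (A : ℝ≥0∞) (NH H t e)) q.2) :=
    ((measurable_one.indicator measurableSet_Iio).comp measurable_fst).mul
      ((measurable_capped θ H A e).comp measurable_snd)
  rw [← lintegral_prod _ (measurable_resampled θ θ' H A e).aemeasurable]
  have := lintegral_map (μ := (env G).prod G) hΨ hm
  simp only [resampled] at this ⊢
  rw [← this, map_resample G e, lintegral_prod_mul
      (measurable_one.indicator measurableSet_Iio).aemeasurable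
      (measurable_capped θ H A e).aemeasurable,
    lintegral_indicator measurableSet_Iio, lintegral_indicator
      (measurableSet_le measurable_const (measurable_pi_apply e))]
  simp

lemma capped_shift (θ : ℝ) (H A : ℕ) (e : Sym2 V) (z : V) :
    ∫⁻ t in {t | θ ≤ t (Sym2.map (fun v => v + z) e)},
        min (A : ℝ≥0∞) (NH H t (Sym2.map (fun v => v + z) e)) ∂env G =
      ∫⁻ t in {t | θ ≤ t e}, min (A : ℝ≥0∞) (NH H t e) ∂env G := by
  rw [← lintegral_indicator (measurableSet_le measurable_const (measurable_pi_apply _)),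
    ← lintegral_indicator (measurableSet_le measurable_const (measurable_pi_apply _))]
  conv_rhs => rw [← env_shiftW G z, lintegral_map (measurable_capped θ H A e) (measurable_shiftW z)]
  refine lintegral_congr fun t => ?_
  simp only [Set.indicator_apply, Set.mem_ofPred_eq, NH_shiftW, shiftW]

/-- The edges at offset `d` with first end in the centre. -/
noncomputable def centre (n : ℕ) : Finset V :=
  Finset.Icc (-((n / 8 : ℕ) : ℤ)) (n / 8 : ℕ) ×ˢ Finset.Icc (-((n / 8 : ℕ) : ℤ)) (n / 8 : ℕ)

/-- Offsets within `H + 1`. -/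
noncomputable def near (H : ℕ) : Finset V :=
  Finset.Icc (-((H + 1 : ℕ) : ℤ)) (H + 1 : ℕ) ×ˢ Finset.Icc (-((H + 1 : ℕ) : ℤ)) (H + 1 : ℕ)

/-- The merges of all trees in the middle. -/
noncomputable def merges (R : Ring G) (n : ℕ) (t : Conf) : ℝ≥0∞ :=
  ∑ a ∈ Finset.range (R.cyc n t).m,
    ({w | w ∈ box 0 (n / 2) ∧ (R.cyc n t).Merge t a w}.encard : ℝ≥0∞)

/-- One edge: few windows unless a merge is near. -/
lemma pointwise_edge (hM : MongeStmt) {t : Conf} (hok : OK t) {C : Cyc} {n H A : ℕ} {z d : V}
    (hd : Adj z (z + d)) (hD : Deep C n H z) (hsub : ∀ k, k < C.m → C.c k ∈ box 0 (2 * n))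
    {θ θ' : ℝ} (hθ : θ' < θ) :
    ENNReal.ofReal (θ - θ') * ∫⁻ u, resampled θ θ' H A s(z, z + d) (t, u) ∂G ≤
      2 * ENNReal.ofReal (θ - θ') + 2 * ENNReal.ofReal (C.mass t {s(z, z + d)}) +
        ENNReal.ofReal (θ - θ') * A * ∑ w ∈ near H, ∑ a ∈ Finset.range C.m,
          {w | C.Merge t a w}.indicator 1 (z + w) := by
  set e := s(z, z + d) with he
  set c := ENNReal.ofReal (θ - θ') with hc
  have hmu : Measurable fun u : ℝ => resampled θ θ' H A e (t, u) :=
    (measurable_resampled θ θ' H A e).comp measurable_prodMk_left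
  rw [← lintegral_const_mul _ hmu]
  refine (lintegral_mono (g := fun _ => 2 * c + 2 * ENNReal.ofReal (C.mass t {e}) +
    c * A * ∑ w ∈ near H, ∑ a ∈ Finset.range C.m, {w | C.Merge t a w}.indicator 1 (z + w))
    fun u => ?_).trans (by simp)
  simp only [resampled, Set.indicator_apply, Set.mem_Iio, Set.mem_ofPred_eq,
    Function.update_self, Pi.one_apply]
  split_ifs with h1 h2
  rotate_left
  · simp
  · simp
  · simp
  rw [one_mul]
  by_cases hNM : NoMerge C t H z
  · refine le_trans ?_ le_self_add
    have hk := wins_le_mass hM hok hD hd hsub hNM (u := u) (by linarith)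
    set N := ((wins (Function.update t e u) e H).encard : ℝ≥0∞) with hN
    rw [mul_comm c]
    refine le_trans (mul_le_mul_left (min_le_right (A : ℝ≥0∞) N) c) ?_
    rcases le_total N 2 with h | h
    · exact (mul_le_mul_left h c).trans le_self_add
    have hsplit : ENNReal.ofReal (u - t e) = c + ENNReal.ofReal (u - t e - (θ - θ')) := by
      rw [hc, ← ENNReal.ofReal_add (by linarith) (by linarith)]
      congr 1; ring
    rw [hsplit, mul_add, mul_add, mul_add] at hk
    have hcan : N * c + 2 * ENNReal.ofReal (u - t e - (θ - θ')) ≤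
        (2 * c + 2 * ENNReal.ofReal (C.mass t {e})) + 2 * ENNReal.ofReal (u - t e - (θ - θ')) := by
      refine (add_le_add le_rfl (mul_le_mul_left h _)).trans (hk.trans (le_of_eq ?_))
      ring
    exact (ENNReal.add_le_add_iff_right (by simp [ENNReal.mul_eq_top])).1 hcan
  · refine le_trans ?_ le_add_self
    simp only [NoMerge, not_forall, not_not] at hNM
    obtain ⟨a, w, ha, hw1, hw2, hmer⟩ := hNM
    have hmem : w - z ∈ near H := by
      simp only [near, Finset.mem_product, Finset.mem_Icc, Prod.fst_sub, Prod.snd_sub]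
      push_cast
      exact ⟨abs_le.1 hw1, abs_le.1 hw2⟩
    have hone : (1 : ℝ≥0∞) ≤ ∑ w ∈ near H, ∑ a ∈ Finset.range C.m,
        {w | C.Merge t a w}.indicator 1 (z + w) := by
      refine le_trans ?_ (Finset.single_le_sum (fun _ _ => zero_le) hmem)
      refine le_trans ?_ (Finset.single_le_sum (fun _ _ => zero_le) (Finset.mem_range.2 ha))
      simp [hmer]
    calc c * min (A : ℝ≥0∞) (NH H (Function.update t e u) e) ≤ c * A * 1 := by
          rw [mul_one]; exact mul_le_mul' le_rfl (min_le_left _ _)
      _ ≤ _ := mul_le_mul' le_rfl hone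

/-- All translates in the centre, for one configuration. -/
lemma pointwise_sum (hM : MongeStmt) (R : Ring G) {t : Conf} (hok : OK t) {n H A : ℕ} {d : V}
    (hd : Adj 0 d) {θ θ' : ℝ} (hθ : θ' < θ) (hθ0 : 0 < θ) (hgood : t ∈ R.good n)
    (hlong : t ∈ LongGood θ n) (hn : 8 * (H + 5) ≤ n) :
    ∑ z ∈ centre n, ENNReal.ofReal (θ - θ') * ∫⁻ u, resampled θ θ' H A s(z, z + d) (t, u) ∂G ≤
      (centre n).card * (2 * ENNReal.ofReal (θ - θ')) +
        ENNReal.ofReal (16 * (1 + 2 / θ) * (((n : ℝ) + 1) ^ 2 + perim G R n t ^ 2)) +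
        ENNReal.ofReal (θ - θ') * A * (near H).card * merges G R n t := by
  classical
  set C := R.cyc n t with hC
  have hD : ∀ z ∈ centre n, Deep C n H z := by
    intro z hz
    simp only [centre, Finset.mem_product, Finset.mem_Icc] at hz
    refine ⟨R.encl n t hgood, ?_, ?_⟩ <;>
    · have h8 : ((n / 8 : ℕ) : ℤ) + H + 4 ≤ n := by omega
      rcases abs_cases z.1 with h | h <;> rcases abs_cases z.2 with h' | h' <;> linarith [hz.1.1,
        hz.1.2, hz.2.1, hz.2.2]
  have hadj : ∀ z : V, Adj z (z + d) := fun z => by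
    simp only [Adj, Prod.fst_add, Prod.snd_add, Prod.fst_zero, Prod.snd_zero] at *
    simpa using hd
  refine (Finset.sum_le_sum fun z hz =>
    pointwise_edge G hM hok (hadj z) (hD z hz) (R.sub n t hgood) hθ).trans ?_
  rw [Finset.sum_add_distrib, Finset.sum_add_distrib, Finset.sum_const, nsmul_eq_mul,
    ← Finset.mul_sum, ← Finset.mul_sum]
  refine add_le_add (add_le_add le_rfl ?_) ?_
  · -- the masses
    have hinj : Set.InjOn (fun z : V => s(z, z + d)) (centre n : Set V) := by
      intro z _ z' _ h
      rcases Sym2.eq_iff.1 h with ⟨p, -⟩ | ⟨p, q⟩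
      · exact p
      · exfalso
        rw [p, Prod.ext_iff] at q
        simp only [Adj, Prod.fst_zero, Prod.snd_zero, zero_sub, abs_neg] at hd
        simp only [Prod.fst_add, Prod.snd_add] at q
        have h1 : d.1 = 0 := by omega
        have h2 : d.2 = 0 := by omega
        simp [h1, h2] at hd
    have hnn : ∀ z ∈ centre n, 0 ≤ C.mass t {s(z, z + d)} := fun z _ =>
      Finset.sum_nonneg fun p hp =>
        (hM C t hok).1 ∅ (fun _ _ => Set.notMem_empty _) p (Finset.mem_filter.1 hp).1
    rw [← ENNReal.ofReal_sum_of_nonneg hnn, ← ENNReal.ofReal_ofNat 2,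
      ← ENNReal.ofReal_mul zero_le_two]
    refine ENNReal.ofReal_le_ofReal ?_
    have := sum_mass_le hM hok hθ0 hlong (R.sub n t hgood) ((centre n).image fun z => s(z, z + d))
    rw [Finset.sum_image hinj] at this
    set P := cost t C.c C.m with hP
    have hP0 : 0 ≤ P := cost_nonneg hok.pos _ _
    have hPp : P ≤ perim G R n t := le_add_of_nonneg_right (Nat.cast_nonneg _)
    have hsq : P ^ 2 ≤ perim G R n t ^ 2 := by nlinarith
    have hθ2 : 0 ≤ 2 / θ := by positivity
    have e2 : 2 * P / θ = 2 / θ * P := by ring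
    rw [e2] at this
    nlinarith [sq_nonneg ((n : ℝ) + 1 - P), mul_nonneg hθ2 (sq_nonneg ((n : ℝ) + 1)),
      mul_le_mul_of_nonneg_left hsq hθ2, mul_nonneg hθ2 (sq_nonneg P)]
  · -- the merges
    simp only [mul_assoc]
    refine mul_le_mul' le_rfl (mul_le_mul' le_rfl ?_)
    rw [Finset.sum_comm]
    refine (Finset.sum_le_sum fun w hw => ?_).trans (by rw [Finset.sum_const, nsmul_eq_mul])
    rw [Finset.sum_comm, merges]
    refine Finset.sum_le_sum fun a _ => ?_
    set Mset := {w | w ∈ box 0 (n / 2) ∧ C.Merge t a w}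
    have himg : (((centre n).filter fun z => C.Merge t a (z + w)).image (fun z => z + w) : Set V) ⊆
        Mset := by
      intro x hx
      simp only [Finset.coe_image, Finset.coe_filter, Set.mem_image, Set.mem_ofPred_eq] at hx
      obtain ⟨z, ⟨hz, hm⟩, rfl⟩ := hx
      refine ⟨?_, hm⟩
      simp only [centre, Finset.mem_product, Finset.mem_Icc] at hz
      simp only [near, Finset.mem_product, Finset.mem_Icc] at hw
      simp only [box, Prod.fst_add, Prod.snd_add, Prod.fst_zero, Prod.snd_zero, sub_zero,
        Set.mem_ofPred_eq, abs_le]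
      have h8 : ((n / 8 : ℕ) : ℤ) + ((H + 1 : ℕ) : ℤ) ≤ ((n / 2 : ℕ) : ℤ) := by omega
      constructor <;> constructor <;> linarith [hz.1.1, hz.1.2, hz.2.1, hz.2.2, hw.1.1, hw.1.2,
        hw.2.1, hw.2.2]
    have henc := Set.encard_le_encard himg
    rw [Set.encard_coe_eq_coe_finsetCard,
      Finset.card_image_of_injective _ (add_left_injective w)] at henc
    calc ∑ z ∈ centre n, {w | C.Merge t a w}.indicator (1 : V → ℝ≥0∞) (z + w)
        = (((centre n).filter fun z => C.Merge t a (z + w)).card : ℝ≥0∞) := by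
          rw [Finset.card_filter, Nat.cast_sum]
          refine Finset.sum_congr rfl fun z _ => ?_
          simp [Set.indicator_apply]
      _ ≤ _ := by exact_mod_cast henc

/-- The bound, independent of the edge, the radius and the truncation. -/
noncomputable def bound (P : Params G) (R : Ring G) : ℝ≥0∞ :=
  (2 * ENNReal.ofReal (P.θ - P.θ') +
    ENNReal.ofReal (16 * (1 + 2 / P.θ) * (256 + 64 * max R.A 0))) /
    (ENNReal.ofReal (P.θ - P.θ') * G (Set.Iio P.θ'))

lemma bound_lt_top (P : Params G) (R : Ring G) : bound G P R < ⊤ := by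
  refine (ENNReal.div_lt_top ?_ ?_)
  · simp [ENNReal.mul_eq_top]
  · exact mul_ne_zero (by simp [P.lt]) P.mass.ne'

/-- The main estimate. -/
theorem capped_le (hM : MongeStmt) (hMerge : MergeStmt G) (P : Params G) (R : Ring G)
    (hok : ∀ᵐ t ∂env G, OK t) {d : V} (hd : Adj 0 d) (H A : ℕ) :
    ∫⁻ t in {t | P.θ ≤ t s(0, d)}, min (A : ℝ≥0∞) (NH H t s(0, d)) ∂env G ≤ bound G P R := by
  set I := ∫⁻ t in {t | P.θ ≤ t s(0, d)}, min (A : ℝ≥0∞) (NH H t s(0, d)) ∂env G with hI
  set c := ENNReal.ofReal (P.θ - P.θ') with hc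
  set g := G (Set.Iio P.θ') with hg
  have hc0 : c ≠ 0 := by simp [hc, P.lt]
  have hcA : c * A ≠ ⊤ := ENNReal.mul_ne_top ENNReal.ofReal_ne_top (ENNReal.natCast_ne_top A)
  set K := 16 * (1 + 2 / P.θ) with hK
  have hK0 : 0 ≤ K := by have := P.pos.trans P.lt; positivity
  set Bd : ℕ → Set Conf := fun n => (R.good n)ᶜ ∪ toMeasurable (env G) (LongGood P.θ n)ᶜ with hBd
  -- the inequality at radius `n`
  have step : ∀ δ : ℝ, 0 < δ → ∀ᶠ n in atTop, c * g * I ≤
      2 * c + ENNReal.ofReal (K * (256 + 64 * max R.A 0)) + c * A * env G (Bd n) +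
        c * A * (near H).card * ENNReal.ofReal (64 * δ) := by
    intro δ hδ
    filter_upwards [hMerge P R hok δ hδ, eventually_ge_atTop (8 * (H + 5))] with n hmerge hn
    set q := (centre n).card with hq
    have hqval : q = (2 * (n / 8) + 1) * (2 * (n / 8) + 1) := by
      simp only [hq, centre, Finset.card_product, Int.card_Icc]
      congr <;> omega
    have hq0 : q ≠ 0 := by rw [hqval]; positivity
    have hn8 : (n : ℝ) + 1 ≤ 16 * ((2 * (n / 8) + 1 : ℕ) : ℝ) := by
      exact_mod_cast (show n + 1 ≤ 16 * (2 * (n / 8) + 1) by omega)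
    have hn4 : (n : ℝ) ≤ 8 * ((2 * (n / 8) + 1 : ℕ) : ℝ) := by
      exact_mod_cast (show n ≤ 8 * (2 * (n / 8) + 1) by omega)
    have hqr : (q : ℝ) = ((2 * (n / 8) + 1 : ℕ) : ℝ) * ((2 * (n / 8) + 1 : ℕ) : ℝ) := by
      rw [hqval, Nat.cast_mul]
    have hn1 : ((n : ℝ) + 1) ^ 2 ≤ 256 * q := by
      rw [hqr]; nlinarith [(Nat.cast_nonneg n : (0 : ℝ) ≤ n)]
    have hn2 : (n : ℝ) ^ 2 ≤ 64 * q := by
      rw [hqr]; nlinarith [(Nat.cast_nonneg n : (0 : ℝ) ≤ n)]
    -- integrating the pointwise bound
    have hmeasΦ : ∀ z : V, Measurable fun t =>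
        c * ∫⁻ u, resampled P.θ P.θ' H A s(z, z + d) (t, u) ∂G := fun z =>
      (measurable_resampled P.θ P.θ' H A _).lintegral_prod_right'.const_mul _
    have hBm : MeasurableSet (Bd n) :=
      (R.meas_good n).compl.union (measurableSet_toMeasurable _ _)
    set f1 : Conf → ℝ≥0∞ := fun t => (q : ℝ≥0∞) * (2 * c) + q * (c * A) * (Bd n).indicator 1 t +
      (R.good n).indicator (fun t => ENNReal.ofReal (K * ((n : ℝ) + 1) ^ 2) +
        ENNReal.ofReal (K * perim G R n t ^ 2)) t with hf1
    have hperim := measurable_perim G R n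
    have hf1m : Measurable f1 :=
      (measurable_const.add ((measurable_one.indicator hBm).const_mul _)).add
        (Measurable.indicator (measurable_const.add ((hperim.pow_const 2).const_mul K).ennreal_ofReal)
          (R.meas_good n))
    have hpt : ∀ᵐ t ∂env G, ∑ z ∈ centre n, c * ∫⁻ u, resampled P.θ P.θ' H A s(z, z + d) (t, u) ∂G
        ≤ f1 t + (R.good n).indicator (fun t => c * A * (near H).card * merges G R n t) t := by
      filter_upwards [hok] with t ht
      by_cases hb : t ∈ Bd n
      · refine le_trans ?_ le_self_add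
        refine le_trans ?_ (show (q : ℝ≥0∞) * (c * A) ≤ f1 t by
          simp only [hf1, Set.indicator_of_mem hb, Pi.one_apply, mul_one]
          exact le_trans le_add_self le_self_add)
        rw [← nsmul_eq_mul, hq, ← Finset.sum_const]
        refine Finset.sum_le_sum fun z _ => ?_
        refine mul_le_mul' le_rfl ?_
        refine (lintegral_mono (g := fun _ => (A : ℝ≥0∞)) fun u => ?_).trans (by simp)
        simp only [resampled, Set.indicator_apply]
        split_ifs <;> simp
      · simp only [hBd, Set.mem_union, Set.mem_compl_iff, not_or, not_not] at hb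
        have hlong : t ∈ LongGood P.θ n := by
          by_contra h
          exact hb.2 (subset_toMeasurable _ _ h)
        have hnb : t ∉ Bd n := by simp [hBd, hb.1, hb.2]
        refine (pointwise_sum G hM R ht hd P.lt (P.pos.trans P.lt) hb.1 hlong hn).trans (le_of_eq ?_)
        simp only [hf1, Set.indicator_of_mem hb.1, Set.indicator_of_notMem hnb, mul_zero, add_zero,
          ← hK, mul_add]
        rw [ENNReal.ofReal_add (by positivity) (mul_nonneg hK0 (sq_nonneg _))]
    have hint := lintegral_mono_ae hpt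
    rw [lintegral_finsetSum _ fun z _ => hmeasΦ z, lintegral_add_left hf1m] at hint
    have hlhs : ∀ z ∈ centre n,
        ∫⁻ t, c * ∫⁻ u, resampled P.θ P.θ' H A s(z, z + d) (t, u) ∂G ∂env G = c * g * I := by
      intro z _
      rw [lintegral_const_mul _ (measurable_resampled P.θ P.θ' H A _).lintegral_prod_right',
        integral_resampled, ← hg, mul_assoc, hI, ← capped_shift G P.θ H A s(0, d) z]
      simp [Sym2.map_mk, add_comm]
    rw [Finset.sum_congr rfl hlhs, Finset.sum_const, nsmul_eq_mul] at hint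
    have h2 : ∫⁻ t, (R.good n).indicator (fun t => c * A * (near H).card * merges G R n t) t ∂env G
        ≤ c * A * (near H).card * ENNReal.ofReal (δ * n ^ 2) := by
      rw [lintegral_indicator (R.meas_good n), lintegral_const_mul' _ _
        (ENNReal.mul_ne_top hcA (ENNReal.natCast_ne_top _))]
      exact mul_le_mul' le_rfl hmerge
    have h1 : ∫⁻ t, f1 t ∂env G ≤ (q : ℝ≥0∞) * (2 * c) + q * (c * A) * env G (Bd n) +
        (ENNReal.ofReal (K * ((n : ℝ) + 1) ^ 2) + ENNReal.ofReal (K * (max R.A 0 * n ^ 2))) := by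
      have hA1 : Measurable fun t : Conf =>
          (q : ℝ≥0∞) * (2 * c) + q * (c * A) * (Bd n).indicator (1 : Conf → ℝ≥0∞) t :=
        (measurable_const (a := (q : ℝ≥0∞) * (2 * c))).add
          ((measurable_one.indicator hBm).const_mul ((q : ℝ≥0∞) * (c * A)))
      simp only [hf1]
      rw [lintegral_add_left hA1,
        lintegral_add_left measurable_const, lintegral_const, measure_univ, mul_one,
        lintegral_const_mul _ (measurable_one.indicator hBm), lintegral_indicator_one hBm,
        lintegral_indicator (R.meas_good n), lintegral_add_left measurable_const]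
      refine add_le_add le_rfl (add_le_add ?_ ?_)
      · rw [lintegral_const]
        exact mul_le_of_le_one_right' (by simpa using (prob_le_one (μ := env G) (s := R.good n)))
      · simp only [ENNReal.ofReal_mul hK0]
        rw [lintegral_const_mul' _ _ ENNReal.ofReal_ne_top]
        refine mul_le_mul' le_rfl ((R.sq n).trans (ENNReal.ofReal_le_ofReal ?_))
        exact mul_le_mul_of_nonneg_right (le_max_left _ _) (sq_nonneg _)
    -- dividing by the number of translates
    have hq' : (q : ℝ≥0∞) ≠ 0 := by exact_mod_cast hq0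
    refine (ENNReal.mul_le_mul_iff_right hq' (ENNReal.natCast_ne_top q)).1 ?_
    refine hint.trans ((add_le_add h1 h2).trans ?_)
    have e1 : ENNReal.ofReal (K * ((n : ℝ) + 1) ^ 2) + ENNReal.ofReal (K * (max R.A 0 * n ^ 2)) ≤
        q * ENNReal.ofReal (K * (256 + 64 * max R.A 0)) := by
      rw [← ENNReal.ofReal_add (by positivity) (by positivity), ← ENNReal.ofReal_natCast q,
        ← ENNReal.ofReal_mul (Nat.cast_nonneg q)]
      refine ENNReal.ofReal_le_ofReal ?_
      have hA0 : 0 ≤ max R.A 0 := le_max_right _ _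
      nlinarith [mul_le_mul_of_nonneg_left hn1 hK0,
        mul_le_mul_of_nonneg_left hn2 (mul_nonneg hK0 hA0)]
    have e2 : ENNReal.ofReal (δ * n ^ 2) ≤ q * ENNReal.ofReal (64 * δ) := by
      rw [← ENNReal.ofReal_natCast q, ← ENNReal.ofReal_mul (Nat.cast_nonneg q)]
      exact ENNReal.ofReal_le_ofReal (by nlinarith)
    refine (add_le_add (add_le_add le_rfl e1) (mul_le_mul' le_rfl e2)).trans (le_of_eq ?_)
    ring
  -- letting the radius, then the tolerance, tend to their limits
  have hlim : Tendsto (fun n => env G (Bd n)) atTop (𝓝 0) := by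
    have hlong : Tendsto (fun n : ℕ => env G (LongGood P.θ n)ᶜ) atTop (𝓝 0) := by
      refine tendsto_of_tendsto_of_tendsto_of_le_of_le' tendsto_const_nhds P.long
        (Eventually.of_forall fun _ => zero_le) ?_
      filter_upwards [eventually_ge_atTop 1] with n hn
      exact le_mul_of_one_le_left' (one_le_pow₀ (by exact_mod_cast hn))
    refine tendsto_of_tendsto_of_tendsto_of_le_of_le' tendsto_const_nhds
      (by simpa using R.prob.add hlong) (Eventually.of_forall fun _ => zero_le)
      (Eventually.of_forall fun n => ?_)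
    refine (measure_union_le _ _).trans (le_of_eq ?_)
    rw [measure_toMeasurable]
  have hδ : ∀ δ : ℝ, 0 < δ → c * g * I ≤ 2 * c + ENNReal.ofReal (K * (256 + 64 * max R.A 0)) +
      c * A * (near H).card * ENNReal.ofReal (64 * δ) := by
    intro δ hδ
    refine ge_of_tendsto ?_ (step δ hδ)
    have h := (ENNReal.Tendsto.const_mul hlim (Or.inr hcA)).const_add
      (2 * c + ENNReal.ofReal (K * (256 + 64 * max R.A 0)))
    rw [mul_zero, add_zero] at h
    exact h.add tendsto_const_nhds
  have hfinal : c * g * I ≤ 2 * c + ENNReal.ofReal (K * (256 + 64 * max R.A 0)) := by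
    have h0 : Tendsto (fun j : ℕ => (64 : ℝ) * (1 / ((j : ℝ) + 1))) atTop (𝓝 0) := by
      simpa using (tendsto_one_div_add_atTop_nhds_zero_nat (𝕜 := ℝ)).const_mul 64
    have h1 := ENNReal.tendsto_ofReal h0
    rw [ENNReal.ofReal_zero] at h1
    have h2 := (ENNReal.Tendsto.const_mul h1 (Or.inr
      (ENNReal.mul_ne_top hcA (ENNReal.natCast_ne_top (near H).card)))).const_add
      (2 * c + ENNReal.ofReal (K * (256 + 64 * max R.A 0)))
    rw [mul_zero, add_zero] at h2
    exact ge_of_tendsto h2 (Eventually.of_forall fun j => hδ _ (by positivity))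
  rw [bound, ENNReal.le_div_iff_mul_le (Or.inl (mul_ne_zero hc0 P.mass.ne'))
    (Or.inl (ENNReal.mul_ne_top ENNReal.ofReal_ne_top (measure_ne_top G _)))]
  rw [mul_comm]
  exact hfinal

/-- Boundedly many lines through a strong edge, with the bound of `bound`. -/
theorem Nln_le (hM : MongeStmt) (hMerge : MergeStmt G) (P : Params G) (R : Ring G)
    (hok : ∀ᵐ t ∂env G, OK t) {e : Sym2 V} (he : IsEdge e) :
    ∫⁻ t in {t | P.θ ≤ t e}, Nln t e ∂env G ≤ bound G P R := by
  obtain ⟨a, b, hab, rfl⟩ := he
  have hmap : s(a, b) = Sym2.map (fun v => v + a) s(0, b - a) := by simp [Sym2.map_mk]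
  have hd : Adj 0 (b - a) := by
    simpa [Adj, abs_sub_comm] using hab
  have hN : ∀ t, Nln t s(a, b) = ⨆ H, ⨆ A : ℕ, min (A : ℝ≥0∞) (NH H t s(a, b)) := fun t => by
    refine iSup_congr fun H => ?_
    show NH H t _ = _
    refine le_antisymm ?_ (iSup_le fun A => min_le_right _ _)
    rcases eq_or_ne (NH H t s(a, b)) ⊤ with h | h
    · rw [h]; simp [ENNReal.iSup_natCast]
    · obtain ⟨A, hA⟩ := ENNReal.exists_nat_gt h
      exact le_iSup_of_le A (le_min hA.le le_rfl)
  simp only [hN]
  rw [lintegral_iSup (f := fun H (t : Conf) => ⨆ A : ℕ, min (A : ℝ≥0∞) (NH H t s(a, b)))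
    (fun H => Measurable.iSup fun A => measurable_const.min (measurable_NH H _))
    fun H H' hHH t => iSup_mono fun A => min_le_min le_rfl (NH_mono t _ hHH)]
  refine iSup_le fun H => ?_
  rw [lintegral_iSup (f := fun (A : ℕ) (t : Conf) => min (A : ℝ≥0∞) (NH H t s(a, b)))
    (fun A => measurable_const.min (measurable_NH H _))
    fun A A' hAA t => min_le_min (by exact_mod_cast hAA) le_rfl]
  refine iSup_le fun A => ?_
  rw [hmap, capped_shift G P.θ H A s(0, b - a) a]
  exact capped_le G hM hMerge P R hok hd H A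

end Lines

variable (G : Measure ℝ) [IsProbabilityMeasure G]

/-- Lemma B from the deterministic budget and the rarity of merges. -/
theorem linesStmt (hM : MongeStmt) (hMerge : MergeStmt G) : LinesStmt G := fun P R hok =>
  ⟨Lines.bound G P R, Lines.bound_lt_top G P R, fun _ he => Lines.Nln_le G hM hMerge P R hok he⟩

end Vale.Agent.P158.NB
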