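import Vale.Agent.P158.NB.MergeInt

/-!
# P158 lemma A: merges in the trees of boundary targets are rare

The order of the constants: `K, η, C1, R, L, c, M, nD, W, c', H`, then `n → ∞`.
-/

namespace Vale.Agent.P158.NB.MP

open Vale.Agent.P158 Vale.Agent.P158.NB MeasureTheory Filter Topology
open scoped ENNReal

variable {G : Measure ℝ} [IsProbabilityMeasure G]

lemma long_eventually (P : Params G) {e : ℝ} (he : 0 < e) :
    ∃ N : ℕ, ∀ n, N ≤ n → env G (LongGood P.θ n)ᶜ ≤ ENNReal.ofReal e :=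
  eventually_atTop.1 ((long_tendsto P).eventually (Iic_mem_nhds (ENNReal.ofReal_pos.2 he)))

lemma nat_mul_ofReal (k : ℕ) (x : ℝ) :
    (k : ℝ≥0∞) * ENNReal.ofReal x = ENNReal.ofReal (k * x) := by
  rw [ENNReal.ofReal_mul (Nat.cast_nonneg _), ENNReal.ofReal_natCast]

lemma union4 (a b c d : Set Conf) {ea eb ec ed : ℝ} (h0a : 0 ≤ ea) (h0b : 0 ≤ eb) (h0c : 0 ≤ ec)
    (h0d : 0 ≤ ed) (ha : env G a ≤ ENNReal.ofReal ea) (hb : env G b ≤ ENNReal.ofReal eb)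
    (hc : env G c ≤ ENNReal.ofReal ec) (hd : env G d ≤ ENNReal.ofReal ed) :
    env G ((a ∪ b) ∪ (c ∪ d)) ≤ ENNReal.ofReal (ea + eb + (ec + ed)) := by
  refine (measure_union_le _ _).trans ?_
  rw [ENNReal.ofReal_add (by linarith) (by linarith), ENNReal.ofReal_add h0a h0b,
    ENNReal.ofReal_add h0c h0d]
  exact add_le_add ((measure_union_le _ _).trans (add_le_add ha hb))
    ((measure_union_le _ _).trans (add_le_add hc hd))

lemma ex_cheap (N : ℕ) {e : ℝ} (he : 0 < e) :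
    ∃ c : ℝ, 0 ≤ c ∧ ∀ z r, (boxE z r).card ≤ N →
      env G (Cheap (boxE z r) c)ᶜ ≤ ENNReal.ofReal e := by
  obtain ⟨c, hc0, hc⟩ := exists_quantile (G := G) (ENNReal.ofReal (e / (N + 1)))
    (ENNReal.ofReal_pos.2 (by positivity))
  refine ⟨c, hc0, fun z r hr => (cheap_prob _ _).trans ?_⟩
  refine (mul_le_mul' (Nat.cast_le.2 hr) hc).trans ?_
  rw [nat_mul_ofReal]
  refine ENNReal.ofReal_le_ofReal ?_
  rw [← mul_div_assoc, div_le_iff₀ (by positivity)]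
  nlinarith

lemma lt_mul_nat {x b : ℝ} {k : ℕ} (hb : 0 < b) (hk : ⌈x / b⌉₊ + 1 ≤ k) : x < b * k := by
  have h1 := Nat.le_ceil (x / b)
  rw [div_le_iff₀ hb] at h1
  have h2 : (⌈x / b⌉₊ : ℝ) + 1 ≤ k := by exact_mod_cast hk
  nlinarith

/-- The final arithmetic. -/
lemma final_arith {δ η A K Q H2 L n d Cs D W : ℝ} (hδ : 0 ≤ δ) (hK0 : 0 < K) (hQ : 0 < Q)
    (hn : 0 ≤ n) (hW : 0 ≤ W) (hη : 0 ≤ η) (hKA : 2000 * A ≤ δ * K) (hηK : 2000 * K * η = δ)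
    (hLq : L ≤ η * Q) (hWb : Q * Cs * D ≤ η * W) (hH2 : 80 * K ^ 2 * H2 ≤ δ * n)
    (hd : n ≤ 8 * d) :
    (25 * Q * n / K * (A * n ^ 2) + K * n * (L * (25 * n ^ 2) + Q * (K * n * H2) +
        Q * (25 * n ^ 2 * η) + Q * Q * (25 * n ^ 2 * (η / Q)))) * W +
      K * n * (Q * Q) * Cs * (D * (25 * n ^ 2)) ≤ δ * n ^ 2 * (d * Q) * W := by
  set X : ℝ := δ * n ^ 3 * Q / 80 with hX
  have hX0 : 0 ≤ X := by positivity
  have eη : 25 * K * η = δ / 80 := by linarith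
  have e1 : 25 * Q * n / K * (A * n ^ 2) ≤ X := by
    rw [div_mul_eq_mul_div, div_le_iff₀ hK0]
    calc 25 * Q * n * (A * n ^ 2) = 2000 * A * (Q * n ^ 3) / 80 := by ring
      _ ≤ δ * K * (Q * n ^ 3) / 80 := by gcongr
      _ = X * K := by rw [hX]; ring
  have e2 : K * n * (L * (25 * n ^ 2)) ≤ X := by
    calc K * n * (L * (25 * n ^ 2)) ≤ K * n * (η * Q * (25 * n ^ 2)) := by gcongr
      _ = 25 * K * η * (n ^ 3 * Q) := by ring
      _ = X := by rw [eη, hX]; ring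
  have e3 : K * n * (Q * (K * n * H2)) ≤ X := by
    calc K * n * (Q * (K * n * H2)) = 80 * K ^ 2 * H2 * (Q * n ^ 2) / 80 := by ring
      _ ≤ δ * n * (Q * n ^ 2) / 80 := by gcongr
      _ = X := by rw [hX]; ring
  have e4 : K * n * (Q * (25 * n ^ 2 * η)) = X := by
    calc K * n * (Q * (25 * n ^ 2 * η)) = 25 * K * η * (n ^ 3 * Q) := by ring
      _ = X := by rw [eη, hX]; ring
  have e5 : K * n * (Q * Q * (25 * n ^ 2 * (η / Q))) = X := by
    rw [← e4]; field_simp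
  have e6 : K * n * (Q * Q) * Cs * (D * (25 * n ^ 2)) ≤ X * W := by
    calc K * n * (Q * Q) * Cs * (D * (25 * n ^ 2)) = 25 * K * Q * n ^ 3 * (Q * Cs * D) := by ring
      _ ≤ 25 * K * Q * n ^ 3 * (η * W) := by gcongr
      _ = 25 * K * η * (n ^ 3 * Q) * W := by ring
      _ = X * W := by rw [eη, hX]; ring
  calc _ ≤ (X + (X + X + X + X)) * W + X * W := by
        refine add_le_add (mul_le_mul_of_nonneg_right ?_ hW) e6
        rw [mul_add, mul_add, mul_add, e4, e5]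
        linarith
    _ = δ * n ^ 2 * Q * (6 * n / 80) * W := by rw [hX]; ring
    _ ≤ δ * n ^ 2 * Q * d * W := by
        gcongr
        linarith
    _ = _ := by ring

/-- All the scales. -/
lemma exists_scales (hsh : ∀ z, (env G).map (shiftW z) = env G) (P : Params G) (Rg : Ring G)
    {δ : ℝ} (hδ : 0 < δ) :
    ∃ (K R L M D nD W H : ℕ) (η C1 c c' : ℝ),
      1 ≤ K ∧ 2000 * max Rg.A 0 ≤ δ * K ∧ 2000 * K * η = δ ∧ 0 ≤ η ∧
      R ≤ 4 * L ∧ (L : ℝ) ≤ η * ((2 * R + 1) ^ 2 : ℕ) ∧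
      2 * (C1 * (R + 1 : ℕ)) < P.θ * L ∧ Scales P.θ P.θ' R c M D nD W H c' ∧ 1 ≤ W ∧
      ((2 * R + 1) ^ 2 : ℕ) * (lowCst G P.θ' M).toReal * D ≤ η * W ∧
      (∀ z, env G (BadZ Rg P.θ R L C1 c z) ≤ ENNReal.ofReal η) ∧
      ∀ x, env G (BadX P.θ M nD W H c' x) ≤ ENNReal.ofReal (η / ((2 * R + 1) ^ 2 : ℕ)) := by
  have hθ : 0 < P.θ := P.pos.trans P.lt
  set A : ℝ := max Rg.A 0 with hA
  have hA0 : 0 ≤ A := le_max_right _ _
  set K : ℕ := ⌈2000 * A / δ⌉₊ + 1 with hK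
  have hK1 : 1 ≤ K := Nat.succ_le_succ (Nat.zero_le _)
  have hKA : 2000 * A ≤ δ * K := by
    have h1 := Nat.le_ceil (2000 * A / δ)
    rw [div_le_iff₀ hδ] at h1
    rw [hK]; push_cast
    linarith
  have hK0 : (0 : ℝ) < K := by exact_mod_cast hK1
  set η : ℝ := δ / (2000 * K) with hη
  have hη0 : 0 < η := by positivity
  have hηK : 2000 * K * η = δ := by rw [hη]; field_simp
  set C1 : ℝ := max 1 (4 * A / η) with hC1
  have hC10 : 0 < C1 := lt_max_of_lt_left one_pos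
  have hC1A : A / C1 ^ 2 ≤ η / 4 := by
    rw [div_le_iff₀ (pow_pos hC10 2)]
    have h1 : 4 * A / η ≤ C1 := le_max_right _ _
    rw [div_le_iff₀ hη0] at h1
    have h2 : C1 ≤ C1 ^ 2 := by
      have : (1 : ℝ) ≤ C1 := le_max_left _ _
      nlinarith
    nlinarith [mul_le_mul_of_nonneg_left h2 hη0.le]
  -- R and L
  obtain ⟨NL, hNL⟩ := long_eventually P (show 0 < η / 4 by positivity)
  obtain ⟨NR, hNR⟩ := eventually_atTop.1
    (Rg.prob.eventually (Iic_mem_nhds (ENNReal.ofReal_pos.2 (show 0 < η / 4 by positivity))))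
  obtain ⟨R, hR1, hRN, hRL, hRb⟩ : ∃ R : ℕ, 1 ≤ R ∧ NR ≤ R + 1 ∧ 4 * NL + 4 ≤ R ∧
      4 * C1 / P.θ + 2 ≤ 4 * η * R := by
    refine ⟨⌈(4 * C1 / P.θ + 2) / (4 * η)⌉₊ + NR + 4 * NL + 4, by omega, by omega, by omega, ?_⟩
    have h1 := Nat.le_ceil ((4 * C1 / P.θ + 2) / (4 * η))
    rw [div_le_iff₀ (by positivity)] at h1
    refine h1.trans ?_
    push_cast
    have : (0 : ℝ) ≤ NR := Nat.cast_nonneg _
    have : (0 : ℝ) ≤ NL := Nat.cast_nonneg _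
    nlinarith
  set q : ℕ := (2 * R + 1) ^ 2 with hq
  set L : ℕ := ⌊η * q⌋₊ with hL
  have hq0 : (0 : ℝ) < q := by rw [hq]; positivity
  have hLq : (L : ℝ) ≤ η * q := Nat.floor_le (by positivity)
  have hRr : (1 : ℝ) ≤ R := by exact_mod_cast hR1
  have hLR : (R : ℝ) * (4 * C1 / P.θ + 2) < L + 1 := by
    calc (R : ℝ) * (4 * C1 / P.θ + 2) ≤ R * (4 * η * R) := by gcongr
      _ ≤ η * q := by
          rw [hq]; push_cast
          nlinarith [mul_nonneg hη0.le (show (0 : ℝ) ≤ R by linarith)]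
      _ < L + 1 := Nat.lt_floor_add_one _
  have hC1θ : 0 ≤ 4 * C1 / P.θ := by positivity
  have hR4 : R ≤ 4 * L := by
    have : (R : ℝ) < L + 1 := by nlinarith
    have : R < L + 1 := by exact_mod_cast this
    omega
  have hring : 2 * (C1 * (R + 1 : ℕ)) < P.θ * L := by
    push_cast
    have h1 : (R : ℝ) * (4 * C1 / P.θ) + 1 < L := by nlinarith
    have h2 : P.θ * ((R : ℝ) * (4 * C1 / P.θ)) = 4 * C1 * R := by field_simp
    nlinarith [mul_lt_mul_of_pos_left h1 hθ]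
  -- c
  obtain ⟨c, hc0, hc⟩ := ex_cheap (G := G) ((2 * R + 1) ^ 4) (show 0 < η / 4 by positivity)
  have hBZ : ∀ z, env G (BadZ Rg P.θ R L C1 c z) ≤ ENNReal.ofReal η := by
    intro z
    have h1 := hc z R (boxE_card z R)
    have h2 := (lg_prob hsh P.θ L z).trans (hNL L (by omega))
    have h3 : env G (SmallRing Rg (R + 1) C1 z)ᶜ ≤ ENNReal.ofReal (η / 4 + η / 4) := by
      refine (ring_prob hsh Rg (Nat.le_add_left 1 R) hC10 z).trans ?_
      rw [ENNReal.ofReal_add (by positivity) (by positivity)]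
      refine add_le_add (hNR _ hRN) (ENNReal.ofReal_le_ofReal (le_trans ?_ hC1A))
      gcongr
      exact le_max_left _ _
    refine (measure_union_le _ _).trans ((add_le_add h1 ((measure_union_le _ _).trans
      (add_le_add h2 h3))).trans_eq ?_)
    rw [← ENNReal.ofReal_add (by positivity) (by positivity),
      ← ENNReal.ofReal_add (by positivity) (by positivity)]
    congr 1
    ring
  -- M, nD
  set ε : ℝ := η / q / 4 with hε
  have hε0 : 0 < ε := by positivity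
  obtain ⟨N2, hN2⟩ := long_eventually P hε0
  have hg0 : 0 < P.θ - P.θ' := sub_pos.2 P.lt
  set M : ℕ := N2 + ⌈4 * ((4 * R : ℕ) : ℝ) * c / (P.θ - P.θ')⌉₊ + 1 with hM
  set nD : ℕ := N2 + M + ⌈2 * (((4 * R : ℕ) : ℝ) * c) / P.θ⌉₊ + 1 with hnD
  set D : ℕ := M + nD with hD
  -- W
  set Cs : ℝ := (lowCst G P.θ' M).toReal with hCs
  have hCs0 : 0 ≤ Cs := ENNReal.toReal_nonneg
  set W : ℕ := ⌈(q : ℝ) * Cs * D / η⌉₊ + 1 with hW
  have hWb : (q : ℝ) * Cs * D ≤ η * W := by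
    have h1 := Nat.le_ceil ((q : ℝ) * Cs * D / η)
    rw [div_le_iff₀ hη0] at h1
    rw [hW]; push_cast
    nlinarith
  -- c', H
  obtain ⟨c', hc'0, hc'⟩ := ex_cheap (G := G) ((2 * (W + M) + 1) ^ 4) hε0
  set H : ℕ := N2 + W + 4 * R +
    ⌈2 * (((4 * R : ℕ) : ℝ) * c + (W + M : ℕ) * c') / P.θ⌉₊ + 1 with hH
  have hS : Scales P.θ P.θ' R c M D nD W H c' := by
    refine ⟨hc0, ?_, hD, by omega, lt_mul_nat hθ (by omega), by omega, lt_mul_nat hθ (by omega), hc'0⟩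
    rw [mul_comm (M : ℝ)]
    exact lt_mul_nat hg0 (by omega)
  have hBX : ∀ x, env G (BadX P.θ M nD W H c' x) ≤ ENNReal.ofReal (η / q) := by
    intro x
    refine (union4 _ _ _ _ hε0.le hε0.le hε0.le hε0.le
      ((lg_prob hsh _ _ x).trans (hN2 _ (by omega))) ((lg_prob hsh _ _ x).trans (hN2 _ (by omega)))
      ((lg_prob hsh _ _ x).trans (hN2 _ (by omega))) (hc' x (W + M) (boxE_card _ _))).trans_eq ?_
    rw [hε]
    congr 1
    ring
  exact ⟨K, R, L, M, D, nD, W, H, η, C1, c, c', hK1, hKA, hηK, hη0.le, hR4, hLq, hring, hS,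
    Nat.le_add_left 1 _, hWb, hBZ, hBX⟩

/-- (iii) Lemma A. -/
theorem merge_stmt (hatom : ∀ x, G {x} = 0) (hC : ChangeStmt G) : MergeStmt G := by
  intro P Rg hae δ hδ
  obtain ⟨hsh, hlow, -, -⟩ := hC hatom
  obtain ⟨K, R, L, M, D, nD, W, H, η, C1, c, c', hK1, hKA, hηK, hη0, hR4, hLq, hring, hS, hW1,
    hWb, hBZ, hBX⟩ := exists_scales hsh P Rg hδ
  set A : ℝ := max Rg.A 0 with hA
  have hA0 : 0 ≤ A := le_max_right _ _
  have hK0 : (0 : ℝ) < K := by exact_mod_cast hK1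
  set q : ℕ := (2 * R + 1) ^ 2 with hq
  have hq0 : (0 : ℝ) < q := by rw [hq]; positivity
  set Cs : ℝ := (lowCst G P.θ' M).toReal with hCs
  have hCs0 : 0 ≤ Cs := ENNReal.toReal_nonneg
  -- n
  refine eventually_atTop.2 ⟨4 * (2 * D + W + H + 4 * R + 4) +
    ⌈80 * (K : ℝ) ^ 2 * ((2 * (R + H) + 1 : ℕ) : ℝ) ^ 2 / δ⌉₊, fun n hn => ?_⟩
  have key := merge_int hlow P Rg hae (c := c) (c' := c') hR4 hring hS (n := n) (by omega) hK1
    (ENNReal.ofReal η) (ENNReal.ofReal (η / q)) hBZ hBX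
  have hnq : 80 * (K : ℝ) ^ 2 * ((2 * (R + H) + 1 : ℕ) : ℝ) ^ 2 ≤ δ * n := by
    have h1 := Nat.le_ceil (80 * (K : ℝ) ^ 2 * ((2 * (R + H) + 1 : ℕ) : ℝ) ^ 2 / δ)
    rw [div_le_iff₀ hδ] at h1
    have h2 : (⌈80 * (K : ℝ) ^ 2 * ((2 * (R + H) + 1 : ℕ) : ℝ) ^ 2 / δ⌉₊ : ℝ) ≤ n := by
      exact_mod_cast le_trans (Nat.le_add_left _ _) hn
    exact h1.trans ((mul_le_mul_of_nonneg_right h2 hδ.le).trans_eq (mul_comm _ _))
  have hn8 : (n : ℝ) ≤ 8 * ((n / 4 : ℕ) : ℝ) := by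
    exact_mod_cast (show n ≤ 8 * (n / 4) by omega)
  have hn0 : (0 : ℝ) ≤ n := Nat.cast_nonneg n
  have hW0 : ((W : ℕ) : ℝ≥0∞) ≠ 0 := by exact_mod_cast (show W ≠ 0 by omega)
  have hd0 : ((n / 4 * (2 * R + 1) ^ 2 : ℕ) : ℝ≥0∞) ≠ 0 := by
    have : n / 4 * (2 * R + 1) ^ 2 ≠ 0 := Nat.mul_ne_zero (by omega) (by positivity)
    exact_mod_cast this
  rw [← ENNReal.mul_le_mul_iff_left hd0 (ENNReal.natCast_ne_top _),
    ← ENNReal.mul_le_mul_iff_left hW0 (ENNReal.natCast_ne_top _)]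
  refine key.trans ?_
  have hq2 : ((2 * R + 1 : ℕ) : ℝ≥0∞) ^ 2 = (q : ℝ≥0∞) := by rw [hq]; push_cast; ring
  have hq4 : ((2 * R + 1 : ℕ) : ℝ≥0∞) ^ 4 = (q : ℝ≥0∞) * q := by rw [← hq2]; ring
  have hqr : ((2 * R + 1 : ℕ) : ℝ) ^ 2 = (q : ℝ) := by rw [hq]; push_cast; ring
  have hT0 : ENNReal.ofReal (25 * (2 * R + 1 : ℕ) ^ 2 * n / K * (Rg.A * (n : ℝ) ^ 2)) ≤
      ENNReal.ofReal (25 * q * n / K * (A * (n : ℝ) ^ 2)) := by
    rw [← hqr]
    refine ENNReal.ofReal_le_ofReal ?_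
    gcongr
    exact le_max_left _ _
  have hcst : lowCst G P.θ' M = ENNReal.ofReal Cs :=
    (ENNReal.ofReal_toReal (lowCst_ne_top P.mass M)).symm
  rw [hq2, hq4, hcst]
  refine le_trans (add_le_add (mul_le_mul' (add_le_add hT0 le_rfl) le_rfl) le_rfl) ?_
  simp only [← ENNReal.ofReal_natCast, ← ENNReal.ofReal_ofNat (n := 25)]
  have := hq0.le
  simp (disch := positivity) only [← ENNReal.ofReal_pow, ← ENNReal.ofReal_mul, ← ENNReal.ofReal_add]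
  refine ENNReal.ofReal_le_ofReal ?_
  push_cast
  rw [← hqr]
  push_cast
  set Q : ℝ := (2 * (R : ℝ) + 1) ^ 2 with hQ
  set H2 : ℝ := (2 * ((R : ℝ) + H) + 1) ^ 2 with hH2
  have hQ0 : 0 ≤ Q := sq_nonneg _
  have hqQ : (q : ℝ) = Q := by rw [hq, hQ]; push_cast; ring
  rw [hqQ] at hLq hWb hq0
  have hH2' : 80 * (K : ℝ) ^ 2 * H2 ≤ δ * n := by rw [hH2]; push_cast at hnq; exact hnq
  exact final_arith hδ.le hK0 hq0 hn0 (Nat.cast_nonneg W) hη0 hKA hηK hLq hWb hH2' hn8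

end Vale.Agent.P158.NB.MP
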