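import Vale.Agent.P158.NB.Cycle

/-!
# P158: mixed differences of the passage times between boundary marks

Nonnegativity, the total, the rectangles of a matching and the sum over edges (`MongeStmt`).
-/

namespace Vale.Agent.P158.NB

open Vale.Agent.P158

/-- Forward offset of the mark `x` from the mark `a` on a cycle of length `m`. -/
def off (m a x : ℕ) : ℕ := if a ≤ x then x - a else x + m - a

lemma off_lt {m a x : ℕ} (ha : a < m) (hx : x < m) : off m a x < m := by
  unfold off; split_ifs <;> omega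

lemma add_off {m a x : ℕ} (ha : a < m) (hx : x < m) : (a + off m a x) % m = x := by
  unfold off
  split_ifs
  · rw [show a + (x - a) = x by omega, Nat.mod_eq_of_lt hx]
  · rw [show a + (x + m - a) = x + m by omega, Nat.add_mod_right, Nat.mod_eq_of_lt hx]

lemma off_add {m a x : ℕ} (ha : a < m) (hx : x < m) : off m a ((a + x) % m) = x := by
  rcases Nat.lt_or_ge (a + x) m with h | h
  · rw [Nat.mod_eq_of_lt h]; unfold off; split_ifs <;> omega
  · rw [Nat.mod_eq_sub_mod h, Nat.mod_eq_of_lt (by omega)]; unfold off; split_ifs <;> omega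

namespace Cyc

variable (C : Cyc) {t : Conf} {F : Set (Sym2 V)}

lemma reach_marks (hF : ∀ k < C.m, s(C.c k, C.c (k + 1)) ∉ F) (i j : ℕ) :
    Reach (C.edges \ F) (C.c (i % C.m)) (C.c (j % C.m)) :=
  Reach.trans (Reach.symm ⟨_, _, C.arc_pathIn hF (Nat.zero_le _) (Nat.mod_lt i C.m_pos).le⟩)
    ⟨_, _, C.arc_pathIn hF (Nat.zero_le _) (Nat.mod_lt j C.m_pos).le⟩

lemma reach_edges (i j : ℕ) : Reach C.edges (C.c (i % C.m)) (C.c (j % C.m)) := by
  have := C.reach_marks (F := ∅) (fun s _ => Set.notMem_empty _) i j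
  rwa [Set.sdiff_empty] at this

lemma d_congr {i i' j j' : ℕ} (hi : i % C.m = i' % C.m) (hj : j % C.m = j' % C.m) :
    C.d t F i j = C.d t F i' j' := by simp only [d, hi, hj]

lemma succ_congr {i i' : ℕ} (h : i % C.m = i' % C.m) : (i + 1) % C.m = (i' + 1) % C.m := by
  rw [Nat.add_mod, h, ← Nat.add_mod]

lemma d_comm (i j : ℕ) : C.d t F i j = C.d t F j i := T_comm _ _ _ _

lemma d_self (hok : OK t) {i j : ℕ} (h : i % C.m = j % C.m) : C.d t F i j = 0 := by
  rw [d, h, T_self hok.nonneg]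

lemma cellD_congr {i i' j j' : ℕ} (hi : i % C.m = i' % C.m) (hj : j % C.m = j' % C.m) :
    C.cellD t F i j = C.cellD t F i' j' := by
  simp only [cellD, C.d_congr hi hj, C.d_congr (C.succ_congr hi) (C.succ_congr hj),
    C.d_congr hi (C.succ_congr hj), C.d_congr (C.succ_congr hi) hj]

lemma gainU_congr {i i' j j' : ℕ} (hi : i % C.m = i' % C.m) (hj : j % C.m = j' % C.m) :
    C.gainU t F i j = C.gainU t F i' j' := by
  simp only [gainU, C.d_congr hi hj]

lemma gainU_comm (i j : ℕ) : C.gainU t F i j = C.gainU t F j i := by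
  rw [gainU, gainU, C.d_comm i j, C.d_comm i j]

lemma meets_congr {i i' j j' : ℕ} (hi : i % C.m = i' % C.m) (hj : j % C.m = j' % C.m) :
    C.Meets t F i j ↔ C.Meets t F i' j' := by simp only [Meets, hi, hj]

lemma meets_comm {i j : ℕ} (h : C.Meets t F i j) : C.Meets t F j i := by
  obtain ⟨e, he, hg⟩ := h
  exact ⟨e, he, hg.symm⟩

lemma cellMeets_congr {i i' j j' : ℕ} (hi : i % C.m = i' % C.m) (hj : j % C.m = j' % C.m) :
    C.CellMeets t F i j ↔ C.CellMeets t F i' j' := by
  simp only [CellMeets, C.meets_congr hi hj, C.meets_congr (C.succ_congr hi) (C.succ_congr hj),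
    C.meets_congr hi (C.succ_congr hj), C.meets_congr (C.succ_congr hi) hj]

lemma gainU_nonneg (hok : OK t) (hF : ∀ k < C.m, s(C.c k, C.c (k + 1)) ∉ F) (i j : ℕ) :
    0 ≤ C.gainU t F i j := by
  rw [gainU, d, d, Set.sdiff_empty, sub_nonneg]
  exact T_mono hok.nonneg Set.sdiff_subset (C.reach_marks hF i j)

lemma gainU_eq_zero (hok : OK t) {i j : ℕ} (h : ¬ C.Meets t F i j) : C.gainU t F i j = 0 := by
  rw [gainU, d, d, Set.sdiff_empty, sub_eq_zero]
  exact T_avoid hok (C.reach_edges i j) fun e he hg => h ⟨e, he, hg⟩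

/-- **Nonnegativity.** -/
lemma cellD_nonneg (hok : OK t) (hF : ∀ k < C.m, s(C.c k, C.c (k + 1)) ∉ F) {i j : ℕ}
    (hi : i < C.m) (hj : j < C.m) (hij : i ≠ j) : 0 ≤ C.cellD t F i j := by
  have hi0 : i % C.m = i := Nat.mod_eq_of_lt hi
  have hj0 : j % C.m = j := Nat.mod_eq_of_lt hj
  by_cases h1 : (i + 1) % C.m = j
  · have e1 : C.d t F (i + 1) j = 0 := C.d_self hok (h1.trans hj0.symm)
    have e2 : C.d t F (i + 1) (j + 1) = C.d t F j (j + 1) := C.d_congr (h1.trans hj0.symm) rfl
    have : C.d t F i (j + 1) ≤ C.d t F i j + C.d t F j (j + 1) :=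
      T_triangle hok.nonneg (C.reach_marks hF i j) (C.reach_marks hF j (j + 1))
    rw [cellD, e1, e2]; linarith
  by_cases h2 : (j + 1) % C.m = i
  · have e1 : C.d t F i (j + 1) = 0 := C.d_self hok (hi0.trans h2.symm)
    have e2 : C.d t F (i + 1) (j + 1) = C.d t F (i + 1) i := C.d_congr rfl (h2.trans hi0.symm)
    have : C.d t F (i + 1) j ≤ C.d t F (i + 1) i + C.d t F i j :=
      T_triangle hok.nonneg (C.reach_marks hF (i + 1) i) (C.reach_marks hF i j)
    rw [cellD, e1, e2]; linarith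
  obtain ⟨P, L, gP⟩ := exists_geoIn hok (C.reach_marks hF i j)
  obtain ⟨Q, N, gQ⟩ := exists_geoIn hok (C.reach_marks hF (i + 1) (j + 1))
  have hs : ∀ k < C.m, (k + 1 < C.m ∧ (k + 1) % C.m = k + 1) ∨
      (k + 1 = C.m ∧ (k + 1) % C.m = 0) := fun k hk => by
    rcases (show k + 1 ≤ C.m by omega).eq_or_lt with e | e
    · exact Or.inr ⟨e, by rw [e, Nat.mod_self]⟩
    · exact Or.inl ⟨e, Nat.mod_eq_of_lt e⟩
  have hi1 := hs i hi
  have hj1 := hs j hj
  have hm := C.three
  obtain ⟨a, ha, b, hb, e⟩ := C.crossing' (Nat.mod_lt i C.m_pos) (Nat.mod_lt (i + 1) C.m_pos)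
    (Nat.mod_lt j C.m_pos) (Nat.mod_lt (j + 1) C.m_pos)
    (by
      rw [hi0, hj0]
      generalize (i + 1) % C.m = i' at *
      generalize (j + 1) % C.m = j' at *
      omega)
    (by
      rw [hi0, hj0]
      generalize (i + 1) % C.m = i' at *
      generalize (j + 1) % C.m = j' at *
      omega)
    (gP.toPathIn.mono Set.sdiff_subset) (gQ.toPathIn.mono Set.sdiff_subset)
  have := T_exchange hok.nonneg gP.toPathIn gQ.toPathIn ha hb e
  rw [← gP.T_eq, ← gQ.T_eq] at this
  simp only [cellD, d]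
  linarith

lemma cellD_nonneg' (hok : OK t) {p : ℕ × ℕ} (hp : p ∈ C.cells) : 0 ≤ C.cellD t ∅ p.1 p.2 := by
  simp only [cells, Finset.mem_filter, Finset.mem_product, Finset.mem_range] at hp
  exact C.cellD_nonneg hok (fun s _ => Set.notMem_empty _) hp.1.1 hp.1.2 hp.2

/-- **The total.** -/
lemma total_le (hok : OK t) : ∑ p ∈ C.cells, C.cellD t ∅ p.1 p.2 ≤ 2 * cost t C.c C.m := by
  have shift : ∀ g : ℕ → ℝ, g C.m = g 0 →
      ∑ j ∈ Finset.range C.m, g (j + 1) = ∑ j ∈ Finset.range C.m, g j := fun g hg => by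
    have h1 := Finset.sum_range_succ' g C.m
    have h2 := Finset.sum_range_succ g C.m
    linarith
  have hrow : ∀ i, ∑ j ∈ Finset.range C.m, C.cellD t ∅ i j = 0 := fun i => by
    have hm : C.m % C.m = 0 % C.m := by simp
    simp only [cellD, Finset.sum_add_distrib, Finset.sum_sub_distrib]
    rw [shift (fun j => C.d t ∅ i j) (C.d_congr rfl hm),
      shift (fun j => C.d t ∅ (i + 1) j) (C.d_congr rfl hm)]
    ring
  have hdiag : ∀ i, C.cellD t ∅ i i = -(2 * C.d t ∅ i (i + 1)) := fun i => by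
    rw [cellD, C.d_self hok rfl, C.d_self hok rfl, C.d_comm (i + 1) i]; ring
  have hsum : ∑ p ∈ C.cells, C.cellD t ∅ p.1 p.2 =
      ∑ i ∈ Finset.range C.m, 2 * C.d t ∅ i (i + 1) := by
    rw [cells, Finset.sum_filter, Finset.sum_product]
    refine Finset.sum_congr rfl fun i hi => ?_
    have : ∀ j, (if i ≠ j then C.cellD t ∅ i j else 0) =
        C.cellD t ∅ i j - if i = j then C.cellD t ∅ i j else 0 := fun j => by
      by_cases h : i = j <;> simp [h]
    simp only [this, Finset.sum_sub_distrib, hrow, Finset.sum_ite_eq, if_pos hi, hdiag]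
    ring
  rw [hsum, cost, Finset.mul_sum]
  refine Finset.sum_le_sum fun i hi => mul_le_mul_of_nonneg_left ?_ (by norm_num)
  rw [Finset.mem_range] at hi
  have h := C.arc_pathIn (F := ∅) (fun s _ => Set.notMem_empty _) (Nat.le_succ i) hi
  rw [← C.c_mod hi.le, ← C.c_mod hi] at h
  refine (T_le hok.nonneg h).trans (le_of_eq ?_)
  simp [cost]

open Classical in
/-- The contribution of a cell to the mass. -/
noncomputable def term (t : Conf) (F : Set (Sym2 V)) (p : ℕ × ℕ) : ℝ :=
  if C.CellMeets t F p.1 p.2 then C.cellD t ∅ p.1 p.2 else 0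

lemma mass_eq : C.mass t F = ∑ p ∈ C.cells, C.term t F p := by
  classical
  simp only [mass, term, Finset.sum_filter]

lemma term_nonneg (hok : OK t) {p : ℕ × ℕ} (hp : p ∈ C.cells) : 0 ≤ C.term t F p := by
  unfold term
  split_ifs
  · exact C.cellD_nonneg' hok hp
  · exact le_rfl

lemma sub_le_term (hok : OK t) (hF : ∀ k < C.m, s(C.c k, C.c (k + 1)) ∉ F) {i j : ℕ}
    (hi : i < C.m) (hj : j < C.m) (hij : i ≠ j) :
    C.cellD t ∅ i j - C.cellD t F i j ≤ C.term t F (i, j) := by
  unfold term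
  split_ifs with h
  · linarith [C.cellD_nonneg hok hF hi hj hij]
  · simp only [CellMeets, not_or] at h
    have h1 := C.gainU_eq_zero hok h.1
    have h2 := C.gainU_eq_zero hok h.2.1
    have h3 := C.gainU_eq_zero hok h.2.2.1
    have h4 := C.gainU_eq_zero hok h.2.2.2
    simp only [gainU] at h1 h2 h3 h4
    simp only [cellD]
    linarith

/-- **One rectangle.** -/
lemma rect (hok : OK t) (hF : ∀ k < C.m, s(C.c k, C.c (k + 1)) ∉ F) {E : Finset ℕ}
    (hE : ∀ e ∈ E, e < C.m) {a b : ℕ} (ha : a ∈ E) (hb : b ∈ E)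
    (hex : ∃ x ∈ E, 0 < off C.m a x ∧ off C.m a x < off C.m a b)
    (hno : ∀ x ∈ E, x ≠ a → x ≠ b → C.gainU t F a x = 0 ∧ C.gainU t F x b = 0) :
    ∃ R ⊆ C.cells, C.gainU t F a b ≤ ∑ p ∈ R, C.term t F p ∧
      ∀ p ∈ R, p.1 < C.m ∧ ∀ e ∈ E, off C.m a e ≤ off C.m a p.1 → e = a := by
  classical
  set m := C.m
  set z := off m a b with hz
  have ham := hE a ha
  have hbm := hE b hb
  have hzm : z < m := off_lt ham hbm
  set S := (E.filter fun e => 0 < off m a e ∧ off m a e < z).image (off m a) with hS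
  have hSne : S.Nonempty := by
    obtain ⟨x, hx, h1, h2⟩ := hex
    exact ⟨_, Finset.mem_image_of_mem _ (Finset.mem_filter.2 ⟨hx, h1, h2⟩)⟩
  set u := S.min' hSne with hu
  set w := S.max' hSne with hw
  have huw : u ≤ w := S.min'_le _ (S.max'_mem hSne)
  have mk : ∀ r ∈ S, r < z ∧ 0 < r ∧ C.gainU t F a (a + r) = 0 ∧
      C.gainU t F (a + r) b = 0 := by
    intro r hr
    simp only [hS, Finset.mem_image, Finset.mem_filter] at hr
    obtain ⟨e, ⟨he, h1, h2⟩, rfl⟩ := hr
    have hea : e ≠ a := by rintro rfl; simp [off] at h1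
    have heb : e ≠ b := by rintro rfl; exact lt_irrefl _ h2
    have hmod : (a + off m a e) % C.m = e % C.m :=
      (add_off ham (hE e he)).trans (Nat.mod_eq_of_lt (hE e he)).symm
    obtain ⟨g1, g2⟩ := hno e he hea heb
    exact ⟨h2, h1, by rw [C.gainU_congr rfl hmod, g1], by rw [C.gainU_congr hmod rfl, g2]⟩
  obtain ⟨huz, hu0, -, huUb⟩ := mk u (S.min'_mem hSne)
  obtain ⟨hwz, hw0, hwU, -⟩ := mk w (S.max'_mem hSne)
  let φ : ℕ × ℕ → ℕ × ℕ := fun q => ((a + q.1) % m, (a + q.2) % m)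
  have hinj : Set.InjOn φ ↑(Finset.range u ×ˢ Finset.Ico w z) := by
    rintro ⟨x, y⟩ hxy ⟨x', y'⟩ hxy' e
    simp only [Finset.coe_product, Set.mem_prod, Finset.coe_range, Finset.coe_Ico, Set.mem_Iio,
      Set.mem_Ico] at hxy hxy'
    simp only [φ, Prod.mk.injEq] at e ⊢
    exact ⟨by rw [← off_add ham (show x < m by omega), e.1, off_add ham (by omega)],
      by rw [← off_add ham (show y < m by omega), e.2, off_add ham (by omega)]⟩
  refine ⟨(Finset.range u ×ˢ Finset.Ico w z).image φ, ?_, ?_, ?_⟩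
  · intro p hp
    simp only [Finset.mem_image, Finset.mem_product, Finset.mem_range, Finset.mem_Ico] at hp
    obtain ⟨⟨x, y⟩, ⟨hx, hy, hy'⟩, rfl⟩ := hp
    simp only [cells, Finset.mem_filter, Finset.mem_product, Finset.mem_range, φ]
    refine ⟨⟨Nat.mod_lt _ C.m_pos, Nat.mod_lt _ C.m_pos⟩, fun e => ?_⟩
    have := off_add ham (show x < m by omega)
    rw [e, off_add ham (show y < m by omega)] at this
    omega
  · rw [Finset.sum_image hinj, Finset.sum_product]
    have key : ∀ x ∈ Finset.range u, ∀ y ∈ Finset.Ico w z,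
        C.cellD t ∅ (a + x) (a + y) - C.cellD t F (a + x) (a + y) ≤ C.term t F (φ (x, y)) := by
      intro x hx y hy
      rw [Finset.mem_range] at hx
      rw [Finset.mem_Ico] at hy
      have hne : (a + x) % m ≠ (a + y) % m := fun e => by
        have := off_add ham (show x < m by omega)
        rw [e, off_add ham (show y < m by omega)] at this
        omega
      have hc1 : (a + x) % C.m = (a + x) % C.m % C.m := (Nat.mod_mod _ _).symm
      have hc2 : (a + y) % C.m = (a + y) % C.m % C.m := (Nat.mod_mod _ _).symm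
      rw [C.cellD_congr hc1 hc2, C.cellD_congr (F := F) hc1 hc2]
      exact C.sub_le_term hok hF (Nat.mod_lt _ C.m_pos) (Nat.mod_lt _ C.m_pos) hne
    have tel : ∀ G : Set (Sym2 V), ∑ x ∈ Finset.range u, ∑ y ∈ Finset.Ico w z,
        C.cellD t G (a + x) (a + y) = C.d t G (a + u) (a + z) - C.d t G (a + u) (a + w) -
          (C.d t G a (a + z) - C.d t G a (a + w)) := by
      intro G
      have inner : ∀ x, ∑ y ∈ Finset.Ico w z, C.cellD t G (a + x) (a + y) =
          (C.d t G (a + (x + 1)) (a + z) - C.d t G (a + (x + 1)) (a + w)) -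
          (C.d t G (a + x) (a + z) - C.d t G (a + x) (a + w)) := fun x => by
        have := Finset.sum_Ico_sub
          (fun y => C.d t G (a + (x + 1)) (a + y) - C.d t G (a + x) (a + y)) hwz.le
        rw [Finset.sum_congr rfl fun y _ => (show C.cellD t G (a + x) (a + y) =
          C.d t G (a + (x + 1)) (a + (y + 1)) - C.d t G (a + x) (a + (y + 1)) -
          (C.d t G (a + (x + 1)) (a + y) - C.d t G (a + x) (a + y)) by
            simp only [cellD, ← add_assoc]; ring), this]
        ring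
      simp only [inner]
      rw [Finset.sum_range_sub fun x => C.d t G (a + x) (a + z) - C.d t G (a + x) (a + w)]
      simp
    refine le_trans ?_ (Finset.sum_le_sum fun x hx => Finset.sum_le_sum fun y hy => key x hx y hy)
    simp only [Finset.sum_sub_distrib, tel]
    have hbz : (a + z) % C.m = b % C.m :=
      (add_off ham hbm).trans (Nat.mod_eq_of_lt hbm).symm
    have u1 : C.gainU t F (a + u) (a + z) = 0 := by rw [C.gainU_congr rfl hbz, huUb]
    have u2 : C.gainU t F a (a + z) = C.gainU t F a b := C.gainU_congr rfl hbz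
    have u3 := C.gainU_nonneg hok hF (a + u) (a + w)
    simp only [gainU] at u1 u2 u3 hwU ⊢
    linarith
  · intro p hp
    simp only [Finset.mem_image, Finset.mem_product, Finset.mem_range, Finset.mem_Ico] at hp
    obtain ⟨⟨x, y⟩, ⟨hx, -, -⟩, rfl⟩ := hp
    refine ⟨Nat.mod_lt _ C.m_pos, fun e he hle => ?_⟩
    simp only [φ] at hle
    rw [off_add ham (show x < m by omega)] at hle
    by_contra hne
    have hpos : 0 < off m a e := by
      have := hE e he
      unfold off
      split_ifs <;> omega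
    have : u ≤ off m a e := S.min'_le _
      (Finset.mem_image_of_mem _ (Finset.mem_filter.2 ⟨he, hpos, by omega⟩))
    omega

/-- **Rectangles of a matching.** -/
lemma rects (hok : OK t) (hF : ∀ k < C.m, s(C.c k, C.c (k + 1)) ∉ F) (M : Finset (ℕ × ℕ))
    (hM2 : 2 ≤ M.card) (hM : ∀ p ∈ M, p.1 < C.m ∧ p.2 < C.m ∧ p.1 ≠ p.2)
    (hsep : ∀ p ∈ M, ∀ q ∈ M, p ≠ q → ∀ a ∈ ({p.1, p.2} : Finset ℕ),
      ∀ b ∈ ({q.1, q.2} : Finset ℕ), a ≠ b ∧ ¬ C.Meets t F a b) :
    ∑ p ∈ M, C.gainU t F p.1 p.2 ≤ C.mass t F := by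
  classical
  set E := M.biUnion fun p => ({p.1, p.2} : Finset ℕ) with hEdef
  have memE : ∀ p ∈ M, p.1 ∈ E ∧ p.2 ∈ E := fun p hp =>
    ⟨Finset.mem_biUnion.2 ⟨p, hp, by simp⟩, Finset.mem_biUnion.2 ⟨p, hp, by simp⟩⟩
  have hE : ∀ e ∈ E, e < C.m := by
    intro e he
    simp only [hEdef, Finset.mem_biUnion, Finset.mem_insert, Finset.mem_singleton] at he
    obtain ⟨p, hp, rfl | rfl⟩ := he
    · exact (hM p hp).1
    · exact (hM p hp).2.1
  have main : ∀ p ∈ M, ∃ a ∈ ({p.1, p.2} : Finset ℕ), ∃ R ⊆ C.cells,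
      C.gainU t F p.1 p.2 ≤ ∑ q ∈ R, C.term t F q ∧
      ∀ q ∈ R, q.1 < C.m ∧ ∀ e ∈ E, off C.m a e ≤ off C.m a q.1 → e = a := by
    intro p hp
    obtain ⟨q, hq, hqp⟩ := Finset.exists_mem_ne (s := M) (by omega) p
    obtain ⟨hp1, hp2, hp12⟩ := hM p hp
    obtain ⟨hx1, -⟩ := hsep p hp q hq hqp.symm p.1 (by simp) q.1 (by simp)
    obtain ⟨hx2, -⟩ := hsep p hp q hq hqp.symm p.2 (by simp) q.1 (by simp)
    have hno : ∀ x ∈ E, x ≠ p.1 → x ≠ p.2 →
        C.gainU t F p.1 x = 0 ∧ C.gainU t F p.2 x = 0 := by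
      intro x hx h1 h2
      obtain ⟨r, hr, hxr⟩ := Finset.mem_biUnion.1 hx
      have hrp : p ≠ r := by
        rintro rfl
        simp only [Finset.mem_insert, Finset.mem_singleton] at hxr
        omega
      exact ⟨C.gainU_eq_zero hok (hsep p hp r hr hrp p.1 (by simp) x hxr).2,
        C.gainU_eq_zero hok (hsep p hp r hr hrp p.2 (by simp) x hxr).2⟩
    by_cases hfw : off C.m p.1 q.1 < off C.m p.1 p.2
    · obtain ⟨R, h1, h2, h3⟩ := C.rect hok hF hE (memE p hp).1 (memE p hp).2
        ⟨q.1, (memE q hq).1, by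
          have := (hM q hq).1; unfold off; split_ifs <;> omega, hfw⟩
        fun x hx h1 h2 => ⟨(hno x hx h1 h2).1, (C.gainU_comm _ _).trans (hno x hx h1 h2).2⟩
      exact ⟨p.1, by simp, R, h1, h2, h3⟩
    · obtain ⟨R, h1, h2, h3⟩ := C.rect hok hF hE (memE p hp).2 (memE p hp).1
        ⟨q.1, (memE q hq).1, by
          have := (hM q hq).1; unfold off; split_ifs <;> omega, by
          have := (hM q hq).1; unfold off at *; split_ifs at * <;> omega⟩
        fun x hx h1 h2 => ⟨(hno x hx h2 h1).2, (C.gainU_comm _ _).trans (hno x hx h2 h1).1⟩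
      exact ⟨p.2, by simp, R, h1, (C.gainU_comm _ _).trans_le h2, h3⟩
  choose! A hA R hR hU hloc using main
  calc ∑ p ∈ M, C.gainU t F p.1 p.2 ≤ ∑ p ∈ M, ∑ q ∈ R p, C.term t F q := Finset.sum_le_sum hU
    _ = ∑ q ∈ M.biUnion R, C.term t F q := by
        refine (Finset.sum_biUnion ?_).symm
        intro p hp p' hp' hne
        rw [Function.onFun, Finset.disjoint_left]
        intro q hq hq'
        have hAE : ∀ r ∈ M, A r ∈ E := fun r hr => Finset.mem_biUnion.2 ⟨r, hr, hA r hr⟩
        have haa := (hsep p hp p' hp' hne _ (hA p hp) _ (hA p' hp')).1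
        obtain ⟨hqm, hq1⟩ := hloc p hp q hq
        obtain ⟨-, hq2⟩ := hloc p' hp' q hq'
        have := hE _ (hAE p hp)
        have := hE _ (hAE p' hp')
        by_cases hc : off C.m (A p) (A p') ≤ off C.m (A p) q.1
        · exact haa (hq1 _ (hAE p' hp') hc).symm
        · refine haa (hq2 _ (hAE p hp) ?_)
          unfold off at hc ⊢
          split_ifs at hc ⊢ <;> omega
    _ ≤ ∑ q ∈ C.cells, C.term t F q :=
        Finset.sum_le_sum_of_subset_of_nonneg (Finset.biUnion_subset.2 hR)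
          fun q hq _ => C.term_nonneg hok hq
    _ = C.mass t F := C.mass_eq.symm

/-- **The sum over edges.** -/
lemma sum_mass_le (hok : OK t) (S : Finset (Sym2 V)) (N : ℕ)
    (hN : ∀ i j v L, GeoIn t C.edges (C.c i) (C.c j) v L → L ≤ N) :
    ∑ e ∈ S, C.mass t {e} ≤ 4 * N * (2 * cost t C.c C.m) := by
  classical
  have one : ∀ i j, (S.filter fun e => C.Meets t {e} i j).card ≤ N := by
    intro i j
    obtain ⟨v, L, g⟩ := exists_geoIn hok (C.reach_edges i j)
    refine le_trans ?_ (hN _ _ v L g)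
    refine le_trans (Finset.card_le_card (t := (Finset.range L).image fun k => s(v k, v (k + 1)))
      fun e he => ?_) (Finset.card_image_le.trans_eq (Finset.card_range L))
    obtain ⟨-, e', rfl, hg⟩ := Finset.mem_filter.1 he
    obtain ⟨k, hk, hke⟩ := (onGeo_iff hok g).1 hg
    exact Finset.mem_image.2 ⟨k, Finset.mem_range.2 hk, hke⟩
  have four : ∀ p : ℕ × ℕ, (S.filter fun e => C.CellMeets t {e} p.1 p.2).card ≤ 4 * N := by
    rintro ⟨i, j⟩
    have hsub : (S.filter fun e => C.CellMeets t {e} i j) ⊆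
        (S.filter fun e => C.Meets t {e} i j) ∪ (S.filter fun e => C.Meets t {e} (i + 1) (j + 1)) ∪
        (S.filter fun e => C.Meets t {e} i (j + 1)) ∪
        (S.filter fun e => C.Meets t {e} (i + 1) j) := fun e he => by
      obtain ⟨hS, hm⟩ := Finset.mem_filter.1 he
      unfold CellMeets at hm
      simp only [Finset.mem_filter, Finset.mem_union]
      tauto
    have h1 := one i j
    have h2 := one (i + 1) (j + 1)
    have h3 := one i (j + 1)
    have h4 := one (i + 1) j
    refine ((Finset.card_le_card hsub).trans ((Finset.card_union_le _ _).trans (add_le_add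
      ((Finset.card_union_le _ _).trans (add_le_add
        ((Finset.card_union_le _ _).trans (add_le_add h1 h2)) h3)) h4))).trans (by omega)
  simp only [C.mass_eq]
  rw [Finset.sum_comm]
  calc ∑ p ∈ C.cells, ∑ e ∈ S, C.term t {e} p
      = ∑ p ∈ C.cells,
          ((S.filter fun e => C.CellMeets t {e} p.1 p.2).card : ℝ) * C.cellD t ∅ p.1 p.2 := by
        refine Finset.sum_congr rfl fun p _ => ?_
        simp only [term, ← Finset.sum_filter, Finset.sum_const, nsmul_eq_mul]
    _ ≤ ∑ p ∈ C.cells, (4 * N : ℝ) * C.cellD t ∅ p.1 p.2 := Finset.sum_le_sum fun p hp =>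
        mul_le_mul_of_nonneg_right (by exact_mod_cast four p) (C.cellD_nonneg' hok hp)
    _ ≤ 4 * N * (2 * cost t C.c C.m) := by
        rw [← Finset.mul_sum]
        exact mul_le_mul_of_nonneg_left (C.total_le hok) (by positivity)

end Cyc

theorem monge : MongeStmt := fun C _ hok =>
  ⟨fun F hF p hp => by
      simp only [Cyc.cells, Finset.mem_filter, Finset.mem_product, Finset.mem_range] at hp
      exact C.cellD_nonneg hok hF hp.1.1 hp.1.2 hp.2,
    C.total_le hok, fun _ M hF h2 hM hsep => C.rects hok hF M h2 hM hsep,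
    fun S N hN => C.sum_mass_le hok S N hN⟩

end Vale.Agent.P158.NB
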