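import Vale.Agent.P158.NB.Change
import Vale.Agent.P158.NB.Path

/-!
# P158: typical configurations, thresholds, measurability
-/

namespace Vale.Agent.P158.NB

open Vale.Agent.P158 MeasureTheory ProbabilityTheory Filter Topology
open scoped ENNReal

/-! ## Countably many paths -/

lemma walk_eq {v : ℕ → V} {L : ℕ} {d : Fin L → Fin 4} (hd : ∀ k ≤ L, walk (v 0) d k = v k) :
    (fun t : Conf => cost t (walk (v 0) d) L) = fun t => cost t v L := by
  funext t
  refine Finset.sum_congr rfl fun k hk => ?_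
  rw [hd k (Finset.mem_range.1 hk).le, hd (k + 1) (Finset.mem_range.1 hk)]

lemma cost_meas (v : ℕ → V) (L : ℕ) : Measurable fun t : Conf => cost t v L :=
  Finset.measurable_sum _ fun _ _ => measurable_pi_apply _

lemma reach_univ (x y : V) : Reach Set.univ x y := by
  have h1 : ∀ (x : V) (k : ℕ) (d : V), Adj 0 d → Reach Set.univ x (x + k • d) := by
    intro x k d hd
    induction k with
    | zero => exact ⟨_, 0, by simpa using PathIn.refl Set.univ x⟩
    | succ k ih =>
      refine ih.trans ⟨_, 1, PathIn.single ?_ (Set.mem_univ _)⟩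
      simp only [Adj, succ_nsmul, Prod.fst_add, Prod.snd_add, Prod.fst_zero, Prod.snd_zero,
        zero_sub, abs_neg] at hd ⊢
      rw [← hd]
      congr 1 <;> rw [abs_sub_comm] <;> ring_nf
  have h2 : ∀ (x : V) (n : ℤ), Reach Set.univ x (x.1 + n, x.2) := by
    intro x n
    rcases n.natAbs_eq with h | h <;> rw [h]
    · have := h1 x n.natAbs (1, 0) (by simp [Adj])
      rwa [show x + n.natAbs • ((1, 0) : V) = (x.1 + (n.natAbs : ℤ), x.2) from Prod.ext (by simp) (by simp)] at this
    · have := h1 x n.natAbs (-1, 0) (by simp [Adj])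
      rwa [show x + n.natAbs • ((-1, 0) : V) = (x.1 + -(n.natAbs : ℤ), x.2) from Prod.ext (by simp) (by simp)] at this
  have h3 : ∀ (x : V) (n : ℤ), Reach Set.univ x (x.1, x.2 + n) := by
    intro x n
    rcases n.natAbs_eq with h | h <;> rw [h]
    · have := h1 x n.natAbs (0, 1) (by simp [Adj])
      rwa [show x + n.natAbs • ((0, 1) : V) = (x.1, x.2 + (n.natAbs : ℤ)) from Prod.ext (by simp) (by simp)] at this
    · have := h1 x n.natAbs (0, -1) (by simp [Adj])
      rwa [show x + n.natAbs • ((0, -1) : V) = (x.1, x.2 + -(n.natAbs : ℤ)) from Prod.ext (by simp) (by simp)] at this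
  have := (h2 x (y.1 - x.1)).trans (h3 _ (y.2 - x.2))
  convert this using 1
  ext <;> simp

lemma T_meas (K : Set (Sym2 V)) (x y : V) : Measurable fun t : Conf => T t K x y := by
  set S := {p : Σ L : ℕ, Fin L → Fin 4 | PathIn K x y (walk x p.2) p.1}
  have : (fun t : Conf => T t K x y) = fun t => ⨅ p : S, cost t (walk x p.1.2) p.1.1 := by
    funext t
    unfold T
    rw [iInf]
    congr 1
    ext r
    simp only [Set.mem_setOf_eq, Set.mem_range, Subtype.exists]
    constructor
    · rintro ⟨v, L, h, rfl⟩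
      obtain ⟨d, hd⟩ := exists_walk h.path
      have e := congrFun (walk_eq hd) t
      rw [h.first] at e hd
      refine ⟨⟨L, d⟩, ⟨fun k hk => ?_, fun k hk => ?_, ?_, ?_⟩, e⟩
      · rw [hd k hk.le, hd (k + 1) hk]; exact h.path k hk
      · rw [hd k hk.le, hd (k + 1) hk]; exact h.mem k hk
      · rw [hd 0 (Nat.zero_le _)]; exact h.first
      · rw [hd L le_rfl]; exact h.last
    · rintro ⟨⟨L, d⟩, h, rfl⟩
      exact ⟨walk x d, L, h, rfl⟩
  rw [this]
  exact Measurable.iInf fun p => cost_meas _ _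

lemma Tf_meas (x y : V) : Measurable fun t : Conf => Tf t x y := T_meas _ x y

lemma isGeo_meas (v : ℕ → V) (L : ℕ) : MeasurableSet {t : Conf | IsGeo t v L} := by
  by_cases hp : IsPath v L
  swap
  · have : {t : Conf | IsGeo t v L} = ∅ := by ext t; simp [IsGeo, hp]
    rw [this]; exact MeasurableSet.empty
  have : {t : Conf | IsGeo t v L} = ⋂ p ∈ {p : Σ M : ℕ, Fin M → Fin 4 |
      IsPath (walk (v 0) p.2) p.1 ∧ walk (v 0) p.2 p.1 = v L},
      {t | cost t v L ≤ cost t (walk (v 0) p.2) p.1} := by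
    ext t
    simp only [IsGeo, Set.mem_setOf_eq, Set.mem_iInter, hp, true_and]
    refine ⟨fun h p hq => h _ _ hq.1 (by simp [walk]) hq.2, fun h w M hw h0 hM => ?_⟩
    obtain ⟨d, hd⟩ := exists_walk hw
    have e := congrFun (walk_eq hd) t
    rw [h0] at e hd
    rw [← e]
    refine h ⟨M, d⟩ ⟨fun k hk => ?_, by rw [hd M le_rfl, hM]⟩
    rw [hd k hk.le, hd (k + 1) hk]; exact hw k hk
  rw [this]
  exact MeasurableSet.biInter (Set.to_countable _) fun p _ =>
    measurableSet_le (cost_meas v L) (cost_meas _ _)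

variable (G : Measure ℝ) [IsProbabilityMeasure G]

/-! ## Positivity -/

lemma ae_pos (h0 : G (Set.Iio 0) = 0) (hatom : ∀ x, G {x} = 0) :
    ∀ᵐ t ∂env G, ∀ e, 0 < t e := by
  refine ae_all_iff.2 fun e => ?_
  have h : ∀ᵐ x ∂G, (0 : ℝ) < x := by
    rw [ae_iff]
    have : {x : ℝ | ¬ 0 < x} = Set.Iio 0 ∪ {0} := by
      ext x
      simp only [Set.mem_setOf_eq, not_lt, Set.mem_union, Set.mem_Iio, Set.mem_singleton_iff]
      exact le_iff_lt_or_eq
    rw [this]
    exact measure_union_null h0 (hatom 0)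
  exact (measurePreserving_eval_infinitePi (fun _ : Sym2 V => G) e).quasiMeasurePreserving.ae h

/-! ## Uniqueness -/

lemma path_edge_inj {v : ℕ → V} {L : ℕ} (hv : Set.InjOn v (Set.Iic L)) {i j : ℕ} (hi : i < L)
    (hj : j < L) (h : s(v i, v (i + 1)) = s(v j, v (j + 1))) : i = j := by
  have mem : ∀ k, k ≤ L → k ∈ Set.Iic L := fun k hk => hk
  rcases Sym2.eq_iff.1 h with ⟨a, -⟩ | ⟨a, b⟩
  · exact hv (mem i hi.le) (mem j hj.le) a
  · have := hv (mem i hi.le) (mem (j + 1) hj) a
    have := hv (mem (i + 1) hi) (mem j hj.le) b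
    omega

lemma path_eq_of_edges {v w : ℕ → V} {L M : ℕ} (hv : Set.InjOn v (Set.Iic L))
    (hw : Set.InjOn w (Set.Iic M)) (h0 : v 0 = w 0) (hL : v L = w M)
    (hsub : ∀ k < L, ∃ j < M, s(w j, w (j + 1)) = s(v k, v (k + 1))) :
    L = M ∧ ∀ k ≤ L, v k = w k := by
  have key : ∀ k ≤ L, ∀ i ≤ k, i ≤ M ∧ v i = w i := by
    intro k
    induction k with
    | zero =>
      intro _ i hi
      obtain rfl : i = 0 := by omega
      exact ⟨Nat.zero_le _, h0⟩
    | succ k ih =>
      intro hk i hi
      rcases Nat.lt_or_eq_of_le hi with h | rfl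
      · exact ih (by omega) i (by omega)
      obtain ⟨hkM, hkv⟩ := ih (by omega) k le_rfl
      obtain ⟨j, hj, he⟩ := hsub k (by omega)
      rcases Sym2.eq_iff.1 he with ⟨a, b⟩ | ⟨a, b⟩
      · obtain rfl := hw (show j ∈ Set.Iic M from hj.le) (show k ∈ Set.Iic M from hkM) (a.trans hkv)
        exact ⟨hj, b.symm⟩
      · obtain rfl := hw (show j + 1 ∈ Set.Iic M from hj) (show k ∈ Set.Iic M from hkM) (b.trans hkv)
        have := hv (show j + 1 + 1 ∈ Set.Iic L from hk) (show j ∈ Set.Iic L by simp; omega)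
          (a.symm.trans (ih (by omega) j (by omega)).2.symm)
        omega
  obtain ⟨hLM, hvL⟩ := key L le_rfl L le_rfl
  exact ⟨hw (show L ∈ Set.Iic M from hLM) (show M ∈ Set.Iic M from le_refl M) (hvL.symm.trans hL),
    fun k hk => (key L le_rfl k hk).2⟩

lemma cost_update (v : ℕ → V) (L : ℕ) (hv : Set.InjOn v (Set.Iic L)) {k : ℕ} (hk : k < L)
    (t : Conf) (y : ℝ) :
    cost (Function.update t s(v k, v (k + 1)) y) v L = cost t v L + (y - t s(v k, v (k + 1))) := by
  classical
  unfold cost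
  rw [← Finset.add_sum_erase _ _ (Finset.mem_range.2 hk),
    ← Finset.add_sum_erase _ (fun j => t s(v j, v (j + 1))) (Finset.mem_range.2 hk),
    Function.update_self]
  have : ∀ j ∈ (Finset.range L).erase k,
      Function.update t s(v k, v (k + 1)) y s(v j, v (j + 1)) = t s(v j, v (j + 1)) := by
    intro j hj
    rw [Finset.mem_erase, Finset.mem_range] at hj
    exact Function.update_of_ne (fun h => hj.1 (path_edge_inj hv hj.2 hk h)) _ _
  rw [Finset.sum_congr rfl this]
  ring

lemma cost_eq_null (hatom : ∀ x, G {x} = 0) {v w : ℕ → V} {L M k : ℕ}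
    (hv : Set.InjOn v (Set.Iic L)) (hk : k < L)
    (hne : ∀ j < M, s(w j, w (j + 1)) ≠ s(v k, v (k + 1))) :
    env G {t | cost t v L = cost t w M} = 0 := by
  classical
  set e := s(v k, v (k + 1)) with he
  have hA : MeasurableSet {t : Conf | cost t v L = cost t w M} :=
    measurableSet_eq_fun (cost_meas v L) (cost_meas w M)
  have hS : MeasurableSet {p : Conf × Conf | mix {e} p.1 p.2 ∈ {t : Conf | cost t v L = cost t w M}} :=
    mix_meas {e} hA
  rw [← mix_env G {e} hA, Measure.prod_apply hS]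
  refine (lintegral_congr fun a => ?_).trans lintegral_zero
  refine measure_mono_null (t := {b : Conf | b e = cost a w M - cost a v L + a e}) ?_ ?_
  · intro b hb
    simp only [Set.mem_preimage, Set.mem_setOf_eq] at hb ⊢
    have hu : mix {e} a b = Function.update a e (b e) := by
      funext f
      by_cases h : f = e
      · subst h; simp [mix]
      · simp [mix, h]
    have hw' : cost (Function.update a e (b e)) w M = cost a w M :=
      Finset.sum_congr rfl fun j hj => Function.update_of_ne (hne j (Finset.mem_range.1 hj)) _ _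
    rw [hu, he, cost_update v L hv hk, ← he, hw'] at hb
    linarith
  · exact ((measurePreserving_eval_infinitePi (fun _ : Sym2 V => G) e).measure_preimage
      (measurableSet_singleton _).nullMeasurableSet).trans (hatom _)

lemma ae_uniq (hatom : ∀ x, G {x} = 0) :
    ∀ᵐ t ∂env G, ∀ (v w : ℕ → V) (L M : ℕ), IsPath v L → IsPath w M →
      Set.InjOn v (Set.Iic L) → Set.InjOn w (Set.Iic M) → v 0 = w 0 → v L = w M →
      cost t v L = cost t w M → L = M ∧ ∀ k ≤ L, v k = w k := by
  have key : ∀ᵐ t ∂env G, ∀ (x : V) (L M : ℕ) (d : Fin L → Fin 4) (d' : Fin M → Fin 4),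
      Set.InjOn (walk x d) (Set.Iic L) → Set.InjOn (walk x d') (Set.Iic M) →
      walk x d L = walk x d' M → cost t (walk x d) L = cost t (walk x d') M →
      L = M ∧ ∀ k ≤ L, walk x d k = walk x d' k := by
    simp only [ae_all_iff, eventually_imp_distrib_left]
    intro x L M d d' hi hi' he
    by_cases hc : L = M ∧ ∀ k ≤ L, walk x d k = walk x d' k
    · exact Eventually.of_forall fun t _ => hc
    have hsub : ¬ ∀ k < L, ∃ j < M,
        s(walk x d' j, walk x d' (j + 1)) = s(walk x d k, walk x d (k + 1)) :=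
      fun h => hc (path_eq_of_edges hi hi' (by simp [walk]) he h)
    push Not at hsub
    obtain ⟨k, hk, hne⟩ := hsub
    filter_upwards [measure_eq_zero_iff_ae_notMem.1 (cost_eq_null G hatom hi hk hne)] with t ht h
    exact absurd h ht
  filter_upwards [key] with t ht v w L M hv hw hvi hwi h0 hL hc
  obtain ⟨d, hd⟩ := exists_walk hv
  obtain ⟨d', hd'⟩ := exists_walk hw
  have e1 := congrFun (walk_eq hd) t
  have e2 := congrFun (walk_eq hd') t
  rw [← h0] at hd' e2
  obtain ⟨hLM, h⟩ := ht (v 0) L M d d'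
    (fun a ha b hb hab => hvi ha hb (by rwa [hd a ha, hd b hb] at hab))
    (fun a ha b hb hab => hwi ha hb (by rwa [hd' a ha, hd' b hb] at hab))
    (by rw [hd L le_rfl, hd' M le_rfl, hL]) (e1.trans (hc.trans e2.symm))
  refine ⟨hLM, fun k hk => ?_⟩
  rw [← hd k hk, ← hd' k (hLM ▸ hk), h k hk]

/-! ## Long paths are expensive and mostly strong -/

lemma ae_tough (h0 : G (Set.Iio 0) = 0) (hatom : ∀ x, G {x} = 0) :
    ∀ᵐ t ∂env G, ∀ (x : V) (C : ℝ), ∃ N : ℕ, ∀ (v : ℕ → V) (L : ℕ), IsPath v L →
      Set.InjOn v (Set.Iic L) → v 0 = x → N ≤ L → C < cost t v L := by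
  obtain ⟨s1, s2, lam, hs1, hs12, hlam, -, hI⟩ := exists_thresholds G h0 hatom
  refine ae_all_iff.2 fun x => ?_
  set B : ℕ → Set Conf := fun ℓ => ⋃ d : Fin ℓ → Fin 4,
    {t | Set.InjOn (walk x d) (Set.Iic ℓ) ∧ cost t (walk x d) ℓ ≤ ℓ * s2} with hBdef
  have hB : ∀ ℓ, env G (B ℓ) ≤ ENNReal.ofReal ((1 / 4 : ℝ) ^ ℓ) := by
    intro ℓ
    refine (measure_iUnion_fintype_le _ _).trans ?_
    refine (Finset.sum_le_sum (g := fun _ => (1 / 16 : ℝ≥0∞) ^ ℓ) fun d _ => ?_).trans (le_of_eq ?_)
    · by_cases hd : Set.InjOn (walk x d) (Set.Iic ℓ)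
      · refine (measure_mono fun t ht => ht.2).trans
          (env_cheap_path G s2 lam hlam hI (fun k => s(walk x d k, walk x d (k + 1)))
            fun i hi j hj h => path_edge_inj hd hi hj h)
      · simp [hd]
    · rw [Finset.sum_const, Finset.card_univ, Fintype.card_fun, Fintype.card_fin, Fintype.card_fin,
        nsmul_eq_mul, Nat.cast_pow, ← mul_pow, ENNReal.ofReal_pow (by norm_num : (0:ℝ) ≤ 1 / 4)]
      congr 1
      rw [ENNReal.ofReal_div_of_pos (by norm_num)]
      simp only [ENNReal.ofReal_one, ENNReal.ofReal_ofNat, Nat.cast_ofNat, one_div]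
      rw [show (16 : ℝ≥0∞) = 4 * 4 by norm_num, ENNReal.mul_inv (by simp) (by simp), ← mul_assoc,
        ENNReal.mul_inv_cancel (by simp) (by simp), one_mul]
  have hsum : ∑' ℓ, env G (B ℓ) ≠ ⊤ := by
    refine ne_top_of_le_ne_top ?_ (ENNReal.tsum_le_tsum hB)
    rw [← ENNReal.ofReal_tsum_of_nonneg (fun ℓ => by positivity)
      (summable_geometric_of_lt_one (by norm_num) (by norm_num))]
    exact ENNReal.ofReal_ne_top
  filter_upwards [ae_eventually_notMem hsum] with t ht C
  obtain ⟨N, hN⟩ := eventually_atTop.1 (ht.and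
    ((tendsto_natCast_atTop_atTop.atTop_mul_const (show 0 < s2 by linarith)).eventually_gt_atTop C))
  refine ⟨N, fun v L hv hvi hvx hL => ?_⟩
  obtain ⟨h1, h2⟩ := hN L hL
  obtain ⟨d, hd⟩ := exists_walk hv
  have e := congrFun (walk_eq hd) t
  rw [hvx] at hd e
  simp only [hBdef, Set.mem_iUnion, Set.mem_setOf_eq, not_exists, not_and, not_le] at h1
  have h3 := h1 d fun a ha b hb hab => hvi ha hb (by rwa [hd a ha, hd b hb] at hab)
  linarith

lemma exists_params (h0 : G (Set.Iio 0) = 0) (hatom : ∀ x, G {x} = 0) : Nonempty (Params G) := by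
  classical
  set S := {s : ℝ | 0 < G (Set.Iio s)}
  have hne : S.Nonempty := by
    obtain ⟨s1, -, -, -, -, -, h, -⟩ := exists_thresholds G h0 hatom
    exact ⟨s1, h⟩
  have hlb : ∀ s ∈ S, 0 ≤ s := fun s hs => by
    by_contra h
    exact hs.ne' (measure_mono_null (Set.Iio_subset_Iio (not_le.1 h).le) h0)
  set a := sInf S
  have ha0 : 0 ≤ a := le_csInf hne hlb
  have hpos : ∀ s, a < s → 0 < G (Set.Iio s) := fun s hs => by
    obtain ⟨r, hr, hr'⟩ := exists_lt_of_csInf_lt hne hs
    exact lt_of_lt_of_le hr (measure_mono (Set.Iio_subset_Iio hr'.le))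
  have hle : G (Set.Iio a) = 0 := by
    have : Set.Iio a = ⋃ n : ℕ, Set.Iio (a - 1 / (n + 1)) := by
      ext x
      simp only [Set.mem_Iio, Set.mem_iUnion]
      refine ⟨fun hx => ?_, fun ⟨n, hn⟩ => hn.trans (sub_lt_self _ (by positivity))⟩
      obtain ⟨n, hn⟩ := exists_nat_one_div_lt (sub_pos.2 hx)
      exact ⟨n, by linarith⟩
    rw [this]
    refine measure_iUnion_null fun n => ?_
    by_contra hn
    have := csInf_le ⟨0, hlb⟩ (show a - 1 / ((n : ℝ) + 1) ∈ S from pos_iff_ne_zero.2 hn)
    have : (0 : ℝ) < 1 / (n + 1) := by positivity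
    linarith
  have hIic : G (Set.Iic a) = 0 := by
    rw [← Set.Iio_union_right]
    exact measure_union_null hle (hatom a)
  have hlim : Tendsto (fun n : ℕ => G (Set.Iio (a + 1 / (n + 1)))) atTop (𝓝 0) := by
    have h := tendsto_measure_iInter_atTop (μ := G) (s := fun n : ℕ => Set.Iio (a + 1 / (n + 1)))
      (fun n => measurableSet_Iio.nullMeasurableSet) (fun m n h => Set.Iio_subset_Iio (by gcongr))
      ⟨0, measure_ne_top _ _⟩
    have : ⋂ n : ℕ, Set.Iio (a + 1 / ((n : ℝ) + 1)) = Set.Iic a := by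
      ext x
      simp only [Set.mem_iInter, Set.mem_Iio, Set.mem_Iic]
      refine ⟨fun hx => ?_, fun hx n => lt_of_le_of_lt hx (lt_add_of_pos_right _ (by positivity))⟩
      by_contra h
      obtain ⟨n, hn⟩ := exists_nat_one_div_lt (sub_pos.2 (not_le.1 h))
      linarith [hx n]
    rwa [this, hIic] at h
  obtain ⟨n, hn⟩ := (hlim.eventually (gt_mem_nhds (show (0 : ℝ≥0∞) < 1 / 256 by simp))).exists
  set θ := a + 1 / ((n : ℝ) + 1) with hθ
  have hθa : a < θ := lt_add_of_pos_right _ (by positivity)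
  refine ⟨⟨θ, a + 1 / ((n : ℝ) + 2), ?_, ?_, hpos _ (lt_add_of_pos_right _ (by positivity)), ?_, ?_⟩⟩
  · have : (0 : ℝ) < 1 / ((n : ℝ) + 2) := by positivity
    linarith
  · rw [hθ]
    gcongr
    linarith
  · by_contra h
    have h' : G (Set.Ici θ) = 0 := le_antisymm (not_lt.1 h) zero_le
    have := measure_univ (μ := G)
    rw [← Set.Iio_union_Ici (a := θ)] at this
    have h2 := (this.symm.trans_le (measure_union_le _ _))
    rw [h', add_zero] at h2
    exact absurd (h2.trans hn.le) (by simp)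
  · have hq : ∀ (x : V) (L : ℕ) (d : Fin L → Fin 4), env G {t | Set.InjOn (walk x d) (Set.Iic L) ∧
        2 * ((Finset.range L).filter fun k => θ ≤ t s(walk x d k, walk x d (k + 1))).card < L} ≤
        (1 / 8 : ℝ≥0∞) ^ L := by
      intro x L d
      by_cases hi : Set.InjOn (walk x d) (Set.Iic L)
      swap
      · simp [hi]
      set e : ℕ → Sym2 V := fun k => s(walk x d k, walk x d (k + 1))
      have hsub : {t : Conf | Set.InjOn (walk x d) (Set.Iic L) ∧
          2 * ((Finset.range L).filter fun k => θ ≤ t (e k)).card < L} ⊆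
          ⋃ T ∈ (Finset.range L).powerset.filter (fun T => L ≤ 2 * T.card),
            {t | ∀ f ∈ T.image e, t f < θ} := by
        rintro t ⟨-, ht⟩
        simp only [Set.mem_iUnion, Finset.mem_filter, Finset.mem_powerset, Set.mem_setOf_eq]
        refine ⟨(Finset.range L).filter fun k => ¬ θ ≤ t (e k), ⟨Finset.filter_subset _ _, ?_⟩, ?_⟩
        · have := Finset.card_filter_add_card_filter_not (s := Finset.range L)
            fun k => θ ≤ t (e k)
          rw [Finset.card_range] at this
          omega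
        · intro f hf
          obtain ⟨k, hk, rfl⟩ := Finset.mem_image.1 hf
          exact not_le.1 (Finset.mem_filter.1 hk).2
      refine (measure_mono hsub).trans ((measure_biUnion_finset_le _ _).trans ?_)
      refine (Finset.sum_le_sum (g := fun _ => (1 / 16 : ℝ≥0∞) ^ L) fun T hT => ?_).trans ?_
      · rw [Finset.mem_filter, Finset.mem_powerset] at hT
        rw [env_low, Finset.card_image_of_injOn fun i hi' j hj h => path_edge_inj hi
          (Finset.mem_range.1 (hT.1 hi')) (Finset.mem_range.1 (hT.1 hj)) h]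
        refine (pow_le_pow_left' hn.le _).trans ?_
        rw [show (1 / 256 : ℝ≥0∞) = (1 / 16) ^ 2 by
          simp only [one_div, ← ENNReal.inv_pow]; norm_num, ← pow_mul]
        exact pow_le_pow_right_of_le_one' (by simp) hT.2
      · rw [Finset.sum_const, nsmul_eq_mul]
        refine (mul_le_mul' (Nat.cast_le.2 ((Finset.card_filter_le _ _).trans
          (le_of_eq (by rw [Finset.card_powerset, Finset.card_range] : _ = 2 ^ L)))) le_rfl).trans
          (le_of_eq ?_)
        rw [Nat.cast_pow, ← mul_pow]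
        congr 1
        rw [one_div, one_div, show (16 : ℝ≥0∞) = 2 * 8 by norm_num,
          ENNReal.mul_inv (by simp) (by simp), ← mul_assoc, Nat.cast_ofNat,
          ENNReal.mul_inv_cancel (by simp) (by simp), one_mul]
    have hbd : ∀ m : ℕ, (m : ℝ≥0∞) ^ 4 * env G (LongGood θ m)ᶜ ≤
        ENNReal.ofReal ((m : ℝ) ^ 4 * (8 * m + 1) ^ 2 * (2 * (1 / 2) ^ m)) := by
      intro m
      set st : Finset V := Finset.Icc (-(4 * (m : ℤ))) (4 * m) ×ˢ Finset.Icc (-(4 * (m : ℤ))) (4 * m)
      have hsub : (LongGood θ m)ᶜ ⊆ ⋃ x ∈ st, ⋃ j : ℕ, ⋃ d : Fin (m + j) → Fin 4,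
          {t | Set.InjOn (walk x d) (Set.Iic (m + j)) ∧ 2 * ((Finset.range (m + j)).filter fun k =>
            θ ≤ t s(walk x d k, walk x d (k + 1))).card < m + j} := by
        intro t ht
        simp only [LongGood, Set.mem_compl_iff, Set.mem_setOf_eq, not_forall, not_le] at ht
        obtain ⟨v, L, hv, hvi, hbox, hmL, hlt⟩ := ht
        obtain ⟨j, rfl⟩ : ∃ j, L = m + j := ⟨L - m, by omega⟩
        obtain ⟨d, hd⟩ := exists_walk hv
        simp only [Set.mem_iUnion]
        refine ⟨v 0, ?_, j, d, ?_⟩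
        · simp only [box, Set.mem_setOf_eq, Prod.fst_zero, Prod.snd_zero, sub_zero, abs_le] at hbox
          simp only [st, Finset.mem_product, Finset.mem_Icc]
          push_cast at hbox
          omega
        · have : ((Finset.range (m + j)).filter fun k =>
              θ ≤ t s(walk (v 0) d k, walk (v 0) d (k + 1))) =
              (Finset.range (m + j)).filter fun k => θ ≤ t s(v k, v (k + 1)) :=
            Finset.filter_congr fun k hk => by
              rw [hd k (Finset.mem_range.1 hk).le, hd (k + 1) (Finset.mem_range.1 hk)]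
          rw [Set.mem_setOf_eq]
          refine ⟨fun a ha b hb hab => hvi ha hb (by rwa [hd a ha, hd b hb] at hab), ?_⟩
          rw [this]
          exact hlt
      have hone : ∀ x : V, env G (⋃ j : ℕ, ⋃ d : Fin (m + j) → Fin 4,
          {t | Set.InjOn (walk x d) (Set.Iic (m + j)) ∧ 2 * ((Finset.range (m + j)).filter fun k =>
            θ ≤ t s(walk x d k, walk x d (k + 1))).card < m + j}) ≤
          ENNReal.ofReal (2 * (1 / 2) ^ m) := by
        intro x
        refine (measure_iUnion_le _).trans ((ENNReal.tsum_le_tsum fun j =>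
          (measure_iUnion_fintype_le _ _).trans (Finset.sum_le_sum fun d _ => hq x (m + j) d)).trans ?_)
        simp only [Finset.sum_const, Finset.card_univ, Fintype.card_fun, Fintype.card_fin,
          nsmul_eq_mul, Nat.cast_pow, Nat.cast_ofNat]
        simp only [← mul_pow]
        have h48 : (4 : ℝ≥0∞) * (1 / 8) = 2⁻¹ := by
          rw [one_div, show (8 : ℝ≥0∞) = 4 * 2 by norm_num, ENNReal.mul_inv (by simp) (by simp),
            ← mul_assoc, ENNReal.mul_inv_cancel (by simp) (by simp), one_mul]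
        simp only [h48, pow_add, ENNReal.tsum_mul_left]
        rw [ENNReal.tsum_geometric, ENNReal.one_sub_inv_two, inv_inv,
          ENNReal.ofReal_mul zero_le_two, ENNReal.ofReal_pow (by norm_num), mul_comm,
          ENNReal.ofReal_div_of_pos two_pos]
        simp
      refine (mul_le_mul' le_rfl ((measure_mono hsub).trans ((measure_biUnion_finset_le _ _).trans
        (Finset.sum_le_sum fun x _ => hone x)))).trans (le_of_eq ?_)
      rw [Finset.sum_const, nsmul_eq_mul, ← ENNReal.ofReal_natCast m,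
        ← ENNReal.ofReal_pow (by positivity), ← ENNReal.ofReal_natCast st.card,
        ← ENNReal.ofReal_mul (by positivity), ← ENNReal.ofReal_mul (by positivity), ← mul_assoc]
      have hc : ((st.card : ℕ) : ℝ) = (8 * m + 1) ^ 2 := by
        simp only [st, Finset.card_product, Int.card_Icc]
        rw [show (4 * (m : ℤ) + 1 - -(4 * (m : ℤ))).toNat = 8 * m + 1 by omega]
        push_cast; ring
      rw [hc]
    refine tendsto_of_tendsto_of_tendsto_of_le_of_le tendsto_const_nhds ?_ (fun _ => zero_le) hbd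
    rw [← ENNReal.ofReal_zero]
    refine ENNReal.tendsto_ofReal (squeeze_zero (fun m => by positivity) (fun m => ?_)
      (by simpa only [mul_zero] using (tendsto_pow_const_mul_const_pow_of_lt_one 6
        (show (0 : ℝ) ≤ 1 / 2 by norm_num) (by norm_num)).const_mul 162))
    rcases m.eq_zero_or_pos with rfl | hm
    · simp
    · have : (1 : ℝ) ≤ m := by exact_mod_cast hm
      have h9 : (8 * (m : ℝ) + 1) ^ 2 ≤ (9 * m) ^ 2 := pow_le_pow_left₀ (by positivity) (by linarith) 2
      calc (m : ℝ) ^ 4 * (8 * m + 1) ^ 2 * (2 * (1 / 2) ^ m)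
          ≤ (m : ℝ) ^ 4 * (9 * m) ^ 2 * (2 * (1 / 2) ^ m) := by gcongr
        _ = 162 * ((m : ℝ) ^ 6 * (1 / 2) ^ m) := by ring

/-- A typical configuration is nondegenerate. -/
theorem ok_stmt : OKStmt G := fun h0 hatom => by
  refine ⟨?_, exists_params G h0 hatom⟩
  filter_upwards [ae_pos G h0 hatom, ae_uniq G hatom, ae_tough G h0 hatom] with t h1 h2 h3
  exact ⟨h1, h2, h3⟩

end Vale.Agent.P158.NB
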