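import Vale.Agent.P158.NB.RingDet

/-!
# P158: random domains

An edge is bad if the absolute value of its weight exceeds `M`. The domain is the square of
radius `n` together with the faces joined to it by chains of faces across bad edges; the chains
die out exponentially, and no edge on the boundary of the domain is bad.
-/

namespace Vale.Agent.P158.NB

open Vale.Agent.P158 MeasureTheory Filter Topology
open scoped ENNReal

/-- The edge between two adjacent faces. -/
def dE (f g : V) : Sym2 V :=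
  if f.1 = g.1 then hE (f.1, max f.2 g.2) else vE (max f.1 g.1, f.2)

lemma dE_touch {f g : V} (h : Adj f g) : touch (dE f g) g := by
  obtain ⟨a, b⟩ := f
  obtain ⟨c, d⟩ := g
  rcases adj_cases h with ⟨h1, h2⟩ | ⟨h1, h2⟩ | ⟨h1, h2⟩ | ⟨h1, h2⟩ <;> simp only at h1 h2 <;>
    subst h1 h2 <;> simp only [dE, touch] <;> split_ifs <;> first | (simp; done) | omega

lemma adj_of_touch {e : Sym2 V} {f g : V} (hf : touch e f) (hg : touch e g) (hne : f ≠ g) :
    Adj f g ∧ e = dE f g := by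
  obtain ⟨a, b⟩ := f
  obtain ⟨c, d⟩ := g
  have hne' : a ≠ c ∨ b ≠ d := by
    by_contra h
    push Not at h
    exact hne (Prod.ext h.1 h.2)
  rcases hf with rfl | rfl | rfl | rfl
  all_goals
    first | rw [touch_vE] at hg | rw [touch_hE] at hg
    simp only [Prod.mk.injEq] at hg
  · obtain ⟨rfl, rfl⟩ : c = a - 1 ∧ d = b := by omega
    simp [Adj, dE, eq_sub_iff_add_eq]
  · obtain ⟨rfl, rfl⟩ : c = a + 1 ∧ d = b := by omega
    simp [Adj, dE]
  · obtain ⟨rfl, rfl⟩ : c = a ∧ d = b - 1 := by omega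
    simp [Adj, dE]
  · obtain ⟨rfl, rfl⟩ : c = a ∧ d = b + 1 := by omega
    simp [Adj, dE]

lemma dE_inj {v : ℕ → V} {k i j : ℕ} (hv : IsPath v k) (hi : Set.InjOn v (Set.Iic k)) (hik : i < k)
    (hjk : j < k) (h : dE (v i) (v (i + 1)) = dE (v j) (v (j + 1))) : i = j := by
  have key : ∀ a b c d : V, Adj a b → Adj c d → dE a b = dE c d →
      (a = c ∧ b = d) ∨ (a = d ∧ b = c) := by
    rintro ⟨a1, a2⟩ ⟨b1, b2⟩ ⟨c1, c2⟩ ⟨d1, d2⟩ hab hcd he
    have := adj_cases hab
    have := adj_cases hcd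
    simp only [dE] at he
    split_ifs at he <;> simp only [vE, hE, Sym2.eq_iff, Prod.mk.injEq] at * <;> omega
  rcases key _ _ _ _ (hv i hik) (hv j hjk) h with ⟨h1, -⟩ | ⟨h1, h2⟩
  · exact hi (show i ≤ k by omega) (show j ≤ k by omega) h1
  · have := hi (show i ≤ k by omega) (show j + 1 ≤ k by omega) h1
    have := hi (show i + 1 ≤ k by omega) (show j ≤ k by omega) h2
    omega

variable (M : ℝ) (n : ℕ)

/-- A step of a chain: to a face of the annulus, across a bad edge. -/
def Step (t : Conf) (f g : V) : Prop :=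
  Adj f g ∧ g ∈ sqFaces (2 * n - 1) \ sqFaces n ∧ M < |t (dE f g)|

/-- The face is joined to the inner square by a chain. -/
def InU (t : Conf) (g : V) : Prop :=
  ∃ (k : ℕ) (c : ℕ → V), c 0 ∈ sqFaces n ∧ c k = g ∧ ∀ i < k, Step M n t (c i) (c (i + 1))

open Classical in
/-- The domain. -/
noncomputable def dom (t : Conf) : Finset V :=
  (sqFaces n ∪ sqFaces (2 * n - 1)).filter (InU M n t)

variable {M n}

lemma mem_dom {t : Conf} {g : V} : g ∈ dom M n t ↔ InU M n t g := by
  classical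
  refine ⟨fun h => (Finset.mem_filter.1 h).2, fun h => Finset.mem_filter.2 ⟨?_, h⟩⟩
  obtain ⟨k, c, h0, rfl, hs⟩ := h
  rcases k with _ | k
  · exact Finset.mem_union_left _ h0
  · exact Finset.mem_union_right _ (Finset.mem_sdiff.1 (hs k k.lt_succ_self).2.1).1

lemma sq_subset_dom (t : Conf) : sqFaces n ⊆ dom M n t := fun g hg =>
  mem_dom.2 ⟨0, fun _ => g, hg, rfl, fun i hi => absurd hi (Nat.not_lt_zero i)⟩

lemma InU.snoc {t : Conf} {f g : V} (h : InU M n t f) (hs : Step M n t f g) : InU M n t g := by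
  obtain ⟨k, c, h0, rfl, hc⟩ := h
  refine ⟨k + 1, fun i => if i ≤ k then c i else g, by simpa using h0, by simp, fun i hi => ?_⟩
  rcases (show i ≤ k by omega).eq_or_lt with rfl | hik
  · simpa using hs
  · simp only [if_pos hik.le, if_pos (show i + 1 ≤ k by omega)]
    exact hc i hik

lemma step_congr {t t' : Conf} (h : ∀ e ∈ edgesIn (box 0 (2 * n) \ box 0 n), t e = t' e) {f g : V}
    (hs : Step M n t f g) : Step M n t' f g := by
  obtain ⟨ha, hg, hM⟩ := hs
  refine ⟨ha, hg, ?_⟩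
  rwa [← h _ fun v hv => ?_]
  have := around_of_touch (dE_touch ha) hv
  obtain ⟨v1, v2⟩ := v
  obtain ⟨g1, g2⟩ := g
  simp only [sqFaces, Finset.mem_sdiff, Finset.mem_product, Finset.mem_Icc] at hg
  simp only [around] at this
  simp only [box, Set.mem_sdiff, Set.mem_ofPred_eq, Prod.fst_zero, Prod.snd_zero, sub_zero, abs_le]
  push_cast
  omega

lemma inU_congr {t t' : Conf} (h : ∀ e ∈ edgesIn (box 0 (2 * n) \ box 0 n), t e = t' e) {g : V}
    (hg : InU M n t g) : InU M n t' g := by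
  obtain ⟨k, c, h0, hk, hs⟩ := hg
  exact ⟨k, c, h0, hk, fun i hi => step_congr h (hs i hi)⟩

lemma dom_congr {t t' : Conf} (h : ∀ e ∈ edgesIn (box 0 (2 * n) \ box 0 n), t e = t' e) :
    dom M n t = dom M n t' := by
  ext g
  rw [mem_dom, mem_dom]
  exact ⟨inU_congr h, inU_congr fun e he => (h e he).symm⟩

lemma inU_meas (M : ℝ) (n : ℕ) (g : V) : MeasurableSet {t : Conf | InU M n t g} := by
  have : {t : Conf | InU M n t g} = ⋃ (k : ℕ) (x : V) (d : Fin k → Fin 4),
      {_t : Conf | x ∈ sqFaces n ∧ walk x d k = g} ∩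
        ⋂ i ∈ Finset.range k, {t | Step M n t (walk x d i) (walk x d (i + 1))} := by
    ext t
    simp only [Set.mem_ofPred_eq, Set.mem_iUnion, Set.mem_inter_iff, Set.mem_iInter,
      Finset.mem_range]
    constructor
    · rintro ⟨k, c, h0, hk, hs⟩
      obtain ⟨d, hd⟩ := exists_walk (v := c) (fun i hi => (hs i hi).1)
      refine ⟨k, c 0, d, ⟨h0, by rw [hd k le_rfl, hk]⟩, fun i hi => ?_⟩
      rw [hd i hi.le, hd (i + 1) hi]
      exact hs i hi
    · rintro ⟨k, x, d, ⟨h0, hk⟩, hs⟩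
      exact ⟨k, walk x d, by simpa [walk] using h0, hk, hs⟩
  rw [this]
  refine MeasurableSet.iUnion fun k => MeasurableSet.iUnion fun x => MeasurableSet.iUnion fun d =>
    (MeasurableSet.const _).inter (Finset.measurableSet_biInter _ fun i _ => ?_)
  exact (MeasurableSet.const _).inter ((MeasurableSet.const _).inter
    (measurableSet_lt measurable_const (measurable_pi_apply _).abs))

lemma dom_meas (M : ℝ) (n : ℕ) (P : Finset V → Prop) :
    MeasurableSet {t : Conf | P (dom M n t)} := by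
  have : {t : Conf | P (dom M n t)} =
      ⋃ W ∈ {W | P W}, ⋂ g : V, {t | InU M n t g ↔ g ∈ W} := by
    ext t
    simp only [Set.mem_ofPred_eq, Set.mem_iUnion, Set.mem_iInter, exists_prop]
    refine ⟨fun h => ⟨_, h, fun g => mem_dom.symm⟩, ?_⟩
    rintro ⟨W, hW, h⟩
    have : dom M n t = W := Finset.ext fun g => mem_dom.trans (h g)
    rwa [this]
  rw [this]
  refine MeasurableSet.biUnion (Set.to_countable _) fun W _ => MeasurableSet.iInter fun g => ?_
  by_cases hg : g ∈ W
  · simpa [hg] using inU_meas M n g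
  · simp only [hg, iff_false]
    exact (inU_meas M n g).compl

/-! ## The cycle -/

lemma exists_cyc : Nonempty Cyc := by
  obtain ⟨C, -⟩ := exists_ring_cycle (n := 0) (r := 0) (R := 1) le_rfl
    (U := sqFaces 0) subset_rfl fun f hf => by
      simp only [sqFaces, Finset.mem_product, Finset.mem_Icc] at hf
      simp only [box, Set.mem_ofPred_eq, Prod.fst_zero, Prod.snd_zero, sub_zero, abs_le]
      omega
  exact ⟨C⟩

/-- What is asked of the cycle of a domain. -/
def CycSpec (n : ℕ) (U : Finset V) (C : Cyc) : Prop :=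
  C.Encloses 0 n ∧ (∀ k < C.m, C.c k ∈ box 0 (2 * n)) ∧
    (∀ k < C.m, Bd U s(C.c k, C.c (k + 1))) ∧ C.m ≤ 4 * (2 * n + 2) + 4 * (U \ sqFaces n).card

open Classical in
/-- The cycle of a domain. -/
noncomputable def cycOf (n : ℕ) (U : Finset V) : Cyc :=
  if h : ∃ C, CycSpec n U C then h.choose else Classical.choice exists_cyc

lemma cycOf_spec (hn : 2 ≤ n) {t : Conf} (hg : dom M n t ⊆ sqFaces (2 * n - 2)) :
    CycSpec n (dom M n t) (cycOf n (dom M n t)) := by
  have h : ∃ C, CycSpec n (dom M n t) C := by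
    refine exists_ring_cycle le_rfl (sq_subset_dom t) fun f hf => ?_
    have := hg hf
    obtain ⟨f1, f2⟩ := f
    simp only [sqFaces, Finset.mem_product, Finset.mem_Icc] at this
    simp only [box, Set.mem_ofPred_eq, Prod.fst_zero, Prod.snd_zero, sub_zero, abs_le]
    push_cast
    omega
  rw [cycOf, dif_pos h]
  exact h.choose_spec

lemma bd_good (hn : 2 ≤ n) {t : Conf} (hg : dom M n t ⊆ sqFaces (2 * n - 2)) {e : Sym2 V}
    (h : Bd (dom M n t) e) : |t e| ≤ M := by
  obtain ⟨f, g, hf, hg', hfU, hgU⟩ := h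
  obtain ⟨ha, rfl⟩ := adj_of_touch hf hg' fun h => hgU (h ▸ hfU)
  by_contra hM
  refine hgU (mem_dom.2 ((mem_dom.1 hfU).snoc ⟨ha, Finset.mem_sdiff.2
    ⟨?_, fun hh => hgU (sq_subset_dom t hh)⟩, not_le.1 hM⟩))
  have := hg hfU
  have := adj_cases ha
  obtain ⟨f1, f2⟩ := f
  obtain ⟨g1, g2⟩ := g
  simp only [sqFaces, Finset.mem_product, Finset.mem_Icc] at *
  omega

/-! ## Chains die out -/

/-- A lower bound for the number of steps to the inner square. -/
def dist' (n : ℕ) (g : V) : ℕ :=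
  max (max (g.1 - n).toNat (-(n : ℤ) - 1 - g.1).toNat) (max (g.2 - n).toNat (-(n : ℤ) - 1 - g.2).toNat)

lemma dist'_le {v : ℕ → V} {k : ℕ} (hv : IsPath v k) (hk : v k ∈ sqFaces n) :
    dist' n (v 0) ≤ k := by
  have h : ∀ i ≤ k, |(v i).1 - (v 0).1| ≤ i ∧ |(v i).2 - (v 0).2| ≤ i := by
    intro i
    induction i with
    | zero => simp
    | succ i ih =>
      intro hi
      have := adj_cases (hv i (by omega))
      obtain ⟨h1, h2⟩ := ih (by omega)
      rw [abs_le] at h1 h2 ⊢
      rw [abs_le]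
      push_cast
      omega
  obtain ⟨h1, h2⟩ := h k le_rfl
  rw [abs_le] at h1 h2
  simp only [sqFaces, Finset.mem_product, Finset.mem_Icc] at hk
  simp only [dist']
  omega

lemma exists_simple_chain {t : Conf} {g : V} (h : InU M n t g) :
    ∃ (k : ℕ) (v : ℕ → V), v 0 = g ∧ v k ∈ sqFaces n ∧ IsPath v k ∧ Set.InjOn v (Set.Iic k) ∧
      ∀ i < k, M < |t (dE (v i) (v (i + 1)))| := by
  classical
  obtain ⟨c, h0, hk, hs⟩ := Nat.find_spec h
  set k := Nat.find h
  have hinj : Set.InjOn c (Set.Iic k) := by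
    have main : ∀ a b, a < b → b ≤ k → c a ≠ c b := by
      intro a b hab hbk he
      refine Nat.find_min h (show k - (b - a) < k by omega)
        ⟨fun i => if i ≤ a then c i else c (i + (b - a)), by simpa using h0, ?_, fun i hi => ?_⟩
      · dsimp only
        split_ifs with h1
        · rw [← hk, show k - (b - a) = a by omega, he, show b = k by omega]
        · rw [show k - (b - a) + (b - a) = k by omega, hk]
      · rcases lt_trichotomy i a with h1 | rfl | h1
        · simp only [if_pos h1.le, if_pos (show i + 1 ≤ a by omega)]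
          exact hs i (by omega)
        · simp only [if_pos le_rfl, if_neg (show ¬ i + 1 ≤ i by omega), he]
          rw [show i + 1 + (b - i) = b + 1 by omega]
          exact hs b (by omega)
        · simp only [if_neg (show ¬ i ≤ a by omega), if_neg (show ¬ i + 1 ≤ a by omega)]
          rw [show i + 1 + (b - a) = i + (b - a) + 1 by omega]
          exact hs _ (by omega)
    intro a ha b hb he
    simp only [Set.mem_Iic] at ha hb
    rcases lt_trichotomy a b with h1 | h1 | h1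
    exacts [absurd he (main a b h1 hb), h1, absurd he.symm (main b a h1 ha)]
  refine ⟨k, Vale.Agent.P158.rev c k, by simp [Vale.Agent.P158.rev, hk],
    by simpa [Vale.Agent.P158.rev] using h0, fun i hi => ?_, fun a ha b hb he => ?_, fun i hi => ?_⟩
  · have := adj_comm (hs (k - (i + 1)) (by omega)).1
    rwa [show k - (i + 1) + 1 = k - i by omega] at this
  · simp only [Set.mem_Iic] at ha hb
    have := hinj (show k - a ∈ Set.Iic k by simp) (show k - b ∈ Set.Iic k by simp) he
    omega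
  · obtain ⟨ha, -, hM⟩ := hs (k - (i + 1)) (by omega)
    rw [show k - (i + 1) + 1 = k - i by omega] at hM ha
    simp only [Vale.Agent.P158.rev]
    have hfst : touch (dE (c (k - (i + 1))) (c (k - i))) (c (k - (i + 1))) := by
      revert ha
      generalize c (k - (i + 1)) = p
      generalize c (k - i) = q
      intro hpq
      obtain ⟨a, b⟩ := p
      obtain ⟨x, y⟩ := q
      rcases adj_cases hpq with ⟨h1, h2⟩ | ⟨h1, h2⟩ | ⟨h1, h2⟩ | ⟨h1, h2⟩ <;>
        simp only at h1 h2 <;> subst h1 h2 <;> simp only [dE, touch] <;> split_ifs <;>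
        simp
    obtain ⟨-, e⟩ := adj_of_touch (dE_touch ha) hfst (fun he => by simp [Adj, he] at ha)
    rwa [← e]

variable {G : Measure ℝ} [IsProbabilityMeasure G]

lemma inU_prob (hp : 4 * G {x | M < |x|} ≤ (2⁻¹ : ℝ≥0∞) ^ 2) (g : V) :
    env G {t | InU M n t g} ≤ 2 * (2⁻¹ : ℝ≥0∞) ^ (2 * dist' n g) := by
  classical
  set p := G {x | M < |x|}
  have hm : MeasurableSet {x : ℝ | M < |x|} :=
    measurableSet_lt measurable_const measurable_id.abs
  have hq : ∀ (L : ℕ) (d : Fin L → Fin 4), env G {t | IsPath (walk g d) L ∧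
      Set.InjOn (walk g d) (Set.Iic L) ∧
      ∀ i < L, M < |t (dE (walk g d i) (walk g d (i + 1)))|} ≤ p ^ L := by
    intro L d
    by_cases hw : IsPath (walk g d) L ∧ Set.InjOn (walk g d) (Set.Iic L)
    swap
    · simp [← and_assoc, hw]
    set F := (Finset.range L).image fun i => dE (walk g d i) (walk g d (i + 1))
    have hF : F.card = L := by
      rw [Finset.card_image_of_injOn, Finset.card_range]
      exact fun i hi j hj h => dE_inj hw.1 hw.2 (Finset.mem_range.1 hi) (Finset.mem_range.1 hj) h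
    refine (measure_mono (t := Set.pi F fun _ => {x | M < |x|}) ?_).trans (le_of_eq ?_)
    · rintro t ⟨-, -, ht⟩ e he
      obtain ⟨i, hi, rfl⟩ := Finset.mem_image.1 (Finset.mem_coe.1 he)
      exact ht i (Finset.mem_range.1 hi)
    · unfold env
      rw [Measure.infinitePi_pi _ (fun _ _ => hm), Finset.prod_const, hF]
  have hsub : {t | InU M n t g} ⊆ ⋃ j : ℕ, ⋃ d : Fin (dist' n g + j) → Fin 4,
      {t | IsPath (walk g d) (dist' n g + j) ∧ Set.InjOn (walk g d) (Set.Iic (dist' n g + j)) ∧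
        ∀ i < dist' n g + j, M < |t (dE (walk g d i) (walk g d (i + 1)))|} := by
    intro t ht
    obtain ⟨k, v, rfl, hk, hp', hi, hb⟩ := exists_simple_chain ht
    obtain ⟨j, rfl⟩ := Nat.exists_eq_add_of_le (dist'_le hp' hk)
    obtain ⟨d, hd⟩ := exists_walk hp'
    simp only [Set.mem_iUnion]
    refine ⟨j, d, fun i h => ?_, fun a ha b hb' he => hi ha hb' ?_, fun i h => ?_⟩
    · rw [hd i h.le, hd (i + 1) h]; exact hp' i h
    · rwa [hd a ha, hd b hb'] at he
    · rw [hd i h.le, hd (i + 1) h]; exact hb i h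
  refine (measure_mono hsub).trans ((measure_iUnion_le _).trans ((ENNReal.tsum_le_tsum fun j =>
    (measure_iUnion_fintype_le _ _).trans ((Finset.sum_le_sum fun d _ => hq _ d).trans ?_)).trans
      (b := ∑' j : ℕ, (2⁻¹ : ℝ≥0∞) ^ (2 * dist' n g) * (2⁻¹) ^ j) ?_))
  · simp only [Finset.sum_const, Finset.card_univ, Fintype.card_fun, Fintype.card_fin,
      nsmul_eq_mul, Nat.cast_pow, Nat.cast_ofNat]
    rw [← mul_pow, pow_mul]
    refine (pow_le_pow_left' hp _).trans ?_
    rw [← pow_mul, ← pow_mul, ← pow_add]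
    exact pow_le_pow_right_of_le_one' (by simp) (by omega)
  · rw [ENNReal.tsum_mul_left, ENNReal.tsum_geometric, ENNReal.one_sub_inv_two, inv_inv, mul_comm]

lemma half_pow_anti {a b : ℕ} (h : a ≤ b) : (2⁻¹ : ℝ≥0∞) ^ b ≤ 2⁻¹ ^ a :=
  pow_le_pow_right_of_le_one' (by simp) h

lemma pair_prob (hp : 4 * G {x | M < |x|} ≤ (2⁻¹ : ℝ≥0∞) ^ 2) (f g : V) :
    env G {t | InU M n t f ∧ InU M n t g} ≤
      2 * ((2⁻¹ : ℝ≥0∞) ^ dist' n f * 2⁻¹ ^ dist' n g) := by
  rw [← pow_add]
  rcases le_total (dist' n f) (dist' n g) with h | h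
  · refine (measure_mono fun t ht => ht.2).trans ((inU_prob hp g).trans ?_)
    exact mul_le_mul' le_rfl (half_pow_anti (by omega))
  · refine (measure_mono fun t ht => ht.1).trans ((inU_prob hp f).trans ?_)
    exact mul_le_mul' le_rfl (half_pow_anti (by omega))

lemma sum_half_le {ι : Type*} (I : Finset ι) (ψ : ι → ℕ) (h : Set.InjOn ψ I) :
    ∑ x ∈ I, (2⁻¹ : ℝ≥0∞) ^ ψ x ≤ 2 := by
  classical
  rw [← Finset.sum_image (f := fun j => (2⁻¹ : ℝ≥0∞) ^ j) h]
  refine (ENNReal.sum_le_tsum _).trans (le_of_eq ?_)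
  rw [ENNReal.tsum_geometric, ENNReal.one_sub_inv_two, inv_inv]

lemma dist_sum (hn : 2 ≤ n) :
    ∑ g ∈ sqFaces (2 * n - 1) \ sqFaces n, (2⁻¹ : ℝ≥0∞) ^ dist' n g ≤ 32 * n := by
  classical
  set I := Finset.Icc (-((2 * n - 1 : ℕ) : ℤ) - 1) ((2 * n - 1 : ℕ) : ℤ) with hI
  set φ : ℤ → ℝ≥0∞ := fun x => (if (n : ℤ) < x then 2⁻¹ ^ (x - n).toNat else 0) +
    if x < -(n : ℤ) - 1 then 2⁻¹ ^ (-(n : ℤ) - 1 - x).toNat else 0
  have hφ : ∑ x ∈ I, φ x ≤ 2 + 2 := by
    simp only [φ, Finset.sum_add_distrib, ← Finset.sum_filter]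
    refine add_le_add (sum_half_le _ _ ?_) (sum_half_le _ _ ?_) <;>
    · intro a ha b hb h
      simp only [Finset.coe_filter, Set.mem_ofPred_eq] at ha hb
      simp only at h
      omega
  calc ∑ g ∈ sqFaces (2 * n - 1) \ sqFaces n, (2⁻¹ : ℝ≥0∞) ^ dist' n g
      ≤ ∑ g ∈ sqFaces (2 * n - 1) \ sqFaces n, (φ g.1 + φ g.2) := by
        refine Finset.sum_le_sum fun g hg => ?_
        obtain ⟨x, y⟩ := g
        simp only [sqFaces, Finset.mem_sdiff, Finset.mem_product, Finset.mem_Icc] at hg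
        simp only [φ, dist']
        have : (((n : ℤ) < x ∧ dist' n (x, y) = (x - n).toNat) ∨
            (x < -(n : ℤ) - 1 ∧ dist' n (x, y) = (-(n : ℤ) - 1 - x).toNat)) ∨
            ((n : ℤ) < y ∧ dist' n (x, y) = (y - n).toNat) ∨
            (y < -(n : ℤ) - 1 ∧ dist' n (x, y) = (-(n : ℤ) - 1 - y).toNat) := by
          simp only [dist']
          omega
        simp only [dist'] at this
        rcases this with (⟨h, he⟩ | ⟨h, he⟩) | ⟨h, he⟩ | ⟨h, he⟩ <;> rw [he, if_pos h]
        exacts [le_add_right (le_add_right le_rfl), le_add_right (le_add_left le_rfl),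
          le_add_left (le_add_right le_rfl), le_add_left (le_add_left le_rfl)]
    _ ≤ ∑ g ∈ I ×ˢ I, (φ g.1 + φ g.2) :=
        Finset.sum_le_sum_of_subset (by simp only [sqFaces, hI]; exact Finset.sdiff_subset)
    _ = I.card * ∑ x ∈ I, φ x + I.card * ∑ x ∈ I, φ x := by
        rw [Finset.sum_add_distrib, Finset.sum_product, Finset.sum_product]
        simp [Finset.mul_sum, Finset.sum_const, nsmul_eq_mul]
    _ ≤ (4 * n : ℕ) * 4 + (4 * n : ℕ) * 4 := by
        have hc : I.card = 4 * n := by rw [hI, Int.card_Icc]; omega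
        rw [hc]
        gcongr <;> exact hφ.trans (by norm_num)
    _ = 32 * n := by push_cast; ring

/-- The configurations whose domain stays in the annulus. -/
def goodSet (M : ℝ) (n : ℕ) : Set Conf := {t | 2 ≤ n ∧ dom M n t ⊆ sqFaces (2 * n - 2)}

lemma bad_prob (hp : 4 * G {x | M < |x|} ≤ (2⁻¹ : ℝ≥0∞) ^ 2) (hn : 2 ≤ n) :
    env G (goodSet M n)ᶜ ≤ 128 * ((n : ℝ≥0∞) * 2⁻¹ ^ n) := by
  classical
  set S := sqFaces (2 * n - 1) \ sqFaces n
  set S' := S.filter fun g => g ∉ sqFaces (2 * n - 2)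
  have hsub : (goodSet M n)ᶜ ⊆ ⋃ g ∈ S', {t | InU M n t g} := by
    intro t ht
    simp only [goodSet, Set.mem_compl_iff, Set.mem_ofPred_eq, hn, true_and,
      Finset.not_subset] at ht
    obtain ⟨g, hg, hg'⟩ := ht
    simp only [Set.mem_iUnion]
    have hgn : g ∉ sqFaces n := fun h => hg' (by
      simp only [sqFaces, Finset.mem_product, Finset.mem_Icc] at h ⊢
      omega)
    refine ⟨g, Finset.mem_filter.2 ⟨Finset.mem_sdiff.2 ⟨?_, hgn⟩, hg'⟩, mem_dom.1 hg⟩
    exact (Finset.mem_union.1 (Finset.mem_filter.1 hg).1).resolve_left hgn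
  refine (measure_mono hsub).trans ((measure_biUnion_finset_le _ _).trans
    ((Finset.sum_le_sum (g := fun g => 2 * 2⁻¹ ^ (n - 1) * (2⁻¹ : ℝ≥0∞) ^ dist' n g)
      fun g hg => (inU_prob hp g).trans ?_).trans ?_))
  · have h1 : n - 1 ≤ dist' n g := by
      have := (Finset.mem_filter.1 hg).2
      obtain ⟨x, y⟩ := g
      simp only [sqFaces, Finset.mem_product, Finset.mem_Icc] at this
      simp only [dist']
      omega
    rw [mul_assoc, ← pow_add]
    exact mul_le_mul' le_rfl (half_pow_anti (by omega))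
  · rw [← Finset.mul_sum]
    refine (mul_le_mul' le_rfl ((Finset.sum_le_sum_of_subset (Finset.filter_subset _ _)).trans
      (dist_sum hn))).trans (le_of_eq ?_)
    obtain ⟨m, rfl⟩ : ∃ m, n = m + 1 := ⟨n - 1, by omega⟩
    rw [Nat.add_sub_cancel, pow_succ,
      show (128 : ℝ≥0∞) = 2 * 32 * 2 by norm_num]
    have : (2 : ℝ≥0∞) * 2⁻¹ = 1 := ENNReal.mul_inv_cancel (by simp) (by simp)
    calc (2 : ℝ≥0∞) * 2⁻¹ ^ m * (32 * ((m + 1 : ℕ) : ℝ≥0∞))
        = 2 * 2⁻¹ ^ m * (32 * ((m + 1 : ℕ) : ℝ≥0∞)) * (2 * 2⁻¹) := by rw [this, mul_one]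
      _ = _ := by ring

open Classical in
lemma card_sq_le (hp : 4 * G {x | M < |x|} ≤ (2⁻¹ : ℝ≥0∞) ^ 2) (hn : 2 ≤ n) :
    ∫⁻ t, (((sqFaces (2 * n - 1) \ sqFaces n).filter (InU M n t)).card : ℝ≥0∞) ^ 2 ∂env G
      ≤ 2048 * (n : ℝ≥0∞) ^ 2 := by
  set S := sqFaces (2 * n - 1) \ sqFaces n
  have hX : ∀ t, ((S.filter (InU M n t)).card : ℝ≥0∞) ^ 2 =
      ∑ f ∈ S, ∑ g ∈ S, {t | InU M n t f ∧ InU M n t g}.indicator (fun _ => (1 : ℝ≥0∞)) t := by
    intro t
    rw [Finset.card_filter, Nat.cast_sum, sq, Finset.sum_mul_sum]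
    refine Finset.sum_congr rfl fun f _ => Finset.sum_congr rfl fun g _ => ?_
    by_cases h1 : InU M n t f <;> by_cases h2 : InU M n t g <;> simp [h1, h2]
  have hmeas : ∀ f g, MeasurableSet {t : Conf | InU M n t f ∧ InU M n t g} := fun f g =>
    (inU_meas M n f).inter (inU_meas M n g)
  simp only [hX]
  rw [lintegral_finsetSum _ fun f _ => Finset.measurable_sum _ fun g _ =>
    measurable_const.indicator (hmeas f g)]
  refine (Finset.sum_le_sum fun f _ => le_of_eq
    (lintegral_finsetSum _ fun g _ => measurable_const.indicator (hmeas f g))).trans ?_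
  simp only [lintegral_indicator_const (hmeas _ _), one_mul]
  refine (Finset.sum_le_sum fun f _ => Finset.sum_le_sum fun g _ => pair_prob hp f g).trans ?_
  simp only [← Finset.mul_sum, ← Finset.sum_mul]
  calc (2 : ℝ≥0∞) * ((∑ f ∈ S, 2⁻¹ ^ dist' n f) * ∑ g ∈ S, 2⁻¹ ^ dist' n g)
      ≤ 2 * ((32 * n) * (32 * n)) := by gcongr <;> exact dist_sum hn
    _ = 2048 * (n : ℝ≥0∞) ^ 2 := by ring

lemma sq_bound (hM : 0 ≤ M) (hn : 2 ≤ n) {t : Conf} (ht : t ∈ goodSet M n) :
    ENNReal.ofReal ((cost t (cycOf n (dom M n t)).c (cycOf n (dom M n t)).m +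
        (cycOf n (dom M n t)).m) ^ 2) ≤
      ENNReal.ofReal ((M + 1) ^ 2 * 512 * (n : ℝ) ^ 2) + ENNReal.ofReal ((M + 1) ^ 2 * 32) *
        ((dom M n t \ sqFaces n).card : ℝ≥0∞) ^ 2 := by
  obtain ⟨-, -, hbd, hm⟩ := cycOf_spec hn ht.2
  set C := cycOf n (dom M n t)
  set X := (dom M n t \ sqFaces n).card
  have hc : |cost t C.c C.m| ≤ C.m * M := by
    refine (Finset.abs_sum_le_sum_abs _ _).trans ((Finset.sum_le_card_nsmul _ _ M fun k hk =>
      bd_good hn ht.2 (hbd k (Finset.mem_range.1 hk))).trans ?_)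
    simp
  have hm' : (C.m : ℝ) ≤ 16 * n + 4 * X := by
    have : C.m ≤ 16 * n + 4 * X := by omega
    exact_mod_cast this
  rw [← ENNReal.ofReal_natCast X, ← ENNReal.ofReal_pow (by positivity),
    ← ENNReal.ofReal_mul (by positivity), ← ENNReal.ofReal_add (by positivity) (by positivity)]
  refine ENNReal.ofReal_le_ofReal ?_
  have hC : (0 : ℝ) ≤ C.m := by positivity
  calc (cost t C.c C.m + C.m) ^ 2 ≤ ((M + 1) * C.m) ^ 2 := by
        refine sq_le_sq' ?_ ?_ <;> nlinarith [abs_le.1 hc]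
    _ ≤ ((M + 1) * (16 * n + 4 * X)) ^ 2 := by gcongr
    _ ≤ _ := by nlinarith [sq_nonneg ((M + 1) * (16 * (n : ℝ) - 4 * X))]

variable (G)

/-- Random domains exist. -/
theorem ring_stmt : RingStmt G := fun _ _ => by
  classical
  obtain ⟨M, hp⟩ : ∃ M : ℕ, 4 * G {x | (M : ℝ) < |x|} ≤ (2⁻¹ : ℝ≥0∞) ^ 2 := by
    have h := tendsto_measure_iInter_atTop (μ := G) (s := fun k : ℕ => {x : ℝ | (k : ℝ) < |x|})
      (fun k => (measurableSet_lt measurable_const measurable_id.abs).nullMeasurableSet)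
      (fun a b hab x hx => by
        simp only [Set.mem_ofPred_eq] at hx ⊢
        exact lt_of_le_of_lt (Nat.cast_le.2 hab) hx) ⟨0, measure_ne_top _ _⟩
    have he : ⋂ k : ℕ, {x : ℝ | (k : ℝ) < |x|} = ∅ := by
      refine Set.eq_empty_of_forall_notMem fun x hx => ?_
      obtain ⟨k, hk⟩ := exists_nat_ge |x|
      exact absurd (Set.mem_iInter.1 hx k) (not_lt.2 hk)
    rw [he, measure_empty] at h
    have h4 := ENNReal.Tendsto.const_mul h (Or.inr (by simp : (4 : ℝ≥0∞) ≠ ∞))
    rw [mul_zero] at h4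
    obtain ⟨k, hk⟩ := (h4.eventually (gt_mem_nhds (show (0 : ℝ≥0∞) < 2⁻¹ ^ 2 from
      ENNReal.pow_pos (by simp) 2))).exists
    exact ⟨k, hk.le⟩
  have hspec : ∀ n t, t ∈ goodSet (M : ℝ) n → CycSpec n (dom (M : ℝ) n t) (cycOf n (dom M n t)) :=
    fun n t ht => cycOf_spec ht.1 ht.2
  refine ⟨{
    cyc := fun n t => cycOf n (dom M n t)
    good := goodSet M
    A := ((M : ℝ) + 1) ^ 2 * (512 + 32 * 2048)
    loc := fun n t t' h => ?_
    fin := fun n => ?_
    meas_cyc := fun n C => dom_meas M n fun W => cycOf n W = C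
    meas_good := fun n => dom_meas M n fun W => 2 ≤ n ∧ W ⊆ sqFaces (2 * n - 2)
    encl := fun n t ht => (hspec n t ht).1
    sub := fun n t ht => (hspec n t ht).2.1
    prob := ?_
    sq := fun n => ?_ }⟩
  · simp only [goodSet, Set.mem_ofPred_eq, dom_congr h, true_and]
  · refine ((sqFaces n ∪ sqFaces (2 * n - 1)).powerset.finite_toSet.image (cycOf n)).subset ?_
    rintro _ ⟨t, rfl⟩
    exact ⟨_, Finset.mem_powerset.2 (Finset.filter_subset _ _), rfl⟩
  · have hlim : Tendsto (fun n : ℕ => 128 * ((n : ℝ≥0∞) * 2⁻¹ ^ n)) atTop (𝓝 0) := by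
      have h : Tendsto (fun n : ℕ => ENNReal.ofReal (128 * ((n : ℝ) * (1 / 2) ^ n))) atTop
          (𝓝 (ENNReal.ofReal (128 * 0))) :=
        ENNReal.tendsto_ofReal ((tendsto_self_mul_const_pow_of_lt_one (by norm_num)
          (by norm_num)).const_mul _)
      rw [mul_zero, ENNReal.ofReal_zero] at h
      refine h.congr fun n => ?_
      rw [ENNReal.ofReal_mul (by norm_num), ENNReal.ofReal_mul (by positivity),
        ENNReal.ofReal_pow (by norm_num), ENNReal.ofReal_natCast,
        ENNReal.ofReal_div_of_pos two_pos]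
      simp
    refine tendsto_of_tendsto_of_tendsto_of_le_of_le' tendsto_const_nhds hlim
      (Eventually.of_forall fun _ => zero_le) ?_
    filter_upwards [eventually_ge_atTop 2] with n hn using bad_prob hp hn
  · by_cases hn : 2 ≤ n
    swap
    · simp [goodSet, hn]
    have hgood : MeasurableSet (goodSet (M : ℝ) n) :=
      dom_meas M n fun W => 2 ≤ n ∧ W ⊆ sqFaces (2 * n - 2)
    refine (setLIntegral_mono' hgood fun t ht =>
      sq_bound (Nat.cast_nonneg M) hn ht).trans ((setLIntegral_le_lintegral _ _).trans ?_)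
    rw [lintegral_add_left measurable_const, lintegral_const, measure_univ, mul_one,
      lintegral_const_mul' _ _ ENNReal.ofReal_ne_top]
    have hX : ∀ t, (dom (M : ℝ) n t \ sqFaces n).card =
        ((sqFaces (2 * n - 1) \ sqFaces n).filter (InU (M : ℝ) n t)).card := by
      intro t
      congr 1
      ext g
      simp only [dom, Finset.mem_sdiff, Finset.mem_filter, Finset.mem_union]
      tauto
    simp only [hX]
    refine (add_le_add le_rfl (mul_le_mul' le_rfl (card_sq_le hp hn))).trans (le_of_eq ?_)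
    rw [show (2048 : ℝ≥0∞) * (n : ℝ≥0∞) ^ 2 = ENNReal.ofReal (2048 * (n : ℝ) ^ 2) by
        rw [ENNReal.ofReal_mul (by norm_num), ENNReal.ofReal_pow (by positivity),
          ENNReal.ofReal_natCast]; simp,
      ← ENNReal.ofReal_mul (by positivity), ← ENNReal.ofReal_add (by positivity) (by positivity)]
    congr 1
    ring

end Vale.Agent.P158.NB
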