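import Vale.Agent.P158.NB.Prob
import Vale.Agent.P158.NB.CycGeom
import Vale.Agent.P158.NB.LineFacts

/-!
# P158 lemma J: distinct lines share no tail

Where two lines that share a tail separate there is a junction; every junction deep inside a cycle
is a merge in the tree of some mark, and merges are rare.
-/

namespace Vale.Agent.P158.NB

open Vale.Agent.P158 MeasureTheory Filter Topology
open scoped ENNReal Classical

/-- A vertex sequence continued constantly. -/
def contConst {L : ℕ} (f : Fin (L + 1) → V) (i : ℕ) : V :=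
  f ⟨min i L, Nat.lt_succ_of_le (min_le_right _ _)⟩

/-- Two geodesic segments of radius `k + 1` join at `w`. -/
def junK (k : ℕ) (w : V) : Set Conf :=
  ⋃ f : Fin (2 * k + 3) → V, ⋃ f' : Fin (2 * k + 3) → V,
    ⋃ _ : contConst f (k + 1) = w ∧ contConst f' (k + 1) = w ∧ contConst f k ≠ contConst f' k ∧
      ∀ i, k + 1 ≤ i → i ≤ 2 * k + 2 → contConst f i = contConst f' i,
      {t | IsGeo t (contConst f) (2 * k + 2)} ∩ {t | IsGeo t (contConst f') (2 * k + 2)}

/-- A junction at `w`. -/
def jun (w : V) : Set Conf := ⋂ k, junK k w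

lemma mem_junK {k : ℕ} {w : V} {t : Conf} : t ∈ junK k w ↔
    ∃ f f' : Fin (2 * k + 3) → V, contConst f (k + 1) = w ∧ contConst f' (k + 1) = w ∧
      contConst f k ≠ contConst f' k ∧
      (∀ i, k + 1 ≤ i → i ≤ 2 * k + 2 → contConst f i = contConst f' i) ∧
      IsGeo t (contConst f) (2 * k + 2) ∧ IsGeo t (contConst f') (2 * k + 2) := by
  simp only [junK, Set.mem_iUnion, Set.mem_inter_iff, Set.mem_ofPred_eq]
  constructor
  · rintro ⟨f, f', ⟨a, b, c, d⟩, e, g⟩; exact ⟨f, f', a, b, c, d, e, g⟩
  · rintro ⟨f, f', a, b, c, d, e, g⟩; exact ⟨f, f', ⟨a, b, c, d⟩, e, g⟩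

lemma jun_meas (w : V) : MeasurableSet (jun w) :=
  MeasurableSet.iInter fun _ => MeasurableSet.iUnion fun _ => MeasurableSet.iUnion fun _ =>
    MeasurableSet.iUnion fun _ => (isGeo_meas _ _).inter (isGeo_meas _ _)

lemma isGeo_congr {t : Conf} {v v' : ℕ → V} {L : ℕ} (h : ∀ i ≤ L, v i = v' i)
    (hg : IsGeo t v L) : IsGeo t v' L := by
  refine ⟨fun k hk => ?_, fun w M hw h0 hM => ?_⟩
  · rw [← h k hk.le, ← h (k + 1) hk]; exact hg.1 k hk
  · rw [cost_congr (v := v') (w := v) fun i hi => (h i hi).symm]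
    exact hg.2 w M hw (by rw [h0, h 0 (Nat.zero_le _)]) (by rw [hM, h L le_rfl])

lemma isGeo_shiftW {t : Conf} {v : ℕ → V} {L : ℕ} (z : V) :
    IsGeo (shiftW z t) v L ↔ IsGeo t (fun k => v k + z) L := by
  constructor
  · intro h
    refine ⟨isPath_add_iff.2 h.1, fun w M hw h0 hM => ?_⟩
    have := h.2 (fun k => w k - z) M ((isPath_add_iff (z := z)).1 (by simpa using hw))
      (by simp [h0]) (by simp [hM])
    simpa [cost_shiftW] using this
  · intro h
    refine ⟨isPath_add_iff.1 h.1, fun w M hw h0 hM => ?_⟩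
    have := h.2 (fun k => w k + z) M (isPath_add_iff.2 hw) (by simp [h0]) (by simp [hM])
    simpa [cost_shiftW] using this

lemma junK_shift {k : ℕ} {z : V} {t : Conf} : shiftW z t ∈ junK k 0 ↔ t ∈ junK k z := by
  simp only [mem_junK]
  constructor
  · rintro ⟨f, f', h1, h2, h3, h4, h5, h6⟩
    refine ⟨fun i => f i + z, fun i => f' i + z, ?_, ?_, ?_, fun i a b => ?_, ?_, ?_⟩
    · simpa [contConst] using h1
    · simpa [contConst] using h2
    · exact fun e => h3 (add_right_cancel (show contConst f k + z = contConst f' k + z from e))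
    · exact congrArg (· + z) (h4 i a b)
    · exact (isGeo_shiftW z).1 h5
    · exact (isGeo_shiftW z).1 h6
  · rintro ⟨f, f', h1, h2, h3, h4, h5, h6⟩
    refine ⟨fun i => f i - z, fun i => f' i - z, ?_, ?_, ?_, fun i a b => ?_, ?_, ?_⟩
    · simp only [contConst] at h1 ⊢; rw [h1, sub_self]
    · simp only [contConst] at h2 ⊢; rw [h2, sub_self]
    · exact fun e => h3 (sub_left_injective (show contConst f k - z = contConst f' k - z from e))
    · exact congrArg (· - z) (h4 i a b)
    · rw [isGeo_shiftW]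
      exact isGeo_congr (fun i _ => by simp [contConst]) h5
    · rw [isGeo_shiftW]
      exact isGeo_congr (fun i _ => by simp [contConst]) h6

lemma jun_shift (z : V) : shiftW z ⁻¹' jun 0 = jun z := by
  ext t
  simp [jun, junK_shift]

/-- Two distinct lines with a common tail have a junction. -/
lemma jun_of_lines {t : Conf} {γ δ : ℤ → V} (hγ : IsLine t γ) (hδ : IsLine t δ)
    (hs : ShareTail γ δ) (hne : ¬ SameLine γ δ) : ∃ w, t ∈ jun w := by
  obtain ⟨i, j, hij⟩ := hs
  have hex : ∃ m : ℕ, γ (i - m) ≠ δ (j - m) := by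
    by_contra hall
    push Not at hall
    have key : ∀ a : ℤ, γ a = δ (a - i + j) := by
      intro a
      rcases le_total i a with h | h
      · have := hij (a - i).toNat
        rwa [show i + ((a - i).toNat : ℤ) = a by omega,
          show j + ((a - i).toNat : ℤ) = a - i + j by omega] at this
      · have := hall (i - a).toNat
        rwa [show i - ((i - a).toNat : ℤ) = a by omega,
          show j - ((i - a).toNat : ℤ) = a - i + j by omega] at this
    refine hne fun e => ⟨?_, ?_⟩
    · rintro ⟨a, rfl⟩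
      exact ⟨a - i + j, by rw [key, key, show a + 1 - i + j = a - i + j + 1 by ring]⟩
    · rintro ⟨b, rfl⟩
      refine ⟨b + i - j, ?_⟩
      rw [key, key, show b + i - j - i + j = b by ring,
        show b + i - j + 1 - i + j = b + 1 by ring]
  have hspec : γ (i - (Nat.find hex : ℕ)) ≠ δ (j - (Nat.find hex : ℕ)) := Nat.find_spec hex
  have hbelow : ∀ m < Nat.find hex, γ (i - (m : ℕ)) = δ (j - (m : ℕ)) := fun m hm => by
    have := Nat.find_min hex hm
    simpa using this
  set m := Nat.find hex with hm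
  have hm0 : 0 < m := by
    rcases Nat.eq_zero_or_pos m with h0 | h0
    · exfalso; rw [h0] at hspec; exact hspec (by simpa using hij 0)
    · exact h0
  set i' := i - m + 1 with hi'
  set j' := j - m + 1 with hj'
  have hcommon : ∀ d : ℕ, γ (i' + d) = δ (j' + d) := by
    intro d
    by_cases hd : d + 1 ≤ m
    · have := hbelow (m - (d + 1)) (by omega)
      rwa [show i - ((m - (d + 1) : ℕ) : ℤ) = i' + d by omega,
        show j - ((m - (d + 1) : ℕ) : ℤ) = j' + d by omega] at this
    · have := hij (d + 1 - m)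
      rwa [show i + ((d + 1 - m : ℕ) : ℤ) = i' + d by omega,
        show j + ((d + 1 - m : ℕ) : ℤ) = j' + d by omega] at this
  refine ⟨γ i', Set.mem_iInter.2 fun k => mem_junK.2 ?_⟩
  refine ⟨fun l => γ (i' - (k + 1) + (l : ℕ)), fun l => δ (j' - (k + 1) + (l : ℕ)), ?_, ?_, ?_,
    fun l h1 h2 => ?_, ?_, ?_⟩
  · simp only [contConst, min_eq_left (show k + 1 ≤ 2 * k + 2 by omega)]
    congr 1
    push_cast
    ring
  · simp only [contConst, min_eq_left (show k + 1 ≤ 2 * k + 2 by omega)]
    have := hcommon 0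
    simp only [Nat.cast_zero, add_zero] at this
    rw [this]
    congr 1
    push_cast
    ring
  · simp only [contConst, min_eq_left (show k ≤ 2 * k + 2 by omega)]
    rw [show i' - ((k : ℤ) + 1) + (k : ℤ) = i - m by omega,
      show j' - ((k : ℤ) + 1) + (k : ℤ) = j - m by omega]
    exact hspec
  · simp only [contConst, min_eq_left h2]
    have := hcommon (l - (k + 1))
    rwa [show i' + ((l - (k + 1) : ℕ) : ℤ) = i' - ((k : ℤ) + 1) + l by omega,
      show j' + ((l - (k + 1) : ℕ) : ℤ) = j' - ((k : ℤ) + 1) + l by omega] at this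
  · exact isGeo_congr (fun l hl => by simp [contConst, min_eq_left hl]) (hγ.geo (i' - (k + 1)) (2 * k + 2))
  · exact isGeo_congr (fun l hl => by simp [contConst, min_eq_left hl]) (hδ.geo (j' - (k + 1)) (2 * k + 2))

namespace Cyc

/-- A long injective path from inside hits the cycle. -/
lemma hit_of_long (C : Cyc) {v : ℕ → V} {L : ℕ} (hp : IsPath v L)
    (hinj : Set.InjOn v (Set.Iic L)) (h0 : C.Deep (v 0))
    (hL : C.inner_finite.toFinset.card ≤ L) :
    ∃ l, 0 < l ∧ l ≤ L ∧ C.OnC (v l) ∧ ∀ k < l, ¬ C.OnC (v k) := by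
  have hex : ∃ l, l ≤ L ∧ C.OnC (v l) := by
    by_contra hc
    push Not at hc
    have hsub : (Finset.range (L + 1)).image v ⊆ C.inner_finite.toFinset := by
      intro x hx
      obtain ⟨l, hl, rfl⟩ := Finset.mem_image.1 hx
      rw [Finset.mem_range] at hl
      exact C.inner_finite.mem_toFinset.2
        (C.deep_path hp h0 l (by omega) fun j hj => hc j (by omega)).2.1
    have := Finset.card_le_card hsub
    rw [Finset.card_image_of_injOn (fun a ha b hb h => hinj
      (by simp only [Finset.coe_range, Set.mem_Iio] at ha; simp only [Set.mem_Iic]; omega)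
      (by simp only [Finset.coe_range, Set.mem_Iio] at hb; simp only [Set.mem_Iic]; omega) h),
      Finset.card_range] at this
    omega
  obtain ⟨h1, h2⟩ := Nat.find_spec hex
  have hoff : ∀ k < Nat.find hex, ¬ C.OnC (v k) := fun k hk hOn =>
    Nat.find_min hex hk ⟨by omega, hOn⟩
  refine ⟨Nat.find hex, ?_, h1, h2, hoff⟩
  by_contra hz
  rw [show Nat.find hex = 0 by omega] at h2
  exact h0.1 h2

/-- A geodesic segment from inside to a mark stays in the domain. -/
lemma geoIn_of_segment (C : Cyc) {t : Conf} (hpos : ∀ e, 0 < t e) {v : ℕ → V} {L a b c : ℕ}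
    (hg : IsGeo t v L) (hac : a ≤ c) (hcb : c ≤ b) (hb : b ≤ L) (hdeep : C.Deep (v c))
    (hback : ∀ k < c - a, ¬ C.OnC (v (c - k))) (hfwd : ∀ k < b - c, ¬ C.OnC (v (c + k))) :
    GeoIn t C.edges (v a) (v b) (fun k => v (a + k)) (b - a) := by
  have hs := hg.sub (hac.trans hcb) hb
  refine ⟨⟨hs.1, fun k hk => ?_, by simp, by simp [show a + (b - a) = b by omega]⟩,
    isGeo_injOn hpos hs, fun w M hw => hs.2 w M hw.path (by simpa using hw.first)
      (by simpa [show a + (b - a) = b by omega] using hw.last)⟩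
  by_cases hk' : a + k < c
  · have := C.exit_edges_deep (v := fun l => v (c - l)) (L := c - a) (fun l hl => by
      have := adj_comm (hg.1 (c - (l + 1)) (by omega))
      rwa [show c - (l + 1) + 1 = c - l by omega] at this) (by simpa using hdeep) hback
      (c - (a + k + 1)) (by omega)
    rw [show c - (c - (a + k + 1)) = a + k + 1 by omega,
      show c - (c - (a + k + 1) + 1) = a + k by omega, Sym2.eq_swap] at this
    simpa [add_assoc] using this
  · have := C.exit_edges_deep (v := fun l => v (c + l)) (L := b - c) (fun l hl => by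
      simpa [add_assoc] using hg.1 (c + l) (by omega)) (by simpa using hdeep) hfwd
      (a + k - c) (by omega)
    rw [show c + (a + k - c) = a + k by omega,
      show c + (a + k - c + 1) = a + (k + 1) by omega] at this
    exact this

end Cyc

/-- A junction deep inside a cycle is a merge for some mark. -/
lemma merge_of_jun (C : Cyc) {t : Conf} (hpos : ∀ e, 0 < t e) {w : V} (hw : C.Deep w)
    (hj : t ∈ jun w) : ∃ a < C.m, C.Merge t a w := by
  set k := C.inner_finite.toFinset.card
  obtain ⟨f, f', h1, h2, h3, h4, h5, h6⟩ := mem_junK.1 (Set.mem_iInter.1 hj k)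
  set v := contConst f
  set v' := contConst f'
  have back : ∀ u : ℕ → V, IsGeo t u (2 * k + 2) → u (k + 1) = w →
      ∃ l, 0 < l ∧ l ≤ k + 1 ∧ C.OnC (u (k + 1 - l)) ∧ ∀ d < l, ¬ C.OnC (u (k + 1 - d)) := by
    intro u hu huw
    have hinj := isGeo_injOn hpos hu
    exact C.hit_of_long (v := fun d => u (k + 1 - d)) (L := k + 1) (fun d hd => by
      have := adj_comm (hu.1 (k + 1 - (d + 1)) (by omega))
      rwa [show k + 1 - (d + 1) + 1 = k + 1 - d by omega] at this)
      (fun a ha b hb h => by
        simp only [Set.mem_Iic] at ha hb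
        have := hinj (by simp only [Set.mem_Iic]; omega) (by simp only [Set.mem_Iic]; omega) h
        omega) (by simpa [huw] using hw) (by omega)
  obtain ⟨lb, hb0, hbk, ⟨pb, hpb, hbe⟩, hboff⟩ := back v h5 h1
  obtain ⟨lb', hb0', hbk', ⟨pb', hpb', hbe'⟩, hboff'⟩ := back v' h6 h2
  have hinj := isGeo_injOn hpos h5
  obtain ⟨la, ha0, hak, ⟨pa, hpa, hae⟩, haoff⟩ :=
    C.hit_of_long (v := fun d => v (k + 1 + d)) (L := k + 1) (fun d hd => by
      simpa [add_assoc] using h5.1 (k + 1 + d) (by omega))
      (fun a ha b hb h => by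
        simp only [Set.mem_Iic] at ha hb
        have := hinj (by simp only [Set.mem_Iic]; omega) (by simp only [Set.mem_Iic]; omega) h
        omega) (by simpa [h1] using hw) (by omega)
  have g1 := C.geoIn_of_segment hpos h5 (a := k + 1 - lb) (c := k + 1) (b := k + 1 + la) (by omega)
    (by omega) (by omega) (by rw [h1]; exact hw) (fun d hd => hboff d (by omega))
    (fun d hd => haoff d (by omega))
  have g2 := C.geoIn_of_segment hpos h6 (a := k + 1 - lb') (c := k + 1) (b := k + 1 + la) (by omega)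
    (by omega) (by omega) (by rw [h2]; exact hw) (fun d hd => hboff' d (by omega))
    (fun d hd => by rw [← h4 (k + 1 + d) (by omega) (by omega)]; exact haoff d (by omega))
  rw [← hbe, ← hae] at g1
  rw [← hbe', ← h4 (k + 1 + la) (by omega) (by omega), ← hae] at g2
  refine ⟨pa, hpa, pb, pb', hpb, hpb', _, _, _, _, by rwa [Nat.mod_eq_of_lt hpa],
    by rwa [Nat.mod_eq_of_lt hpa], lb - 1, lb' - 1, by omega, by omega, ?_, ?_, ?_⟩
  · rw [show k + 1 - lb + (lb - 1 + 1) = k + 1 by omega, h1]
  · rw [show k + 1 - lb' + (lb' - 1 + 1) = k + 1 by omega, h2]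
  · rw [show k + 1 - lb + (lb - 1) = k by omega, show k + 1 - lb' + (lb' - 1) = k by omega]
    exact h3

variable {G : Measure ℝ}

/-- Junctions have probability zero. -/
lemma jun_zero (hM : MergeStmt G) (P : Params G) (R : Ring G)
    (hok : ∀ᵐ t ∂env G, OK t) (hsh : ∀ z, (env G).map (shiftW z) = env G) :
    env G (jun 0) = 0 := by
  have hms : ∀ z, env G (jun z) = env G (jun 0) := fun z => by
    have hmeas : Measurable (shiftW z : Conf → Conf) :=
      measurable_pi_lambda _ fun e => measurable_pi_apply _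
    rw [← jun_shift, ← Measure.map_apply hmeas (jun_meas 0), hsh]
  refine le_antisymm (ENNReal.le_of_forall_pos_le_add fun ε hε _ => ?_) bot_le
  rw [zero_add]
  have hε2 : (0 : ℝ≥0∞) < (ε : ℝ≥0∞) / 2 :=
    ENNReal.div_pos (by exact_mod_cast hε.ne') (by norm_num)
  obtain ⟨n, hn1, hgood, hsmall⟩ := ((eventually_ge_atTop 1).and
    ((R.prob.eventually (ge_mem_nhds hε2)).and
      (hM P R hok ((ε : ℝ) / 2) (by positivity)))).exists
  have hfin : (box 0 (n / 2)).Finite := by
    refine (Set.toFinite (↑(Finset.Icc (-((n / 2 : ℕ) : ℤ)) (n / 2 : ℕ) ×ˢ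
      Finset.Icc (-((n / 2 : ℕ) : ℤ)) (n / 2 : ℕ)) : Set V)).subset ?_
    intro v hv
    simp only [box, Set.mem_ofPred_eq, Prod.fst_zero, Prod.snd_zero, sub_zero, abs_le] at hv
    simp only [Finset.coe_product, Finset.coe_Icc, Set.mem_prod, Set.mem_Icc]
    omega
  set B := hfin.toFinset with hB
  have hcard : n ^ 2 ≤ B.card := by
    have hsub : Finset.Icc (-((n / 2 : ℕ) : ℤ)) (n / 2 : ℕ) ×ˢ
        Finset.Icc (-((n / 2 : ℕ) : ℤ)) (n / 2 : ℕ) ⊆ B := by
      intro v hv
      simp only [Finset.mem_product, Finset.mem_Icc] at hv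
      simp only [hB, Set.Finite.mem_toFinset, box, Set.mem_ofPred_eq, Prod.fst_zero,
        Prod.snd_zero, sub_zero, abs_le]
      omega
    refine le_trans ?_ (Finset.card_le_card hsub)
    rw [Finset.card_product, Int.card_Icc, sq]
    exact Nat.mul_le_mul (by omega) (by omega)
  have hcount : ∀ᵐ t ∂(env G).restrict (R.good n), ∑ w ∈ B, (jun w).indicator (1 : Conf → ℝ≥0∞) t ≤
      ∑ a ∈ Finset.range (R.cyc n t).m,
        ({w | w ∈ box 0 (n / 2) ∧ (R.cyc n t).Merge t a w}.encard : ℝ≥0∞) := by
    filter_upwards [ae_restrict_mem (R.meas_good n), ae_restrict_of_ae hok] with t ht htok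
    set C := R.cyc n t
    set S := B.filter (fun w => t ∈ jun w) with hS
    have hsub : S ⊆ (Finset.range C.m).biUnion fun a => B.filter fun w => C.Merge t a w := by
      intro w hw
      obtain ⟨hwB, hwj⟩ := Finset.mem_filter.1 hw
      have hwbox : w ∈ box 0 (n / 2) := hfin.mem_toFinset.1 hwB
      have hdeep : C.Deep w := by
        refine C.deep_of_box (R.encl n t ht) hn1 ?_
        simp only [box, Set.mem_ofPred_eq, abs_le] at hwbox ⊢
        omega
      obtain ⟨a, ha, hm⟩ := merge_of_jun C htok.pos hdeep hwj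
      exact Finset.mem_biUnion.2 ⟨a, Finset.mem_range.2 ha, Finset.mem_filter.2 ⟨hwB, hm⟩⟩
    have h1 : ∑ w ∈ B, (jun w).indicator (1 : Conf → ℝ≥0∞) t = (S.card : ℝ≥0∞) := by
      simp [hS, Set.indicator_apply, Finset.sum_boole]
    rw [h1]
    refine le_trans (Nat.cast_le.2 ((Finset.card_le_card hsub).trans Finset.card_biUnion_le)) ?_
    push_cast
    refine Finset.sum_le_sum fun a _ => ?_
    have : ((B.filter fun w => C.Merge t a w).card : ℕ∞) ≤
        {w | w ∈ box 0 (n / 2) ∧ C.Merge t a w}.encard := by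
      rw [← Set.encard_coe_eq_coe_finsetCard]
      refine Set.encard_le_encard fun w hw => ?_
      simp only [Finset.coe_filter, Set.mem_ofPred_eq] at hw
      exact ⟨hfin.mem_toFinset.1 hw.1, hw.2⟩
    exact_mod_cast this
  have hint : (B.card : ℝ≥0∞) * env G (jun 0) ≤
      ENNReal.ofReal ((ε : ℝ) / 2 * (n : ℝ) ^ 2) + (B.card : ℝ≥0∞) * env G (R.good n)ᶜ := by
    calc (B.card : ℝ≥0∞) * env G (jun 0) = ∑ w ∈ B, env G (jun w) := by simp [hms]
      _ ≤ ∑ w ∈ B, ((env G).restrict (R.good n) (jun w) + env G (R.good n)ᶜ) :=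
          Finset.sum_le_sum fun w _ => by
            rw [Measure.restrict_apply (jun_meas w)]
            refine (measure_mono ?_).trans (measure_union_le _ _)
            intro t ht
            by_cases hg : t ∈ R.good n
            · exact Or.inl ⟨ht, hg⟩
            · exact Or.inr hg
      _ = ∫⁻ t, ∑ w ∈ B, (jun w).indicator (1 : Conf → ℝ≥0∞) t ∂(env G).restrict (R.good n) +
            (B.card : ℝ≥0∞) * env G (R.good n)ᶜ := by
          rw [Finset.sum_add_distrib, Finset.sum_const, nsmul_eq_mul, lintegral_finsetSum _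
            fun w _ => measurable_one.indicator (jun_meas w)]
          congr 1
          exact Finset.sum_congr rfl fun w _ => (lintegral_indicator_one (jun_meas w)).symm
      _ ≤ _ := add_le_add_left ((lintegral_mono_ae hcount).trans hsmall) _
  have hB0 : (B.card : ℝ≥0∞) ≠ 0 := by
    have : 0 < B.card := lt_of_lt_of_le (pow_pos hn1 2) hcard
    exact_mod_cast this.ne'
  have hof : ENNReal.ofReal ((ε : ℝ) / 2 * (n : ℝ) ^ 2) ≤ (B.card : ℝ≥0∞) * ((ε : ℝ≥0∞) / 2) := by
    rw [mul_comm (B.card : ℝ≥0∞), ENNReal.ofReal_mul (by positivity),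
      ENNReal.ofReal_div_of_pos two_pos, ENNReal.ofReal_coe_nnreal, ENNReal.ofReal_ofNat,
      ← Nat.cast_pow, ENNReal.ofReal_natCast]
    exact mul_le_mul' (le_refl _) (Nat.cast_le.2 hcard)
  refine (ENNReal.mul_le_mul_iff_right hB0 (by simp)).1 (hint.trans ?_)
  refine (add_le_add hof (mul_le_mul' (le_refl _) hgood)).trans (le_of_eq ?_)
  rw [← mul_add, ENNReal.add_halves]

/-- Lemma J. -/
theorem tail_stmt (hok : ∀ᵐ t ∂env G, OK t) (hsh : ∀ z, (env G).map (shiftW z) = env G)
    (hM : MergeStmt G) : TailStmt G := by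
  intro P R
  have hmeas : ∀ z, Measurable (shiftW z : Conf → Conf) := fun z =>
    measurable_pi_lambda _ fun e => measurable_pi_apply _
  have h0 := jun_zero hM P R hok hsh
  have hall : ∀ᵐ t ∂env G, ∀ z, t ∉ jun z := ae_all_iff.2 fun z => by
    refine measure_eq_zero_iff_ae_notMem.1 ?_
    rw [← jun_shift, ← Measure.map_apply (hmeas z) (jun_meas 0), hsh, h0]
  filter_upwards [hall] with t ht γ δ hγ hδ hs
  by_contra hne
  obtain ⟨w, hw⟩ := jun_of_lines hγ hδ hs hne
  exact ht w hw

end Vale.Agent.P158.NB
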