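import Vale.Agent.P158.NB.Main.Assembly
import Vale.Agent.P158.NB.Main.SegLine
import Vale.Agent.P158.NB.Main.LineCount
import Vale.Agent.P158.NB.Main.FarMass
import Vale.Agent.P158.NB.Monge
import Vale.Agent.P158.NB.Prob
import Vale.Agent.P158.NB.Lines
import Vale.Agent.P158.NB.Tail
import Vale.Agent.P158.NB.Merge
import Vale.Agent.P158.NB.Join
import Vale.Agent.P158.NB.Budget
import Vale.Agent.P158.NB.Ring
import Vale.Agent.P158.NB.Lines.Count

/-!
# P158: no bigeodesics for atomless laws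
-/

namespace Vale.Agent.P158.NB

open Vale.Agent.P158 MeasureTheory

variable (G : Measure ℝ) [IsProbabilityMeasure G]

theorem noBigeodesic (h0 : G (Set.Iio 0) = 0) (hatom : ∀ x, G {x} = 0) :
    ∀ᵐ t ∂env G, ¬ ∃ γ, IsLine t γ := by
  have hA : MergeStmt G := MP.merge_stmt hatom (change_stmt G)
  have hT : TailStmt G := tail_stmt (ok_stmt G h0 hatom).1 (shift_law G) hA
  exact noBigeodesic_of_pieces (ok_stmt G) (change_stmt G) (ring_stmt G) hT
    (join_stmt G hatom (ok_stmt G h0 hatom).1 (change_stmt G) (linesStmt G monge hA))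
    monge segLine_stmt lineCount_stmt (farMass_stmt G monge)
    (tiltLower_stmt G hatom) (oneLine_stmt G) h0 hatom

/-- Bigeodesics, with the definitions spelled out. -/
theorem isLine_of_sum {t : Conf} {v : ℤ → ℤ × ℤ} (hv : Function.Injective v)
    (hadj : ∀ i, |(v i).1 - (v (i + 1)).1| + |(v i).2 - (v (i + 1)).2| = 1)
    (hgeo : ∀ (i : ℤ) (L : ℕ) (w : ℕ → ℤ × ℤ) (M : ℕ),
      (∀ k < M, |(w k).1 - (w (k + 1)).1| + |(w k).2 - (w (k + 1)).2| = 1) →
      w 0 = v i → w M = v (i + L) →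
        ∑ k ∈ Finset.range L, t s(v (i + k), v (i + k + 1)) ≤
          ∑ k ∈ Finset.range M, t s(w k, w (k + 1))) :
    IsLine t v := by
  refine ⟨hv, hadj, fun i L => ⟨fun k _ => ?_, fun w M hw h0 hM => ?_⟩⟩
  · have := hadj (i + k)
    rwa [show i + (k : ℤ) + 1 = i + ((k + 1 : ℕ) : ℤ) by push_cast; ring] at this
  · refine le_trans (le_of_eq (Finset.sum_congr rfl fun k _ => ?_))
      (hgeo i L w M hw (by simpa using h0) hM)
    push_cast
    rw [add_assoc]

end Vale.Agent.P158.NB
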