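import Vale.Agent.P158.NB.Via

/-!
# P158: lines of the raised configuration give separated pairs of marks

For `t ≤ s` equal off `F`: each line of `s` gaining on `F` gives a pair of marks whose avoidance
cost is at least the gain; geodesics between marks of different lines avoid `F`.
-/

namespace Vale.Agent.P158.NB

open Vale.Agent.P158 Filter Topology

lemma Tf_symm (t : Conf) (x y : V) : Tf t x y = Tf t y x := T_comm t _ x y

lemma shareTail_of_shift {γ δ : ℤ → V} {c : ℤ} (h : ∀ i, δ i = γ (i + c)) : ShareTail δ γ :=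
  ⟨0, c, fun k => by rw [h]; congr 1; ring⟩

lemma sameLine_rev (γ : ℤ → V) : SameLine (rev γ) γ := fun _ => lineUses_rev

lemma rev_rev_line (γ : ℤ → V) : rev (rev γ) = γ := funext fun i => by simp [rev]

/-- Lines sharing the two pairs of tails: equal. -/
lemma tails_eq {t s : Conf} (hJt : ∀ γ δ, IsLine t γ → IsLine t δ → ShareTail γ δ → SameLine γ δ)
    (hJs : ∀ γ δ, IsLine s γ → IsLine s δ → ShareTail γ δ → SameLine γ δ)
    {γ δ g η : ℤ → V} (hγ : IsLine s γ) (hδ : IsLine s δ) (hg : IsLine t g) (hη : IsLine t η)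
    (hgγ : ShareTail (rev g) γ) (hgδ : ShareTail g δ) (hηγ : ShareTail (rev η) γ)
    (hηγ' : ShareTail η (rev γ)) : SameLine γ δ := by
  have hsame : SameLine (rev η) (rev g) :=
    hJt _ _ (isLine_rev hη) (isLine_rev hg) (hηγ.trans hgγ.symm)
  obtain ⟨c, hc | hc⟩ := sameLine_param (isLine_rev hη).inj (isLine_rev hg).inj hsame
  · have hs : ShareTail g η := shareTail_of_shift (c := -c) fun i => by
      have := hc (-i)
      simp only [rev] at this
      rw [neg_neg] at this
      rw [this]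
      congr 1
      ring
    exact ((sameLine_rev γ).symm.trans
      (hJs _ _ (isLine_rev hγ) hδ ((hs.trans hηγ').symm.trans hgδ)))
  · have hs : ShareTail g (rev η) := shareTail_of_shift (c := c) fun i => by
      have := hc (-i)
      simp only [rev] at this ⊢
      rw [neg_neg] at this
      rw [this]
    exact hJs _ _ hγ hδ ((hs.trans hηγ).symm.trans hgδ)

section

variable {t s : Conf} (htp : ∀ e, 0 < t e) (htx : GeoEx t)
  (F : Finset (Sym2 V)) (heq : ∀ e, e ∉ F → t e = s e) (hF : ∀ C, CycFacts C)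

include htp htx in
omit htx in
/-- A geodesic between marks meeting `F` gives an endpoint of `F` with `Via`. -/
lemma via_of_meets {C : Cyc} {i j : ℕ} (hi : i < C.m) (hj : j < C.m)
    (h : C.Meets t (F : Set (Sym2 V)) i j) :
    ∃ x ∈ F.biUnion (fun e => e.toFinset), Via t C x i j := by
  classical
  obtain ⟨e, he, v, L, g, k, hk, hve⟩ := h
  rw [Nat.mod_eq_of_lt hi, Nat.mod_eq_of_lt hj] at g
  refine ⟨v k, Finset.mem_biUnion.2 ⟨e, he, by rw [← hve]; simp⟩, fun w M hw => ?_⟩
  refine le_trans ?_ (g.least w M hw)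
  have h1 := (g.take hk.le).toPathIn.mono (Set.subset_univ _)
  have h2 := (g.drop hk.le).toPathIn.mono (Set.subset_univ _)
  have e1 : Tf t (v k) (C.c i) ≤ cost t v k := by
    rw [Tf_symm]; exact T_le (fun e => (htp e).le) h1
  have e2 := T_le (t := t) (fun e => (htp e).le) h2
  rw [← Tf] at e2
  rw [cost_seg_add t v hk.le]
  linarith

/-- The segment of an `s`-line between its two marks. -/
lemma line_segment {C : Cyc} (hC0 : CycFacts C) {γ : ℤ → V} (hγ : IsLine s γ) {m₀ : ℤ} {i j : ℕ}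
    {h l : ℤ} (hi : Hit C γ m₀ i h) (hj : Hit C (rev γ) (-m₀) j l) {N : ℕ}
    (hC : C.Encloses 0 (N + 1)) (h0 : γ m₀ ∈ box 0 N) :
    PathIn C.edges (C.c j) (C.c i) (fun k : ℕ => γ (-l + k)) (h + l).toNat := by
  have hle := hi.le
  have hle' := hj.le
  have hm : ∀ n : ℕ, -l + n = m₀ → γ (-l + n) ∈ box 0 N := fun n hn => by rw [hn]; exact h0
  refine ⟨fun k _ => ?_, ?_, ?_, ?_⟩
  · beta_reduce
    rw [show -l + ((k + 1 : ℕ) : ℤ) = -l + k + 1 by push_cast; ring]
    exact hγ.adj _
  · have hf : ∀ k < (h - m₀).toNat, s(γ (m₀ + (k : ℤ)), γ (m₀ + ((k + 1 : ℕ) : ℤ))) ∈ C.edges := by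
      refine hC0.exit N (fun k : ℕ => γ (m₀ + k)) _ hC (fun k _ => ?_) (by simpa using h0)
        fun k hk q hq he => hi.first _ (by omega) (by omega) q hq he
      beta_reduce
      rw [show m₀ + ((k + 1 : ℕ) : ℤ) = m₀ + k + 1 by push_cast; ring]
      exact hγ.adj _
    have hb : ∀ k < (l + m₀).toNat, s(γ (m₀ - (k : ℤ)), γ (m₀ - ((k + 1 : ℕ) : ℤ))) ∈ C.edges := by
      refine hC0.exit N (fun k : ℕ => γ (m₀ - k)) _ hC (fun k _ => ?_) (by simpa using h0)
        fun k hk q hq he => hj.first (-(m₀ - k)) (by omega) (by omega) q hq (by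
          simpa [rev] using he)
      beta_reduce
      have := hγ.adj (m₀ - ((k + 1 : ℕ) : ℤ))
      rw [show m₀ - ((k + 1 : ℕ) : ℤ) + 1 = m₀ - k by push_cast; ring] at this
      exact adj_comm this
    intro k hk
    rcases lt_or_ge (-l + (k : ℤ)) m₀ with h' | h'
    · have := hb (m₀ + l - k - 1).toNat (by omega)
      rw [Sym2.eq_swap,
        show m₀ - (((m₀ + l - k - 1).toNat + 1 : ℕ) : ℤ) = -l + k by omega,
        show m₀ - (((m₀ + l - k - 1).toNat : ℕ) : ℤ) = -l + ((k + 1 : ℕ) : ℤ) by omega] at this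
      exact this
    · have := hf (-l + k - m₀).toNat (by omega)
      rw [show m₀ + (((-l + k - m₀).toNat + 1 : ℕ) : ℤ) = -l + ((k + 1 : ℕ) : ℤ) by omega,
        show m₀ + (((-l + k - m₀).toNat : ℕ) : ℤ) = -l + k by omega] at this
      exact this
  · simpa [rev] using hj.eq
  · rw [← hi.eq]
    congr 1
    omega

end

end Vale.Agent.P158.NB
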