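import Vale.Agent.P158.NB.MergeLower

/-!
# P158 lemma A: merges against patterns

Deterministically, the merges of one tree in the middle are controlled by the vertices with a
pattern `D` steps ahead, the balls with an exceptional environment, and the number of marks.
-/

namespace Vale.Agent.P158.NB.MP

open Vale.Agent.P158 Vale.Agent.P158.NB Vale.Agent.P158.NB.MD MeasureTheory
open scoped ENNReal Classical

variable {G : Measure ℝ} [IsProbabilityMeasure G]

/-- The exceptional balls. -/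
def BadZ (Rg : Ring G) (θ : ℝ) (R L : ℕ) (C1 c : ℝ) (z : V) : Set Conf :=
  (Cheap (boxE z R) c)ᶜ ∪ ((LG θ L z)ᶜ ∪ (SmallRing Rg (R + 1) C1 z)ᶜ)

/-- A ball holding many tree vertices. -/
lemma ball_case (Rg : Ring G) {θ C1 c : ℝ} {R L H n : ℕ} (hθ0 : 0 ≤ θ) (hR : R ≤ 4 * L)
    (hring : 2 * (C1 * (R + 1 : ℕ)) < θ * L) {t : Conf} (hok : OK t) {C : Cyc}
    (he : C.Encloses 0 n) (a : ℕ) {z : V} (hz : box z (2 * (R + 1)) ⊆ box 0 n) (hn : 1 ≤ n)
    (hbad : t ∉ BadZ Rg θ R L C1 c z)
    (hmrg : ∀ w ∈ box z (R + H), ¬ Mrg t C.edges (C.c (a % C.m)) (marks C : Set V) w)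
    (N : Finset V)
    (hN : ∀ x ∈ N, Tr t C.edges (C.c (a % C.m)) (marks C : Set V) x ∧ x ∈ box z R)
    (hcard : L < N.card) :
    ∃ u ∈ box z R, Tr t C.edges (C.c (a % C.m)) (marks C : Set V) u ∧
      FF t C.edges (C.c (a % C.m)) (4 * R) c H u := by
  simp only [BadZ, Set.mem_union, Set.mem_compl_iff, not_or, not_not] at hbad
  obtain ⟨hch, hlg, hsr⟩ := hbad
  have hB : ∀ b ∈ (marks C : Set V), Conn C.edges (C.c (a % C.m)) b :=
    fun b hb => conn_of_mem_marks (Finset.mem_coe.1 hb)
  have hzR : box z R ⊆ box 0 n := (box_mono z (by omega)).trans hz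
  refine ball_pattern hok hB z R H c (fun x y hx hy hxy => ⟨box_edge_mem he (hzR hx) (hzR hy) hxy hn,
    hch _ (mem_boxE hx hy)⟩) N hN (Finset.card_pos.1 (by omega)) hmrg fun y hy hchain => ?_
  obtain ⟨C2, hC2e, hC2s, hC2c⟩ := small_ring_cycle Rg hsr
  have hC2n : ∀ k ≤ C2.m, C2.c k ∈ box 0 n := by
    intro k hk
    rcases hk.lt_or_eq with hk | rfl
    · exact hz (hC2s k hk)
    · rw [C2.closed]; exact hz (hC2s 0 (by have := C2.three; omega))
  have hfar : ∀ b ∈ marks C, b ∉ box z (2 * (R + 1)) := fun b hb hb' =>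
    marks_far he hb (hz hb')
  have := chain_cycle hok hB C2 z (R + 1) (2 * (R + 1)) R L (Nat.lt_succ_self R) hC2e hC2s
    (fun k hk => box_edge_mem he (hC2n k hk.le) (hC2n (k + 1) hk) (C2.path k hk) hn)
    (fun b hb => hfar b (Finset.mem_coe.1 hb))
    (hfar _ (Finset.mem_image_of_mem _ (Finset.mem_range.2 (Nat.mod_lt _ (by
      have := C.three; omega)))))
    (fun x hx v hv hvi hv0 => ?_) N (fun x hx => (hN x hx).2) (hN y hy).1 hchain
  · omega
  · have := lg_cost hθ0 hok.pos hlg hv hvi (by rw [hv0]; exact box_mono z hR hx) le_rfl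
    linarith

/-- The merges of one tree in the middle. -/
lemma count_merge (Rg : Ring G) {θ C1 c : ℝ} {R L D W H n : ℕ} (hθ0 : 0 ≤ θ) (hR : R ≤ 4 * L)
    (hring : 2 * (C1 * (R + 1 : ℕ)) < θ * L) (hn : 4 * (2 * D + W + H + 4 * R + 4) ≤ n)
    {t : Conf} (hok : OK t) {C : Cyc} (he : C.Encloses 0 n) (a : ℕ) :
    ((boxF 0 (n / 2)).filter fun w => C.Merge t a w).card * (n / 4) * (2 * R + 1) ^ 2 ≤
      L * (boxF 0 (n / 2 + n / 4 + R)).card +
        (2 * R + 1) ^ 2 * (C.m * (2 * (R + H) + 1) ^ 2 +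
          ((boxF 0 (n / 2 + n / 4 + R)).filter fun z => t ∈ BadZ Rg θ R L C1 c z).card) +
        (2 * R + 1) ^ 2 * (2 * R + 1) ^ 2 * ((boxF 0 (n / 2 + n / 4 + R + R + D)).filter fun x =>
          QX t C.edges (C.c (a % C.m)) (marks C : Set V) (4 * R) c H D W x).card := by
  set o := C.c (a % C.m) with ho
  set K := C.edges with hK
  set B : Set V := (marks C : Set V) with hBdef
  set q := (2 * R + 1) ^ 2 with hq
  set Z := boxF 0 (n / 2 + n / 4 + R) with hZ
  set S := (boxF 0 (n / 2 + n / 4)).filter fun x => Tr t K o B x with hS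
  set Mg := (boxF 0 n).filter fun w => Mrg t K o B w with hMg
  set QS := (boxF 0 (n / 2 + n / 4 + R + R + D)).filter fun x => QX t K o B (4 * R) c H D W x with hQS
  have hB : ∀ b ∈ B, Conn K o b := fun b hb => conn_of_mem_marks (Finset.mem_coe.1 hb)
  have h0 : ∀ {r : ℕ} {v : V}, r ≤ n → v ∈ box 0 r → v ∈ box 0 n := fun h hv => box_mono 0 h hv
  -- the gap
  have h1 : ((boxF 0 (n / 2)).filter fun w => C.Merge t a w).card * (n / 4) ≤ S.card := by
    refine mrg_gap_le (K := K) (o := o) hok (marks C) 0 (n / 2) (n / 4)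
      (fun b hb hb' => marks_far he hb (h0 (by omega) hb')) _ S (fun w hw => ?_) fun x hx hx' => ?_
    · obtain ⟨hw1, hw2⟩ := Finset.mem_filter.1 hw
      exact ⟨mrg_of_merge hok hw2, mem_boxF.1 hw1⟩
    · exact Finset.mem_filter.2 ⟨mem_boxF.2 hx', hx⟩
  -- balls
  have h2 : S.card * q = ∑ z ∈ Z, (S.filter fun x => x ∈ box z R).card := by
    simp only [Finset.card_filter]
    rw [Finset.sum_comm, ← smul_eq_mul, ← Finset.sum_const]
    refine Finset.sum_congr rfl fun x hx => ?_
    rw [← Finset.card_filter, hq, ← boxF_card x R]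
    congr 1
    ext z
    have hx' := mem_boxF.1 (Finset.mem_filter.1 hx).1
    simp only [Finset.mem_filter, hZ, mem_boxF]
    exact ⟨fun hz => ⟨box_trans hx' hz, box_symm hz⟩, fun hz => box_symm hz.2⟩
  set Zbig := Z.filter fun z => L < (S.filter fun x => x ∈ box z R).card with hZbig
  have h3 : S.card * q ≤ L * Z.card + q * Zbig.card := by
    rw [h2, ← Finset.sum_filter_add_sum_filter_not Z
      (fun z => L < (S.filter fun x => x ∈ box z R).card), add_comm (L * Z.card)]
    refine add_le_add ?_ ?_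
    · refine (Finset.sum_le_card_nsmul _ _ q fun z _ => ?_).trans_eq (by rw [smul_eq_mul, mul_comm])
      refine (Finset.card_le_card fun x hx => ?_).trans_eq (boxF_card z R)
      exact mem_boxF.2 (Finset.mem_filter.1 hx).2
    · refine (Finset.sum_le_card_nsmul _ _ L fun z hz => not_lt.1 (Finset.mem_filter.1 hz).2).trans ?_
      rw [smul_eq_mul, mul_comm]
      exact Nat.mul_le_mul_left _ (Finset.card_filter_le _ _)
  -- classification of the crowded balls
  have h4 : Zbig ⊆ (Mg.biUnion fun w => boxF w (R + H)) ∪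
      (Z.filter fun z => t ∈ BadZ Rg θ R L C1 c z) ∪
      (QS.image fun x => g t K o x D).biUnion fun u => boxF u R := by
    intro z hz
    obtain ⟨hzZ, hzL⟩ := Finset.mem_filter.1 hz
    have hz' := mem_boxF.1 hzZ
    by_cases hbad : t ∈ BadZ Rg θ R L C1 c z
    · exact Finset.mem_union_left _ (Finset.mem_union_right _ (Finset.mem_filter.2 ⟨hzZ, hbad⟩))
    by_cases hmrg : ∃ w ∈ box z (R + H), Mrg t K o B w
    · obtain ⟨w, hw, hwm⟩ := hmrg
      refine Finset.mem_union_left _ (Finset.mem_union_left _ (Finset.mem_biUnion.2 ⟨w, ?_,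
        mem_boxF.2 (box_symm hw)⟩))
      exact Finset.mem_filter.2 ⟨mem_boxF.2 (h0 (by omega) (box_trans hz' hw)), hwm⟩
    push Not at hmrg
    obtain ⟨u, hu, hTu, hFu⟩ := ball_case Rg hθ0 hR hring hok he a
      (fun v hv => h0 (by omega) (box_trans hz' hv)) (by omega) hbad hmrg
      (S.filter fun x => x ∈ box z R) (fun x hx => ⟨(Finset.mem_filter.1
        (Finset.mem_filter.1 hx).1).2, (Finset.mem_filter.1 hx).2⟩) hzL
    refine Finset.mem_union_right _ (Finset.mem_biUnion.2 ⟨u, ?_, mem_boxF.2 (box_symm hu)⟩)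
    -- the vertices `D` and `D + W` steps behind `u`
    change Tr t K o B u at hTu
    change FF t K o (4 * R) c H u at hFu
    obtain ⟨b, hb, hub⟩ := hTu
    obtain ⟨i, hi, hiu⟩ := anc_index hub
    have hbf := marks_far he (Finset.mem_coe.1 hb)
    have hg := geo_g hok (hB b hb)
    have hu0 : u ∈ box 0 (n / 2 + n / 4 + R + R) := box_trans hz' hu
    have hid : D + W ≤ i := by
      by_contra hlt
      have hd := MD.path_dist hg.path i hi
      rw [hg.first, hiu] at hd
      exact hbf (h0 (by omega) (box_trans hu0 (box_symm hd)))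
    refine Finset.mem_image.2 ⟨g t K o b (i - D), Finset.mem_filter.2 ⟨mem_boxF.2 ?_,
      ⟨b, hb, _, rfl⟩, ?_, ?_, g t K o b (i - D - W), ⟨b, hb, _, rfl⟩, ?_, ?_⟩, ?_⟩
    · have hd := MD.path_dist (hg.path.shift (show i - D ≤ i by omega) hi) D (by omega)
      simp only [add_zero, show i - D + D = i by omega, hiu] at hd
      exact (box_trans hu0 (box_symm hd))
    · rw [len_g hok]; omega
    · rw [g_g hok, show i - D + D = i by omega, hiu]; exact hFu
    · rw [len_g hok]; omega
    · rw [g_g hok, show i - D - W + W = i - D by omega]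
    · rw [g_g hok, show i - D + D = i by omega, hiu]
  have h5 : Zbig.card ≤ C.m * (2 * (R + H) + 1) ^ 2 +
      (Z.filter fun z => t ∈ BadZ Rg θ R L C1 c z).card + q * QS.card := by
    refine (Finset.card_le_card h4).trans ((Finset.card_union_le _ _).trans (add_le_add
      ((Finset.card_union_le _ _).trans (add_le_add ?_ le_rfl)) ?_))
    · refine (Finset.card_biUnion_le_card_mul _ _ _ fun w _ => (boxF_card w (R + H)).le).trans ?_
      exact Nat.mul_le_mul_right _ ((mrg_card_le hok (marks C) Mg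
        fun w hw => (Finset.mem_filter.1 hw).2).trans (marks_card C))
    · refine (Finset.card_biUnion_le_card_mul _ _ q fun u _ => (boxF_card u R).le).trans ?_
      rw [mul_comm q]
      exact Nat.mul_le_mul_right _ Finset.card_image_le
  calc _ ≤ S.card * q := Nat.mul_le_mul_right _ h1
    _ ≤ L * Z.card + q * Zbig.card := h3
    _ ≤ L * Z.card + q * (C.m * (2 * (R + H) + 1) ^ 2 +
        (Z.filter fun z => t ∈ BadZ Rg θ R L C1 c z).card + q * QS.card) := by gcongr
    _ = _ := by ring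

end Vale.Agent.P158.NB.MP
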