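import Vale.Agent.P158.NB.MergeGlue

/-!
# P158 lemma A: a small cycle bounds every chain inside it
-/

namespace Vale.Agent.P158.NB.MD

open Vale.Agent.P158 Vale.Agent.P158.NB
open scoped Classical

variable {t : Conf} {K : Set (Sym2 V)} {o : V}

/-- The colour at a vertex: that of the face to its upper right. -/
noncomputable def colV (C : Cyc) (v : V) : ZMod 2 := col C.c C.m v

lemma par_zero (C : Cyc) {e : Sym2 V} (h : ∀ k < C.m, s(C.c k, C.c (k + 1)) ≠ e) :
    NB.par C.c C.m e = 0 :=
  Finset.sum_eq_zero fun k hk => by rw [use, if_neg (h k (Finset.mem_range.1 hk))]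

lemma par_zero_of_off (C : Cyc) {v : V} (hv : ∀ k < C.m, C.c k ≠ v) {e : Sym2 V} (he : v ∈ e) :
    NB.par C.c C.m e = 0 := by
  refine par_zero C fun k hk h => ?_
  rw [← h] at he
  rcases Sym2.mem_iff.1 he with h1 | h1
  · exact hv k hk h1.symm
  · by_cases h' : k + 1 < C.m
    · exact hv (k + 1) h' h1.symm
    · rw [show k + 1 = C.m by omega, C.closed] at h1
      exact hv 0 (by have := C.three; omega) h1.symm

/-- Two adjacent vertices off the cycle have the same colour. -/
lemma colV_eq (C : Cyc) {a b : V} (hab : Adj a b) (ha : ∀ k < C.m, C.c k ≠ a)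
    (hb : ∀ k < C.m, C.c k ≠ b) : colV C a = colV C b := by
  have z2 : ∀ p q : ZMod 2, p + q = 0 → p = q := by decide
  have stepv : ∀ x y : ℤ, (∀ k < C.m, C.c k ≠ (x, y)) →
      colV C (x - 1, y) = colV C (x, y) := fun x y h => by
    have h1 := col_cross_v C.path x y
    rw [par_zero_of_off C h (show (x, y) ∈ vE (x, y) from Sym2.mem_mk_left _ _)] at h1
    exact z2 _ _ h1
  have steph : ∀ x y : ℤ, (∀ k < C.m, C.c k ≠ (x, y)) →
      colV C (x, y - 1) = colV C (x, y) := fun x y h => by
    have h1 := col_cross_h C.path C.closed x y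
    rw [par_zero_of_off C h (show (x, y) ∈ hE (x, y) from Sym2.mem_mk_left _ _)] at h1
    exact z2 _ _ h1
  obtain ⟨a1, a2⟩ := a
  obtain ⟨b1, b2⟩ := b
  rcases adj_cases hab with ⟨h1, h2⟩ | ⟨h1, h2⟩ | ⟨h1, h2⟩ | ⟨h1, h2⟩ <;> simp only at h1 h2
  · rw [h1, h2] at hb ⊢
    simpa using stepv (a1 + 1) a2 hb
  · rw [h1, h2]
    simpa using (stepv a1 a2 ha).symm
  · rw [h1, h2] at hb ⊢
    simpa using steph a1 (a2 + 1) hb
  · rw [h1, h2]
    simpa using (steph a1 a2 ha).symm

/-- Outside a box containing the cycle the colour is `0`. -/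
lemma colV_outside (C : Cyc) {z : V} {r : ℕ} (hsub : ∀ k < C.m, C.c k ∈ box z r) {v : V}
    (hv : v ∉ box z r) : colV C v = 0 := by
  have z2 : ∀ p q : ZMod 2, p + q = 0 → p = q := by decide
  have hc : ∀ k ≤ C.m, |(C.c k).1 - z.1| ≤ r ∧ |(C.c k).2 - z.2| ≤ r := by
    intro k hk
    rcases hk.lt_or_eq with hk | rfl
    · exact hsub k hk
    · rw [C.closed]; exact hsub 0 (by have := C.three; omega)
  have norow : ∀ f : V, f.2 < z.2 - r ∨ z.2 + r ≤ f.2 → colV C f = 0 := by
    intro f hf
    rw [colV, col]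
    refine Finset.sum_eq_zero fun k hk => ?_
    rw [Finset.mem_range] at hk
    obtain ⟨-, h1⟩ := hc k hk.le
    obtain ⟨-, h2⟩ := hc (k + 1) hk
    rw [abs_le] at h1 h2
    rw [hit, if_neg]
    rintro ⟨-, hmin, -, hne⟩
    omega
  simp only [box, Set.mem_ofPred_eq, abs_le, not_and_or, not_le] at hv
  by_cases hrow : v.2 < z.2 - r ∨ z.2 + r ≤ v.2
  · exact norow v hrow
  by_cases hright : z.1 + r < v.1
  · rw [colV, col]
    refine Finset.sum_eq_zero fun k hk => ?_
    rw [Finset.mem_range] at hk
    obtain ⟨h1, -⟩ := hc k hk.le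
    rw [abs_le] at h1
    rw [hit, if_neg]
    rintro ⟨-, -, hlt, -⟩
    omega
  have hleft : v.1 < z.1 - r := by omega
  have climb : ∀ j : ℕ, colV C v = colV C (v.1, v.2 - j) := by
    intro j
    induction j with
    | zero => simp
    | succ j ih =>
      refine ih.trans ?_
      have h1 := col_cross_h C.path C.closed v.1 (v.2 - j)
      rw [par_zero_of_off C (v := (v.1, v.2 - j)) (fun k hk h => by
        obtain ⟨h1, -⟩ := hc k hk.le
        rw [h, abs_le] at h1
        simp only at h1
        omega) (show _ ∈ hE (v.1, v.2 - (j : ℤ)) from Sym2.mem_mk_left _ _)] at h1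
      exact (z2 _ _ h1).symm.trans (congrArg (colV C) (Prod.ext rfl (by simp only; omega)))
  rw [climb (v.2 - (z.2 - r) + 1).toNat]
  exact norow _ (Or.inl (by simp only; omega))

/-- Vertices of the enclosed box have colour `1`. -/
lemma colV_inside (C : Cyc) {z : V} {n : ℕ} (he : C.Encloses z n) {v : V} (hv : v ∈ box z n)
    (hv' : (v.1 + 1, v.2 + 1) ∈ box z n) : colV C v = 1 := he.2 v hv hv'

/-- A path from inside to outside meets the cycle. -/
lemma meets_cycle (C : Cyc) {v : ℕ → V} {L : ℕ} (hv : IsPath v L)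
    (h0 : colV C (v 0) ≠ colV C (v L)) : ∃ i ≤ L, ∃ k < C.m, v i = C.c k := by
  by_contra hno
  push Not at hno
  have : ∀ i ≤ L, colV C (v 0) = colV C (v i) := by
    intro i
    induction i with
    | zero => intro _; rfl
    | succ i ih =>
      intro hi
      exact (ih (by omega)).trans (colV_eq C (hv i hi) (fun k hk => (hno i (by omega) k hk).symm)
        (fun k hk => (hno (i + 1) hi k hk).symm))
  exact h0 (this L le_rfl)

/-- Connections along a cycle. -/
lemma cyc_connect (C : Cyc) (hK : ∀ k < C.m, s(C.c k, C.c (k + 1)) ∈ K)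
    (hpos : ∀ e, 0 < t e) {p q : ℕ} (hp : p < C.m) (hq : q < C.m) :
    ∃ v M, PathIn K (C.c p) (C.c q) v M ∧ cost t v M ≤ cost t C.c C.m := by
  have base : PathIn K (C.c 0) (C.c C.m) C.c C.m := ⟨C.path, hK, rfl, rfl⟩
  have key : ∀ i j, i ≤ j → j ≤ C.m → ∃ v M, PathIn K (C.c i) (C.c j) v M ∧
      cost t v M ≤ cost t C.c C.m := by
    intro i j hij hj
    refine ⟨_, _, pathIn_sub base hij hj, ?_⟩
    have h1 := cost_split t C.c hj
    have h2 := cost_split t C.c hij
    have h3 := cost_nonneg hpos C.c i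
    have h4 := cost_nonneg hpos (fun k => C.c (j + k)) (C.m - j)
    linarith
  rcases le_total p q with h | h
  · exact key p q h hq.le
  · obtain ⟨v, M, hv, hc⟩ := key q p h hp.le
    exact ⟨_, M, pathIn_rev hv, by rwa [rev_cost]⟩

/-- A chain has at most `L` vertices inside a cheap cycle. -/
lemma chain_cycle (h : OK t) {B : Set V} (hB : ∀ b ∈ B, Conn K o b) (C : Cyc) (z : V)
    (r1 r2 R L : ℕ) (hR : R < r1) (he : C.Encloses z r1) (hsub : ∀ k < C.m, C.c k ∈ box z r2)
    (hK : ∀ k < C.m, s(C.c k, C.c (k + 1)) ∈ K) (hBo : ∀ b ∈ B, b ∉ box z r2)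
    (ho : o ∉ box z r2)
    (htough : ∀ a ∈ box z R, ∀ v : ℕ → V, IsPath v L → Set.InjOn v (Set.Iic L) → v 0 = a →
      cost t C.c C.m < cost t v L)
    (N : Finset V) (hN : ∀ x ∈ N, x ∈ box z R) {y0 : V} (hy0 : Tr t K o B y0)
    (hchain : ↑N ⊆ Anc t K o y0) : N.card ≤ L := by
  obtain ⟨b, hb, hyb⟩ := hy0
  have hNb : ↑N ⊆ Anc t K o b := hchain.trans (anc_sub h hyb)
  have hr : Conn K o b := hB b hb
  have hg := geo_g h hr
  choose! idx hidx hgidx using fun a (ha : a ∈ N) => anc_index (hNb ha)
  rcases N.eq_empty_or_nonempty with rfl | hne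
  · simp
  obtain ⟨a, ha, hamin⟩ := N.exists_min_image idx hne
  obtain ⟨c, hc, hcmax⟩ := N.exists_max_image idx hne
  have inside : ∀ x ∈ box z R, colV C x = 1 := by
    intro x hx
    refine colV_inside C he (box_mono z hR.le hx) ?_
    simp only [box, Set.mem_ofPred_eq, abs_le] at hx ⊢
    omega
  have hlt : idx c < idx a + L := by
    by_contra hge
    rw [not_lt] at hge
    have hac : idx a ≤ idx c := hamin c hc
    obtain ⟨i, hi, p, hp, hip⟩ := meets_cycle C (v := g t K o b) (L := idx a)
      (fun k hk => hg.path k (by have := hidx a ha; omega)) (by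
        rw [g_zero h, hgidx a ha, inside a (hN a ha), colV_outside C hsub (hBo b hb)]
        decide)
    obtain ⟨j, hj, q, hq, hjq⟩ := meets_cycle C (v := fun k => g t K o b (idx c + k))
      (L := len t K o b - idx c) (hg.path.shift (hidx c hc) le_rfl) (by
        simp only [add_zero, show idx c + (len t K o b - idx c) = len t K o b by
          have := hidx c hc; omega]
        rw [hgidx c hc, g_len h hr, inside c (hN c hc), colV_outside C hsub ho]
        decide)
    obtain ⟨v, M, hv, hvc⟩ := cyc_connect (t := t) C hK h.pos hp hq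
    have hjL : idx c + j ≤ len t K o b := by have := hidx c hc; omega
    have hpre := pathIn_sub hg.toPathIn (Nat.zero_le i) (show i ≤ len t K o b by omega)
    rw [hg.first, Nat.sub_zero] at hpre
    have hsuf := pathIn_sub hg.toPathIn hjL le_rfl
    rw [hg.last] at hsuf
    rw [← hip, ← hjq] at hv
    have h1 := hg.least _ _ (pathIn_cat (pathIn_cat hpre hv) hsuf)
    rw [cat_cost t (hsuf.first.trans (pathIn_cat hpre hv).last.symm),
      cat_cost (v := fun k => g t K o b (0 + k)) (L := i) t (hv.first.trans hpre.last.symm),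
      cost_split t _ hjL,
      cost_congr t (v := fun k => g t K o b (0 + k)) (w := g t K o b) (fun k _ => by simp),
      cost_split t (g t K o b) (show idx a ≤ idx c + j by omega),
      cost_split t (g t K o b) (show i ≤ idx a from hi)] at h1
    have h2 := htough a (hN a ha) (fun k => g t K o b (idx a + k))
      (fun k hk => (hg.path.shift (hidx a ha) le_rfl) k (by have := hidx c hc; omega))
      (fun p hp q hq he => by
        simp only [Set.mem_Iic] at hp hq
        have := hidx c hc
        have := hg.inj (show idx a + p ∈ Set.Iic _ by simp only [Set.mem_Iic]; omega)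
          (show idx a + q ∈ Set.Iic _ by simp only [Set.mem_Iic]; omega) he
        omega) (by simp [hgidx a ha])
    have h3 := cost_mono t h.pos (fun k => g t K o b (idx a + k))
      (show L ≤ idx c + j - idx a by omega)
    have h4 := cost_nonneg h.pos (fun k => g t K o b (i + k)) (idx a - i)
    linarith
  refine (Finset.card_le_card_of_injOn idx (t := Finset.Ico (idx a) (idx a + L)) ?_ ?_).trans
    (by simp)
  · intro x hx
    simp only [Finset.coe_Ico, Set.mem_Ico]
    exact ⟨hamin x hx, (hcmax x hx).trans_lt hlt⟩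
  · intro x hx x' hx' he'
    rw [← hgidx x hx, ← hgidx x' hx', he']

end Vale.Agent.P158.NB.MD
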