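import Vale.Agent.P158.NB.Defs

/-!
# P158 lemma A: deterministic facts about the geodesic tree of one target

`g t K o x` is the geodesic inside the edge set `K` from `x` to the fixed target `o`, continued
constantly; all statements are deterministic and hold for every edge set `K`.
-/

namespace Vale.Agent.P158.NB.MD

open Vale.Agent.P158 Vale.Agent.P158.NB
open scoped Classical

variable {t t' : Conf} {K : Set (Sym2 V)} {o : V}

/-! ## Paths -/

/-- `x` can reach the target inside `K`. -/
def Conn (K : Set (Sym2 V)) (o x : V) : Prop := ∃ v L, PathIn K x o v L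

lemma pathIn_sub {x y : V} {v : ℕ → V} {L : ℕ} (h : PathIn K x y v L) {i j : ℕ} (hij : i ≤ j)
    (hj : j ≤ L) : PathIn K (v i) (v j) (fun k => v (i + k)) (j - i) where
  path := h.path.shift hij hj
  mem k hk := by
    have := h.mem (i + k) (by omega)
    simpa [add_assoc] using this
  first := by simp
  last := by rw [show i + (j - i) = j by omega]

lemma pathIn_cat {x y z : V} {v w : ℕ → V} {L M : ℕ} (hv : PathIn K x y v L)
    (hw : PathIn K y z w M) : PathIn K x z (cat v L w) (L + M) := by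
  have h : w 0 = v L := hw.first.trans hv.last.symm
  refine ⟨cat_path hv.path hw.path h, fun k hk => ?_, ?_, ?_⟩
  · by_cases hk' : k < L
    · rw [cat_left v w L k hk'.le, cat_left v w L (k + 1) hk']
      exact hv.mem k hk'
    · obtain ⟨i, rfl⟩ : ∃ i, k = L + i := ⟨k - L, by omega⟩
      rw [cat_right v w L i h, show L + i + 1 = L + (i + 1) by omega, cat_right v w L (i + 1) h]
      exact hw.mem i (by omega)
  · rw [cat_left v w L 0 (Nat.zero_le _)]; exact hv.first
  · rw [cat_right v w L M h]; exact hw.last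

lemma pathIn_rev {x y : V} {v : ℕ → V} {L : ℕ} (h : PathIn K x y v L) :
    PathIn K y x (Vale.Agent.P158.rev v L) L where
  path := rev_path h.path
  mem k hk := by
    have := h.mem (L - (k + 1)) (by omega)
    rw [show L - (k + 1) + 1 = L - k by omega, Sym2.eq_swap] at this
    simpa [Vale.Agent.P158.rev] using this
  first := by simp [Vale.Agent.P158.rev, h.last]
  last := by simp [Vale.Agent.P158.rev, h.first]

lemma cost_nonneg (hpos : ∀ e, 0 < t e) (v : ℕ → V) (L : ℕ) : 0 ≤ cost t v L :=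
  Finset.sum_nonneg fun _ _ => (hpos _).le

lemma cost_split (t : Conf) (v : ℕ → V) {i L : ℕ} (hi : i ≤ L) :
    cost t v L = cost t v i + cost t (fun k => v (i + k)) (L - i) := by
  unfold cost
  conv_lhs => rw [show L = i + (L - i) by omega, Finset.sum_range_add]
  refine congrArg₂ (· + ·) rfl (Finset.sum_congr rfl fun k _ => ?_)
  rw [add_assoc]

lemma cost_congr (t : Conf) {v w : ℕ → V} {L : ℕ} (h : ∀ k ≤ L, v k = w k) :
    cost t v L = cost t w L := by
  refine Finset.sum_congr rfl fun k hk => ?_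
  rw [Finset.mem_range] at hk
  rw [h k hk.le, h (k + 1) hk]

lemma cost_mono (t : Conf) (hpos : ∀ e, 0 < t e) (v : ℕ → V) {i L : ℕ} (hi : i ≤ L) :
    cost t v i ≤ cost t v L := by
  rw [cost_split t v hi]
  linarith [cost_nonneg hpos (fun k => v (i + k)) (L - i)]

/-- Removing loops. -/
lemma exists_inj (hpos : ∀ e, 0 < t e) : ∀ (L : ℕ) {x y : V} {v : ℕ → V}, PathIn K x y v L →
    ∃ w M, PathIn K x y w M ∧ Set.InjOn w (Set.Iic M) ∧ cost t w M ≤ cost t v L := by
  intro L
  induction L using Nat.strong_induction_on with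
  | _ L ih =>
  intro x y v h
  by_cases hinj : Set.InjOn v (Set.Iic L)
  · exact ⟨v, L, h, hinj, le_rfl⟩
  obtain ⟨i, j, hij, hj, heq⟩ : ∃ i j, i < j ∧ j ≤ L ∧ v i = v j := by
    simp only [Set.InjOn, Set.mem_Iic, not_forall] at hinj
    obtain ⟨a, ha, b, hb, hab, hne⟩ := hinj
    rcases lt_or_gt_of_ne hne with h' | h'
    · exact ⟨a, b, h', hb, hab⟩
    · exact ⟨b, a, h', ha, hab.symm⟩
  have h1 := pathIn_sub h (Nat.zero_le i) (by omega)
  have h2 := pathIn_sub h hj le_rfl
  rw [h.first, Nat.sub_zero] at h1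
  rw [h.last] at h2
  have h3 : PathIn K x y (cat (fun k => v (0 + k)) i (fun k => v (j + k))) (i + (L - j)) :=
    pathIn_cat h1 (heq ▸ h2)
  obtain ⟨w, M, hw, hwi, hc⟩ := ih _ (by omega) h3
  refine ⟨w, M, hw, hwi, hc.trans ?_⟩
  rw [cat_cost t (by simp [heq]), cost_split t v hj, cost_congr t (w := v) (fun k _ => by simp)]
  have := cost_mono t hpos v hij.le
  linarith

lemma adj_bound {a b : V} (h : Adj a b) : |a.1 - b.1| ≤ 1 ∧ |a.2 - b.2| ≤ 1 := by
  unfold Adj at h
  exact ⟨by linarith [abs_nonneg (a.2 - b.2)], by linarith [abs_nonneg (a.1 - b.1)]⟩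

lemma path_dist {v : ℕ → V} {L : ℕ} (h : IsPath v L) : ∀ k ≤ L, v k ∈ box (v 0) k := by
  intro k
  induction k with
  | zero => intro _; simp [box]
  | succ k ih =>
    intro hk
    obtain ⟨h1, h2⟩ := ih (by omega)
    obtain ⟨e1, e2⟩ := adj_bound (h k (by omega))
    simp only [box, Set.mem_ofPred_eq, abs_le, Nat.cast_succ] at *
    omega

lemma box_finite (z : V) (n : ℕ) : (box z n).Finite := by
  refine (Set.toFinite (↑((Finset.Icc (z.1 - n) (z.1 + n)) ×ˢ
    (Finset.Icc (z.2 - n) (z.2 + n))) : Set V)).subset ?_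
  intro v hv
  simp only [box, Set.mem_ofPred_eq, abs_le] at hv
  simp only [Finset.coe_product, Finset.coe_Icc, Set.mem_prod, Set.mem_Icc]
  omega

lemma box_mono (z : V) {m n : ℕ} (h : m ≤ n) : box z m ⊆ box z n := by
  intro v hv
  simp only [box, Set.mem_ofPred_eq, abs_le] at hv ⊢
  omega

lemma box_trans {x y z : V} {m n : ℕ} (h1 : y ∈ box x m) (h2 : z ∈ box y n) :
    z ∈ box x (m + n) := by
  simp only [box, Set.mem_ofPred_eq, abs_le, Nat.cast_add] at *
  omega

lemma box_symm {x y : V} {m : ℕ} (h : y ∈ box x m) : x ∈ box y m := by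
  simp only [box, Set.mem_ofPred_eq, abs_le] at *
  omega

/-- Geodesics exist. -/
lemma exists_geo (h : OK t) {x y : V} (hr : ∃ v L, PathIn K x y v L) :
    ∃ v L, GeoIn t K x y v L := by
  obtain ⟨v0, L0, h0⟩ := hr
  obtain ⟨v1, L1, h1, hi1, -⟩ := exists_inj h.pos L0 h0
  obtain ⟨N, hN⟩ := h.tough x (cost t v1 L1)
  have hlt : L1 < N := by
    by_contra hge
    exact absurd (hN v1 L1 h1.path hi1 h1.first (not_lt.1 hge)) (lt_irrefl _)
  have : Fintype (box x N) := (box_finite x N).fintype
  let ext : (Fin (N + 1) → box x N) → ℕ → V :=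
    fun f k => (f ⟨min k N, Nat.lt_succ_of_le (min_le_right _ _)⟩ : V)
  let Q : Finset (Fin (N + 1) × (Fin (N + 1) → box x N)) :=
    Finset.univ.filter fun q => PathIn K x y (ext q.2) q.1 ∧ Set.InjOn (ext q.2) (Set.Iic (q.1 : ℕ))
  have code : ∀ v L, PathIn K x y v L → Set.InjOn v (Set.Iic L) → L ≤ N →
      ∃ q ∈ Q, cost t (ext q.2) q.1 = cost t v L := by
    intro v L hv hvi hL
    have hmem : ∀ k : Fin (N + 1), v (min k L) ∈ box x N := fun k => by
      have := path_dist hv.path (min k L) (min_le_right _ _)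
      rw [hv.first] at this
      exact box_mono x ((min_le_right _ _).trans hL) this
    set f : Fin (N + 1) → box x N := fun k => ⟨v (min k L), hmem k⟩ with hf
    have he : ∀ k ≤ L, ext f k = v k := fun k hk => by
      simp [ext, hf, min_eq_left (hk.trans hL), hk]
    refine ⟨(⟨L, by omega⟩, f), Finset.mem_filter.2 ⟨Finset.mem_univ _, ⟨?_, ?_, ?_, ?_⟩, ?_⟩,
      cost_congr t fun k hk => he k hk⟩
    · intro k hk
      rw [he k (le_of_lt hk), he (k + 1) hk]
      exact hv.path k hk
    · intro k hk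
      rw [he k (le_of_lt hk), he (k + 1) hk]
      exact hv.mem k hk
    · rw [he 0 (Nat.zero_le _)]; exact hv.first
    · change ext f L = y
      rw [he L le_rfl]; exact hv.last
    · intro a ha b hb hab
      rw [he a ha, he b hb] at hab
      exact hvi ha hb hab
  obtain ⟨q1, hq1, hc1⟩ := code v1 L1 h1 hi1 hlt.le
  obtain ⟨q, hq, hmin⟩ := Q.exists_min_image (fun q => cost t (ext q.2) q.1) ⟨q1, hq1⟩
  obtain ⟨-, hqp, hqi⟩ := Finset.mem_filter.1 hq
  refine ⟨ext q.2, q.1, ⟨hqp, hqi, fun w M hw => ?_⟩⟩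
  obtain ⟨w', M', hw', hwi, hwc⟩ := exists_inj h.pos M hw
  refine le_trans ?_ hwc
  by_cases hM : M' ≤ N
  · obtain ⟨q', hq', hc'⟩ := code w' M' hw' hwi hM
    rw [← hc']
    exact hmin q' hq'
  · have h2 := hN w' M' hw'.path hwi hw'.first (by omega)
    have h3 := hmin q1 hq1
    rw [hc1] at h3
    linarith

/-! ## The geodesic to the target -/

/-- Length of the geodesic from `x` to the target. -/
noncomputable def len (t : Conf) (K : Set (Sym2 V)) (o x : V) : ℕ :=
  if h : ∃ v L, GeoIn t K x o v L then h.choose_spec.choose else 0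

/-- The geodesic from `x` to the target, continued constantly. -/
noncomputable def g (t : Conf) (K : Set (Sym2 V)) (o x : V) : ℕ → V :=
  fun i => if h : ∃ v L, GeoIn t K x o v L then h.choose (min i (len t K o x)) else x

/-- Passage time to the target. -/
noncomputable def val (t : Conf) (K : Set (Sym2 V)) (o x : V) : ℝ :=
  cost t (g t K o x) (len t K o x)

/-- Vertices of the geodesic to the target. -/
def Anc (t : Conf) (K : Set (Sym2 V)) (o x : V) : Set V := Set.range (g t K o x)

/-- Edges of the geodesic to the target. -/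
def AncE (t : Conf) (K : Set (Sym2 V)) (o x : V) : Set (Sym2 V) :=
  {e | ∃ i < len t K o x, s(g t K o x i, g t K o x (i + 1)) = e}

lemma geo_g (h : OK t) {x : V} (hx : Conn K o x) :
    GeoIn t K x o (g t K o x) (len t K o x) := by
  have he := exists_geo h hx
  have hs := he.choose_spec.choose_spec
  have hlen : len t K o x = he.choose_spec.choose := by rw [len, dif_pos he]
  have hg : ∀ i ≤ len t K o x, g t K o x i = he.choose i := fun i hi => by
    rw [g, dif_pos he, min_eq_left hi]
  refine ⟨⟨fun k hk => ?_, fun k hk => ?_, ?_, ?_⟩, fun a ha b hb hab => ?_, fun w M hw => ?_⟩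
  · rw [hg k hk.le, hg (k + 1) hk]; exact hs.path k (by omega)
  · rw [hg k hk.le, hg (k + 1) hk]; exact hs.mem k (by omega)
  · rw [hg 0 (Nat.zero_le _)]; exact hs.first
  · rw [hg _ le_rfl, hlen]; exact hs.last
  · rw [hg a ha, hg b hb] at hab
    exact hs.inj (by simpa [← hlen] using ha) (by simpa [← hlen] using hb) hab
  · rw [cost_congr t hg]
    have := hs.least w M hw
    rwa [hlen]

lemma g_zero (h : OK t) (x : V) : g t K o x 0 = x := by
  by_cases hx : ∃ v L, GeoIn t K x o v L
  · obtain ⟨v, L, hv⟩ := hx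
    exact (geo_g h ⟨v, L, hv.toPathIn⟩).first
  · simp [g, hx]

lemma g_const (x : V) {i : ℕ} (hi : len t K o x ≤ i) :
    g t K o x i = g t K o x (len t K o x) := by
  unfold g
  split_ifs with hx
  · rw [min_eq_right hi, min_self]
  · rfl

lemma not_reach (h : OK t) {x : V} (hx : ¬ Conn K o x) :
    len t K o x = 0 ∧ ∀ i, g t K o x i = x := by
  have : ¬ ∃ v L, GeoIn t K x o v L := fun ⟨v, L, hv⟩ => hx ⟨v, L, hv.toPathIn⟩
  simp [len, g, this]

lemma geo_unique (h : OK t) {x : V} {v : ℕ → V} {L : ℕ} (hv : GeoIn t K x o v L) :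
    L = len t K o x ∧ ∀ i ≤ L, v i = g t K o x i := by
  have hg := geo_g h ⟨v, L, hv.toPathIn⟩
  exact h.uniq v _ L _ hv.path hg.path hv.inj hg.inj (hv.first.trans hg.first.symm)
    (hv.last.trans hg.last.symm) (le_antisymm (hv.least _ _ hg.toPathIn) (hg.least _ _ hv.toPathIn))

lemma g_len (h : OK t) {x : V} (hx : Conn K o x) : g t K o x (len t K o x) = o :=
  (geo_g h hx).last

lemma reach_g (h : OK t) {x : V} (hx : Conn K o x) (i : ℕ) : Conn K o (g t K o x i) := by
  have hg := geo_g h hx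
  by_cases hi : i ≤ len t K o x
  · have := pathIn_sub hg.toPathIn hi le_rfl
    rw [hg.last] at this
    exact ⟨_, _, this⟩
  · rw [g_const x (by omega), g_len h hx]
    exact ⟨fun _ => o, 0, ⟨fun k hk => by omega, fun k hk => by omega, rfl, rfl⟩⟩

lemma geo_suffix (h : OK t) {x : V} (hx : Conn K o x) {i : ℕ} (hi : i ≤ len t K o x) :
    GeoIn t K (g t K o x i) o (fun k => g t K o x (i + k)) (len t K o x - i) := by
  have hg := geo_g h hx
  have hp := pathIn_sub hg.toPathIn hi le_rfl
  rw [hg.last] at hp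
  refine ⟨hp, fun a ha b hb hab => ?_, fun w M hw => ?_⟩
  · simp only [Set.mem_Iic] at ha hb
    have := hg.inj (show i + a ∈ Set.Iic _ by simp only [Set.mem_Iic]; omega)
      (show i + b ∈ Set.Iic _ by simp only [Set.mem_Iic]; omega) hab
    omega
  · have hpre := pathIn_sub hg.toPathIn (Nat.zero_le i) hi
    rw [hg.first, Nat.sub_zero] at hpre
    have := hg.least _ _ (pathIn_cat hpre hw)
    rw [cat_cost t (by simp [hw.first]), cost_split t _ hi,
      cost_congr t (v := fun k => g t K o x (0 + k)) (w := g t K o x) (fun k _ => by simp)] at this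
    linarith

lemma len_g (h : OK t) (x : V) (i : ℕ) : len t K o (g t K o x i) = len t K o x - i := by
  by_cases hx : Conn K o x
  · by_cases hi : i ≤ len t K o x
    · exact (geo_unique h (geo_suffix h hx hi)).1.symm
    · rw [g_const x (by omega), g_len h hx, show len t K o x - i = 0 by omega]
      exact (geo_unique h (v := fun _ => o) (L := 0) ⟨⟨fun k hk => by omega, fun k hk => by omega,
        rfl, rfl⟩, fun a ha b hb _ => by simp only [Set.mem_Iic] at ha hb; omega,
        fun w M _ => by simpa [cost] using cost_nonneg h.pos w M⟩).1.symm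
  · simp [not_reach h hx]

lemma g_g (h : OK t) (x : V) (i j : ℕ) :
    g t K o (g t K o x i) j = g t K o x (i + j) := by
  by_cases hx : Conn K o x
  · by_cases hi : i ≤ len t K o x
    · have hu := geo_unique h (geo_suffix h hx hi)
      by_cases hj : j ≤ len t K o x - i
      · exact (hu.2 j hj).symm
      · rw [g_const _ (show len t K o (g t K o x i) ≤ j by rw [len_g h]; omega),
          g_len h (reach_g h hx i), g_const x (show len t K o x ≤ i + j by omega), g_len h hx]
    · have hr := reach_g h hx i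
      rw [g_const _ (show len t K o (g t K o x i) ≤ j by rw [len_g h]; omega), g_len h hr,
        g_const x (show len t K o x ≤ i + j by omega), g_len h hx]
  · simp [not_reach h hx]

lemma val_split (h : OK t) (x : V) {i : ℕ} (hi : i ≤ len t K o x) :
    val t K o x = cost t (g t K o x) i + val t K o (g t K o x i) := by
  rw [val, val, cost_split t _ hi, len_g h]
  exact congrArg₂ (· + ·) rfl (cost_congr t fun k _ => (g_g h x i k).symm)

lemma val_le (h : OK t) {x : V} {v : ℕ → V} {L : ℕ} (hv : PathIn K x o v L) :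
    val t K o x ≤ cost t v L := (geo_g h ⟨v, L, hv⟩).least v L hv

lemma anc_sub (h : OK t) {x y : V} (hy : y ∈ Anc t K o x) :
    Anc t K o y ⊆ Anc t K o x := by
  obtain ⟨i, rfl⟩ := hy
  rintro z ⟨j, rfl⟩
  exact ⟨i + j, (g_g h x i j).symm⟩

/-! ## The tree of a set of leaves, merges -/

/-- `x` lies on the geodesic of a leaf. -/
def Tr (t : Conf) (K : Set (Sym2 V)) (o : V) (B : Set V) (x : V) : Prop :=
  ∃ b ∈ B, x ∈ Anc t K o b

/-- Two branches merge at `w`. -/
def Mrg (t : Conf) (K : Set (Sym2 V)) (o : V) (B : Set V) (w : V) : Prop :=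
  ∃ z z', Tr t K o B z ∧ Tr t K o B z' ∧ z ≠ z' ∧ 0 < len t K o z ∧ 0 < len t K o z' ∧
    g t K o z 1 = w ∧ g t K o z' 1 = w

lemma tr_g (h : OK t) {B : Set V} {x : V} (hx : Tr t K o B x) (i : ℕ) :
    Tr t K o B (g t K o x i) := by
  obtain ⟨b, hb, hxb⟩ := hx
  exact ⟨b, hb, anc_sub h hxb ⟨i, rfl⟩⟩

/-- Each merge is the first meeting of a later leaf with the earlier ones. -/
lemma mrg_first (h : OK t) (B : Finset V) {w : V} (hw : Mrg t K o B w) :
    ∃ b ∈ B, ∃ k, 1 ≤ k ∧ k ≤ len t K o b ∧ g t K o b k = w ∧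
      (∃ b' ∈ B, Encodable.encode b' < Encodable.encode b ∧ w ∈ Anc t K o b') ∧
      ∀ i < k, ∀ b' ∈ B, Encodable.encode b' < Encodable.encode b →
        g t K o b i ∉ Anc t K o b' := by
  obtain ⟨z, z', hz, hz', hne, hl, hl', hw1, hw2⟩ := hw
  obtain ⟨m, hm, hmin⟩ := (B.filter fun b => z ∈ Anc t K o b).exists_min_image Encodable.encode
    (by obtain ⟨b, hb, hzb⟩ := hz; exact ⟨b, Finset.mem_filter.2 ⟨hb, hzb⟩⟩)
  obtain ⟨m', hm', hmin'⟩ := (B.filter fun b => z' ∈ Anc t K o b).exists_min_image Encodable.encode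
    (by obtain ⟨b, hb, hzb⟩ := hz'; exact ⟨b, Finset.mem_filter.2 ⟨hb, hzb⟩⟩)
  have two : ∀ b a c, 0 < len t K o (g t K o b a) → 0 < len t K o (g t K o b c) →
      g t K o b (a + 1) = g t K o b (c + 1) → a = c := by
    intro b a c ha hc he
    by_cases hb : Conn K o b
    · rw [len_g h] at ha hc
      have := (geo_g h hb).inj (show a + 1 ∈ Set.Iic _ by simp only [Set.mem_Iic]; omega)
        (show c + 1 ∈ Set.Iic _ by simp only [Set.mem_Iic]; omega) he
      omega
    · have := (not_reach h hb).1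
      rw [len_g h] at ha
      omega
  have hmm : m ≠ m' := by
    rintro rfl
    obtain ⟨a, ha⟩ := (Finset.mem_filter.1 hm).2
    obtain ⟨c, hc⟩ := (Finset.mem_filter.1 hm').2
    apply hne
    rw [← ha, ← hc, two m a c (by rw [ha]; exact hl) (by rw [hc]; exact hl')
      (by rw [← g_g h, ← g_g h, ha, hc, hw1, hw2])]
  wlog hlt : Encodable.encode m < Encodable.encode m' generalizing z z' m m'
  · exact this z' z hz' hz hne.symm hl' hl hw2 hw1 m' hm' hmin' m hm hmin hmm.symm
      (lt_of_le_of_ne (not_lt.1 hlt) fun he => hmm (Encodable.encode_injective he).symm)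
  obtain ⟨c, hc⟩ := (Finset.mem_filter.1 hm').2
  have hcL : c + 1 ≤ len t K o m' := by
    have := len_g h (K := K) (o := o) m' c
    rw [hc] at this
    omega
  have hw' : g t K o m' (c + 1) = w := by rw [← g_g h, hc, hw2]
  refine ⟨m', (Finset.mem_filter.1 hm').1, c + 1, by omega, hcL, hw', ⟨m,
    (Finset.mem_filter.1 hm).1, hlt, anc_sub h (Finset.mem_filter.1 hm).2 ⟨1, hw1⟩⟩, ?_⟩
  intro i hi b' hb' hlt' hmem
  have : z' ∈ Anc t K o b' := anc_sub h hmem ⟨c - i, by rw [g_g h, show i + (c - i) = c by omega, hc]⟩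
  exact absurd (hmin' b' (Finset.mem_filter.2 ⟨hb', this⟩)) (not_le.2 hlt')

/-- At most as many merges as leaves. -/
lemma mrg_card_le (h : OK t) (B : Finset V) (W : Finset V) (hW : ∀ w ∈ W, Mrg t K o B w) :
    W.card ≤ B.card := by
  choose! b hb k hk1 hkL hkw hearly hfirst using fun w hw => mrg_first h B (hW w hw)
  refine Finset.card_le_card_of_injOn b (fun w hw => hb w hw) fun w hw w' hw' he => ?_
  rcases lt_trichotomy (k w) (k w') with hlt | heq | hgt
  · obtain ⟨b', hb', hl, hmem⟩ := hearly w hw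
    refine absurd hmem ?_
    rw [← hkw w hw, he]
    exact hfirst w' hw' _ hlt b' hb' (he ▸ hl)
  · rw [← hkw w hw, ← hkw w' hw', he, heq]
  · obtain ⟨b', hb', hl, hmem⟩ := hearly w' hw'
    refine absurd hmem ?_
    rw [← hkw w' hw', ← he]
    exact hfirst w hw _ hgt b' hb' (he ▸ hl)

/-- Merges in an inner box against the tree in a larger one. -/
lemma mrg_gap_le (h : OK t) (B : Finset V) (z0 : V) (r1 d : ℕ) (hB : ∀ b ∈ B, b ∉ box z0 (r1 + d))
    (W S : Finset V) (hW : ∀ w ∈ W, Mrg t K o B w ∧ w ∈ box z0 r1)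
    (hS : ∀ x, Tr t K o B x → x ∈ box z0 (r1 + d) → x ∈ S) :
    W.card * d ≤ S.card := by
  choose! b hb k hk1 hkL hkw hearly hfirst using fun w hw => mrg_first h B (hW w hw).1
  have hstep : ∀ w ∈ W, ∀ l ≤ k w, g t K o (b w) (k w - l) ∈ box z0 (r1 + l) := by
    intro w hw l hl
    by_cases hr : Conn K o (b w)
    · have hg := geo_g h hr
      have hp := path_dist (hg.path.shift (show k w - l ≤ k w by omega) (hkL w hw)) l (by omega)
      simp only [add_zero, show k w - l + l = k w by omega, hkw w hw] at hp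
      exact box_trans (hW w hw).2 (box_symm hp)
    · have := (not_reach h hr).1
      have := hkL w hw
      have := hk1 w hw
      omega
  have hfar : ∀ w ∈ W, d < k w := by
    intro w hw
    by_contra hle
    have := hstep w hw (k w) le_rfl
    rw [Nat.sub_self, g_zero h] at this
    exact hB _ (hb w hw) (box_mono z0 (by omega) this)
  have hcard : (W ×ˢ Finset.Icc 1 d).card = W.card * d := by simp
  rw [← hcard]
  refine Finset.card_le_card_of_injOn (fun p => g t K o (b p.1) (k p.1 - p.2)) ?_ ?_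
  · rintro ⟨w, l⟩ hp
    simp only [Finset.mem_coe, Finset.mem_product, Finset.mem_Icc] at hp
    have := hfar w hp.1
    exact hS _ ⟨b w, hb w hp.1, ⟨k w - l, rfl⟩⟩
      (box_mono z0 (by omega) (hstep w hp.1 l (by omega)))
  · rintro ⟨w, l⟩ hp ⟨w', l'⟩ hp' he
    simp only [Finset.mem_coe, Finset.mem_product, Finset.mem_Icc] at hp hp'
    simp only at he
    have hk := hfar w hp.1
    have hk' := hfar w' hp'.1
    rcases lt_trichotomy (Encodable.encode (b w)) (Encodable.encode (b w')) with hlt | heq | hgt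
    · exact absurd ⟨k w - l, he⟩ (hfirst w' hp'.1 (k w' - l') (by omega) (b w) (hb w hp.1) hlt)
    · have hbb : b w = b w' := Encodable.encode_injective heq
      have hww : w = w' := by
        rcases lt_trichotomy (k w) (k w') with h1 | h1 | h1
        · obtain ⟨b', hb', hl, hmem⟩ := hearly w hp.1
          rw [← hkw w hp.1, hbb] at hmem
          exact absurd hmem (hfirst w' hp'.1 _ h1 b' hb' (hbb ▸ hl))
        · rw [← hkw w hp.1, ← hkw w' hp'.1, hbb, h1]
        · obtain ⟨b', hb', hl, hmem⟩ := hearly w' hp'.1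
          rw [← hkw w' hp'.1, ← hbb] at hmem
          exact absurd hmem (hfirst w hp.1 _ h1 b' hb' (hbb ▸ hl))
      subst hww
      have hr : Conn K o (b w) := by
        by_contra hr
        have := (not_reach h hr).1
        have := hkL w hp.1
        omega
      have := (geo_g h hr).inj (show k w - l ∈ Set.Iic _ by
          simp only [Set.mem_Iic]; have := hkL w hp.1; omega)
        (show k w - l' ∈ Set.Iic _ by simp only [Set.mem_Iic]; have := hkL w hp.1; omega) he
      rw [show l = l' by omega]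
    · exact absurd ⟨k w' - l', he.symm⟩ (hfirst w hp.1 (k w - l) (by omega) (b w') (hb w' hp'.1) hgt)

/-! ## The local pattern -/

/-- The pattern at `u`: a short cheap detour off the ancestry of `u` to a vertex whose geodesic
avoids that ancestry for `H` steps. -/
def FF (t : Conf) (K : Set (Sym2 V)) (o : V) (R : ℕ) (c : ℝ) (H : ℕ) (u : V) : Prop :=
  ∃ y P l, l ≤ R ∧ PathIn K u y P l ∧ (∀ k < l, t s(P k, P (k + 1)) ≤ c) ∧
    (∀ k < l, s(P k, P (k + 1)) ∉ AncE t K o u) ∧ ∀ i ≤ H, g t K o y i ∉ Anc t K o u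

lemma anc_index {x y : V} (hy : y ∈ Anc t K o x) :
    ∃ i ≤ len t K o x, g t K o x i = y := by
  obtain ⟨i, rfl⟩ := hy
  by_cases hi : i ≤ len t K o x
  · exact ⟨i, hi, rfl⟩
  · exact ⟨_, le_rfl, (g_const x (by omega)).symm⟩

lemma tr_reach (h : OK t) {B : Set V} (hB : ∀ b ∈ B, Conn K o b) {x : V}
    (hx : Tr t K o B x) : Conn K o x := by
  obtain ⟨b, hb, i, rfl⟩ := hx
  exact reach_g h (hB b hb) i

/-- Short paths inside a box. -/
lemma box_path (z : V) (R : ℕ) : ∀ (n : ℕ) (a b : V),
    (a.1 - b.1).natAbs + (a.2 - b.2).natAbs = n → a ∈ box z R → b ∈ box z R →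
    ∃ P, IsPath P n ∧ P 0 = a ∧ P n = b ∧ ∀ k ≤ n, P k ∈ box z R := by
  intro n
  induction n with
  | zero =>
    intro a b hn ha _
    refine ⟨fun _ => a, fun k hk => by omega, rfl, ?_, fun k _ => ha⟩
    change a = b
    ext <;> omega
  | succ n ih =>
    intro a b hn ha hb
    obtain ⟨a', hadj, hn', ha'⟩ : ∃ a', Adj a a' ∧
        (a'.1 - b.1).natAbs + (a'.2 - b.2).natAbs = n ∧ a' ∈ box z R := by
      simp only [box, Set.mem_ofPred_eq, abs_le] at ha hb
      rcases lt_trichotomy a.1 b.1 with h1 | h1 | h1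
      · refine ⟨(a.1 + 1, a.2), by simp [Adj], by simp only; omega, ?_⟩
        simp only [box, Set.mem_ofPred_eq, abs_le]; omega
      · rcases lt_trichotomy a.2 b.2 with h2 | h2 | h2
        · refine ⟨(a.1, a.2 + 1), by simp [Adj], by simp only; omega, ?_⟩
          simp only [box, Set.mem_ofPred_eq, abs_le]; omega
        · omega
        · refine ⟨(a.1, a.2 - 1), by simp [Adj], by simp only; omega, ?_⟩
          simp only [box, Set.mem_ofPred_eq, abs_le]; omega
      · refine ⟨(a.1 - 1, a.2), by simp [Adj], by simp only; omega, ?_⟩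
        simp only [box, Set.mem_ofPred_eq, abs_le]; omega
    obtain ⟨P, hP, hP0, hPn, hPb⟩ := ih a' b hn' ha' hb
    refine ⟨fun k => if k = 0 then a else P (k - 1), fun k hk => ?_, by simp, by simp [hPn],
      fun k hk => ?_⟩
    · rcases k with - | k
      · simpa [hP0] using hadj
      · simpa using hP k (by omega)
    · rcases k with - | k
      · simpa using ha
      · simpa using hPb k (by omega)

/-- A chain with many cheaply connected pairs is impossible. -/
lemma chain_pairs (h : OK t) {y0 : V} (hy0 : Conn K o y0) (N : Finset V)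
    (hN : ↑N ⊆ Anc t K o y0) (L : ℕ) (C : ℝ) (Bd : Finset (V × V))
    (hpair : ∀ a ∈ N, ∀ b ∈ N, (a, b) ∉ Bd → ∃ v M, PathIn K a b v M ∧ cost t v M ≤ C)
    (htough : ∀ a ∈ N, ∀ v : ℕ → V, IsPath v L → Set.InjOn v (Set.Iic L) → v 0 = a →
      C < cost t v L) :
    N.card * N.card ≤ 2 * Bd.card + 2 * L * N.card := by
  have hg := geo_g h hy0
  choose! idx hidx hgidx using fun a (ha : a ∈ N) => anc_index (hN ha)
  have gap : ∀ a ∈ N, ∀ b ∈ N, (a, b) ∉ Bd → idx b < idx a + L := by
    intro a ha b hb hab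
    by_contra hge
    rw [not_lt] at hge
    obtain ⟨v, M, hv, hc⟩ := hpair a ha b hb hab
    have hpre := pathIn_sub hg.toPathIn (Nat.zero_le (idx a)) (hidx a ha)
    rw [hg.first, Nat.sub_zero, hgidx a ha] at hpre
    have hsuf := pathIn_sub hg.toPathIn (hidx b hb) le_rfl
    rw [hg.last, hgidx b hb] at hsuf
    have h1 := hg.least _ _ (pathIn_cat (pathIn_cat hpre hv) hsuf)
    rw [cat_cost t (by rw [hsuf.first]; exact ((pathIn_cat hpre hv).last).symm),
      cat_cost (v := fun k => g t K o y0 (0 + k)) (L := idx a) t (hv.first.trans hpre.last.symm),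
      cost_split t _ (hidx b hb),
      cost_congr t (v := fun k => g t K o y0 (0 + k)) (w := g t K o y0) (fun k _ => by simp),
      cost_split t (g t K o y0) (show idx a ≤ idx b by omega)] at h1
    have hsub := pathIn_sub hg.toPathIn (show idx a ≤ idx b by omega) (hidx b hb)
    have h2 := htough a ha (fun k => g t K o y0 (idx a + k))
      (fun k hk => hsub.path k (by omega)) (fun p hp q hq he => by
        simp only [Set.mem_Iic] at hp hq
        have := hidx b hb
        have := hg.inj (show idx a + p ∈ Set.Iic _ by simp only [Set.mem_Iic]; omega)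
          (show idx a + q ∈ Set.Iic _ by simp only [Set.mem_Iic]; omega) he
        omega) (by simp [hgidx a ha])
    have h3 := cost_mono t h.pos (fun k => g t K o y0 (idx a + k))
      (show L ≤ idx b - idx a by omega)
    linarith
  set Near := N.biUnion fun a =>
    (N.filter fun b => idx b < idx a + L ∧ idx a < idx b + L).image fun b => (a, b) with hNear
  have hcover : N ×ˢ N ⊆ (Bd ∪ Near) ∪ (Bd.image Prod.swap) := by
    rintro ⟨a, b⟩ hp
    rw [Finset.mem_product] at hp
    by_cases h1 : (a, b) ∈ Bd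
    · simp [h1]
    by_cases h2 : (b, a) ∈ Bd
    · exact Finset.mem_union_right _ (Finset.mem_image.2 ⟨(b, a), h2, rfl⟩)
    refine Finset.mem_union_left _ (Finset.mem_union_right _ ?_)
    simp only [hNear, Finset.mem_biUnion, Finset.mem_image, Finset.mem_filter]
    exact ⟨a, hp.1, b, ⟨hp.2, gap a hp.1 b hp.2 h1, gap b hp.2 a hp.1 h2⟩, rfl⟩
  have hone : N ×ˢ N ⊆ (Bd.filter (fun p => p.1 ∈ N ∧ p.2 ∈ N)) ∪
      ((Bd.filter (fun p => p.1 ∈ N ∧ p.2 ∈ N)).image Prod.swap) ∪ Near := by
    intro p hp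
    have hp' := Finset.mem_product.1 hp
    have := hcover hp
    simp only [Finset.mem_union, Finset.mem_image, Finset.mem_filter] at this ⊢
    rcases this with (h1 | h1) | ⟨q, hq, rfl⟩
    · exact Or.inl (Or.inl ⟨h1, hp'⟩)
    · exact Or.inr h1
    · exact Or.inl (Or.inr ⟨q, ⟨hq, hp'.2, hp'.1⟩, rfl⟩)
  have hNc : Near.card ≤ 2 * L * N.card := by
    refine Finset.card_biUnion_le.trans ?_
    rw [mul_comm _ N.card, ← smul_eq_mul, ← Finset.sum_const]
    refine Finset.sum_le_sum fun a ha => Finset.card_image_le.trans ?_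
    refine (Finset.card_le_card_of_injOn idx
      (t := Finset.Ico (idx a - L) (idx a + L)) ?_ ?_).trans (by simp; omega)
    · intro b hb
      simp only [Finset.coe_filter, Set.mem_ofPred_eq] at hb
      simp only [Finset.coe_Ico, Set.mem_Ico]
      omega
    · intro b hb b' hb' he
      simp only [Finset.coe_filter, Set.mem_ofPred_eq] at hb hb'
      rw [← hgidx b hb.1, ← hgidx b' hb'.1, he]
  have := (Finset.card_le_card hone).trans
    ((Finset.card_union_le _ _).trans (Nat.add_le_add (Finset.card_union_le _ _) hNc))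
  rw [Finset.card_product] at this
  have e1 := Finset.card_image_le (f := Prod.swap) (s := Bd.filter (fun p => p.1 ∈ N ∧ p.2 ∈ N))
  have e2 := Finset.card_filter_le Bd (fun p => p.1 ∈ N ∧ p.2 ∈ N)
  omega

/-- A crowded ball without merges nearby contains the pattern, unless it is a single chain. -/
lemma ball_pattern (h : OK t) {B : Set V} (hB : ∀ b ∈ B, Conn K o b) (z : V) (R H : ℕ) (c : ℝ)
    (hK : ∀ a b, a ∈ box z R → b ∈ box z R → Adj a b → s(a, b) ∈ K ∧ t s(a, b) ≤ c)
    (N : Finset V) (hN : ∀ x ∈ N, Tr t K o B x ∧ x ∈ box z R) (hNne : N.Nonempty)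
    (hmrg : ∀ w ∈ box z (R + H), ¬ Mrg t K o B w)
    (hchain : ∀ y ∈ N, ¬ (↑N : Set V) ⊆ Anc t K o y) :
    ∃ u ∈ box z R, Tr t K o B u ∧ FF t K o (4 * R) c H u := by
  obtain ⟨y1, h1, y2, h2, hn1, hn2⟩ : ∃ y1 ∈ N, ∃ y2 ∈ N, y2 ∉ Anc t K o y1 ∧
      y1 ∉ Anc t K o y2 := by
    by_contra hno
    push Not at hno
    obtain ⟨y0, hy0, hmax⟩ := N.exists_max_image (fun x => len t K o x) hNne
    refine hchain y0 hy0 fun x hx => ?_
    by_contra hxa
    obtain ⟨i, hi, hgi⟩ := anc_index (hno y0 hy0 x hx hxa)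
    have := len_g h (K := K) (o := o) x i
    rw [hgi] at this
    have := hmax x hx
    have : i = 0 ∨ len t K o x = 0 := by omega
    rcases this with rfl | h0
    · rw [g_zero h] at hgi
      exact hxa (hgi ▸ ⟨0, g_zero h x⟩)
    · rw [g_const x (by omega), h0, g_zero h] at hgi
      exact hxa (hgi ▸ ⟨0, g_zero h x⟩)
  obtain ⟨t1, b1⟩ := hN y1 h1
  obtain ⟨t2, b2⟩ := hN y2 h2
  have r1 := tr_reach h hB t1
  have r2 := tr_reach h hB t2
  have far : ∀ i ≤ H, g t K o y1 i ∉ Anc t K o y2 := by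
    intro i hi hmem
    have hex : ∃ i, g t K o y1 i ∈ Anc t K o y2 := ⟨i, hmem⟩
    set i0 := Nat.find hex with hi0
    have hs : g t K o y1 i0 ∈ Anc t K o y2 := Nat.find_spec hex
    have hle : i0 ≤ i := Nat.find_min' hex hmem
    have hpos : 0 < i0 := by
      by_contra h0
      rw [show i0 = 0 by omega, g_zero h] at hs
      exact hn2 hs
    have hi0L : i0 ≤ len t K o y1 := Nat.find_min' hex
      ⟨len t K o y2, by rw [g_len h r1, g_len h r2]⟩
    obtain ⟨j, hj, hgj⟩ := anc_index hs
    have hj0 : 0 < j := by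
      by_contra h0
      rw [show j = 0 by omega, g_zero h] at hgj
      exact hn1 ⟨i0, hgj.symm⟩
    have hwin : g t K o y1 i0 ∈ box z (R + H) := by
      have := path_dist ((geo_g h r1).path) i0 hi0L
      rw [(geo_g h r1).first] at this
      exact box_mono z (by omega) (box_trans b1 this)
    refine hmrg _ hwin ⟨g t K o y1 (i0 - 1), g t K o y2 (j - 1), tr_g h t1 _, tr_g h t2 _,
      fun he => ?_, by rw [len_g h]; omega, by rw [len_g h]; omega, ?_, ?_⟩
    · exact Nat.find_min hex (show i0 - 1 < i0 by omega) ⟨j - 1, he.symm⟩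
    · rw [g_g h, show i0 - 1 + 1 = i0 by omega]
    · rw [g_g h, show j - 1 + 1 = j by omega, hgj]
  obtain ⟨P, hP, hP0, hPn, hPb⟩ := box_path z R _ y2 y1 rfl b2 b1
  set n := (y2.1 - y1.1).natAbs + (y2.2 - y1.2).natAbs with hn
  have hn4 : n ≤ 4 * R := by
    simp only [box, Set.mem_ofPred_eq, abs_le] at b1 b2
    omega
  set k0 := Nat.findGreatest (fun k => P k ∈ Anc t K o y2) n with hk0
  have hk0m : P k0 ∈ Anc t K o y2 :=
    Nat.findGreatest_spec (P := fun k => P k ∈ Anc t K o y2) (Nat.zero_le n)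
      (by rw [hP0]; exact ⟨0, g_zero h y2⟩)
  have hk0n : k0 ≤ n := Nat.findGreatest_le n
  have hafter : ∀ k, k0 < k → k ≤ n → P k ∉ Anc t K o y2 := fun k h1 h2 =>
    Nat.findGreatest_is_greatest h1 h2
  have hsub := anc_sub h hk0m
  refine ⟨P k0, hPb k0 hk0n, ?_, y1, fun k => P (k0 + k), n - k0, by omega,
    ⟨hP.shift hk0n le_rfl, fun k hk => ?_, by simp, ?_⟩, fun k hk => ?_, fun k hk he => ?_,
    fun i hi hmem => far i hi (hsub hmem)⟩
  · obtain ⟨i, hi⟩ := hk0m
    exact hi ▸ tr_g h t2 i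
  · exact (hK _ _ (hPb _ (by omega)) (hPb _ (by omega)) (by simpa [add_assoc] using hP (k0 + k) (by omega))).1
  · simp [show k0 + (n - k0) = n by omega, hPn]
  · exact (hK _ _ (hPb _ (by omega)) (hPb _ (by omega)) (by simpa [add_assoc] using hP (k0 + k) (by omega))).2
  · obtain ⟨i, -, hie⟩ := he
    have hmem : P (k0 + (k + 1)) ∈ s(g t K o (P k0) i, g t K o (P k0) (i + 1)) := by
      rw [hie]; exact Sym2.mem_mk_right _ _
    refine hafter (k0 + (k + 1)) (by omega) (by omega) (hsub ?_)
    rcases Sym2.mem_iff.1 hmem with hm | hm <;> exact ⟨_, hm.symm⟩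

/-! ## Lowering weights on the ancestry -/

lemma inj_edge {v : ℕ → V} {L : ℕ} (hv : Set.InjOn v (Set.Iic L)) {k l : ℕ} (hk : k < L)
    (hl : l < L) (he : s(v k, v (k + 1)) = s(v l, v (l + 1))) : k = l := by
  rcases Sym2.eq_iff.1 he with ⟨h1, -⟩ | ⟨h1, h2⟩
  · exact hv (by simp only [Set.mem_Iic]; omega) (by simp only [Set.mem_Iic]; omega) h1
  · have e1 := hv (by simp only [Set.mem_Iic]; omega) (by simp only [Set.mem_Iic]; omega) h1
    have e2 := hv (by simp only [Set.mem_Iic]; omega) (by simp only [Set.mem_Iic]; omega) h2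
    omega

lemma cost_le_cost (hle : ∀ e, t' e ≤ t e) (v : ℕ → V) (L : ℕ) : cost t' v L ≤ cost t v L :=
  Finset.sum_le_sum fun _ _ => hle _

lemma cost_eq_off {π : Finset (Sym2 V)} (hoff : ∀ e ∉ π, t' e = t e) {v : ℕ → V} {L : ℕ}
    (hv : ∀ k < L, s(v k, v (k + 1)) ∉ π) : cost t' v L = cost t v L :=
  Finset.sum_congr rfl fun k hk => hoff _ (hv k (Finset.mem_range.1 hk))

lemma gain_le {π : Finset (Sym2 V)} (hoff : ∀ e ∉ π, t' e = t e) (hle : ∀ e, t' e ≤ t e)
    {v : ℕ → V} {L : ℕ} (hv : Set.InjOn v (Set.Iic L)) :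
    cost t v L ≤ cost t' v L + ∑ e ∈ π, (t e - t' e) := by
  have hcs : cost t v L - cost t' v L =
      ∑ k ∈ Finset.range L, (t s(v k, v (k + 1)) - t' s(v k, v (k + 1))) := by
    simp [cost, Finset.sum_sub_distrib]
  set I := (Finset.range L).filter fun k => s(v k, v (k + 1)) ∈ π with hI
  have h2 : ∑ k ∈ Finset.range L, (t s(v k, v (k + 1)) - t' s(v k, v (k + 1))) =
      ∑ e ∈ I.image (fun k => s(v k, v (k + 1))), (t e - t' e) := by
    rw [Finset.sum_image (fun k hk l hl he => inj_edge hv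
      (Finset.mem_range.1 (Finset.mem_filter.1 hk).1)
      (Finset.mem_range.1 (Finset.mem_filter.1 hl).1) he), Finset.sum_filter]
    refine Finset.sum_congr rfl fun k _ => ?_
    split_ifs with hm
    · rfl
    · rw [hoff _ hm, sub_self]
  have h3 : ∑ e ∈ I.image (fun k => s(v k, v (k + 1))), (t e - t' e) ≤ ∑ e ∈ π, (t e - t' e) := by
    refine Finset.sum_le_sum_of_subset_of_nonneg ?_ fun e _ _ => sub_nonneg.2 (hle e)
    intro e he
    obtain ⟨k, hk, rfl⟩ := Finset.mem_image.1 he
    exact (Finset.mem_filter.1 hk).2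
  linarith

lemma gain_eq {π : Finset (Sym2 V)} (hoff : ∀ e ∉ π, t' e = t e) {v : ℕ → V} {L : ℕ}
    (hv : Set.InjOn v (Set.Iic L)) (hπ : ∀ e ∈ π, ∃ k < L, s(v k, v (k + 1)) = e) :
    cost t v L = cost t' v L + ∑ e ∈ π, (t e - t' e) := by
  have hcs : cost t v L - cost t' v L =
      ∑ k ∈ Finset.range L, (t s(v k, v (k + 1)) - t' s(v k, v (k + 1))) := by
    simp [cost, Finset.sum_sub_distrib]
  have h2 : ∑ k ∈ Finset.range L, (t s(v k, v (k + 1)) - t' s(v k, v (k + 1))) =
      ∑ e ∈ π, (t e - t' e) := by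
    rw [← Finset.sum_image (f := fun e => t e - t' e) (g := fun k => s(v k, v (k + 1)))
      (fun k hk l hl he => inj_edge hv (Finset.mem_range.1 hk) (Finset.mem_range.1 hl) he)]
    refine (Finset.sum_subset ?_ fun e _ he => by rw [hoff e he, sub_self]).symm
    intro e he
    obtain ⟨k, hk, rfl⟩ := hπ e he
    exact Finset.mem_image_of_mem _ (Finset.mem_range.2 hk)
  linarith

/-- The data of one lowering step at `x`. -/
structure Low (t t' : Conf) (K : Set (Sym2 V)) (o : V) (π : Finset (Sym2 V)) (x : V)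
    (M D : ℕ) (R : ℕ) (c : ℝ) : Prop where
  ok : OK t
  ok' : OK t'
  reach : Conn K o x
  edges : ∀ e ∈ π, ∃ i < M, s(g t K o x i, g t K o x (i + 1)) = e
  hMD : M ≤ D
  hD : D ≤ len t K o x
  off : ∀ e ∉ π, t' e = t e
  le : ∀ e, t' e ≤ t e
  nonneg : 0 ≤ c
  gain : 2 * R * c < ∑ e ∈ π, (t e - t' e)
  far : ∀ i ≤ M, R * c < cost t (fun k => g t K o x (i + k)) (D - i)

namespace Low

variable {π : Finset (Sym2 V)} {x : V} {M D R : ℕ} {c : ℝ}

/-- Geodesics through `x` persist. -/
lemma through (hl : Low t t' K o π x M D R c) {k : V} (hk : Conn K o k) {j : ℕ}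
    (hj : g t K o k j = x) :
    len t' K o k = len t K o k ∧ (∀ i, g t' K o k i = g t K o k i) ∧
      val t' K o k = val t K o k - ∑ e ∈ π, (t e - t' e) := by
  have hg := geo_g hl.ok hk
  have hlen := len_g hl.ok (K := K) (o := o) k j
  rw [hj] at hlen
  have := hl.hMD
  have := hl.hD
  have heq : cost t (g t K o k) (len t K o k) =
      cost t' (g t K o k) (len t K o k) + ∑ e ∈ π, (t e - t' e) := by
    refine gain_eq hl.off hg.inj fun e he => ?_
    obtain ⟨i, hi, rfl⟩ := hl.edges e he
    exact ⟨j + i, by omega, by rw [← hj, g_g hl.ok, g_g hl.ok, add_assoc]⟩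
  have hgeo : GeoIn t' K k o (g t K o k) (len t K o k) := by
    refine ⟨hg.toPathIn, hg.inj, fun w N hw => ?_⟩
    obtain ⟨w', N', hw', hwi, hwc⟩ := exists_inj hl.ok'.pos N hw
    have h1 := hg.least w' N' hw'
    have h2 := gain_le hl.off hl.le hwi
    linarith
  obtain ⟨hL, hv⟩ := geo_unique hl.ok' hgeo
  have hval : val t' K o k = val t K o k - ∑ e ∈ π, (t e - t' e) := by
    rw [val, val, ← hL, cost_congr t' fun i hi => (hv i hi).symm]
    linarith
  refine ⟨hL.symm, fun i => ?_, hval⟩
  by_cases hi : i ≤ len t K o k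
  · exact (hv i hi).symm
  · rw [g_const k (show len t' K o k ≤ i by omega), g_const k (show len t K o k ≤ i by omega),
      ← hL, hv _ le_rfl]

lemma anc_eq (hl : Low t t' K o π x M D R c) {k : V} (hk : Conn K o k) {j : ℕ}
    (hj : g t K o k j = x) : Anc t' K o k = Anc t K o k ∧ AncE t' K o k = AncE t K o k := by
  obtain ⟨h1, h2, -⟩ := hl.through hk hj
  refine ⟨?_, ?_⟩
  · unfold Anc; exact congrArg Set.range (funext h2)
  · unfold AncE; simp [h1, h2]

/-- Geodesics of vertices that are cheap relative to the `D`-th ancestor keep away from `π`. -/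
lemma stable (hl : Low t t' K o π x M D R c) {y : V} (hy : Conn K o y)
    (hval : val t K o y ≤ R * c + val t K o (g t K o x D)) :
    len t' K o y = len t K o y ∧ ∀ i, g t' K o y i = g t K o y i := by
  have hg' := geo_g hl.ok' hy
  have hg := geo_g hl.ok hy
  have hclean : ∀ k < len t' K o y, s(g t' K o y k, g t' K o y (k + 1)) ∉ π := by
    by_contra hno
    push Not at hno
    obtain ⟨k1, hk1, hk1π⟩ := hno
    let k := Nat.findGreatest
      (fun k => k < len t' K o y ∧ s(g t' K o y k, g t' K o y (k + 1)) ∈ π) (len t' K o y)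
    have hks := Nat.findGreatest_spec
      (P := fun k => k < len t' K o y ∧ s(g t' K o y k, g t' K o y (k + 1)) ∈ π) hk1.le ⟨hk1, hk1π⟩
    obtain ⟨hkL, hkπ⟩ := hks
    obtain ⟨i, hi, hie⟩ := hl.edges _ hkπ
    have hz : ∃ a ≤ M, g t' K o y (k + 1) = g t K o x a := by
      have : g t' K o y (k + 1) ∈ s(g t K o x i, g t K o x (i + 1)) := by
        rw [hie]; exact Sym2.mem_mk_right _ _
      rcases Sym2.mem_iff.1 this with h | h
      exacts [⟨i, hi.le, h⟩, ⟨i + 1, hi, h⟩]
    obtain ⟨a, ha, hza⟩ := hz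
    have hp := pathIn_sub hg'.toPathIn (show k + 1 ≤ len t' K o y from hkL) le_rfl
    rw [hg'.last, hza] at hp
    have h1 := val_le hl.ok hp
    have h2 : cost t' (fun i => g t' K o y (k + 1 + i)) (len t' K o y - (k + 1)) =
        cost t (fun i => g t' K o y (k + 1 + i)) (len t' K o y - (k + 1)) := by
      refine cost_eq_off hl.off fun i hi hmem => ?_
      have := Nat.findGreatest_is_greatest
        (P := fun k => k < len t' K o y ∧ s(g t' K o y k, g t' K o y (k + 1)) ∈ π)
        (show k < k + 1 + i by omega) (by omega)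
      exact this ⟨by omega, by simpa [add_assoc] using hmem⟩
    have h3 := cost_split t' (g t' K o y) (show k + 1 ≤ len t' K o y from hkL)
    have h4 := cost_nonneg hl.ok'.pos (g t' K o y) (k + 1)
    have h5 := val_split hl.ok (K := K) (o := o) (g t K o x a) (i := D - a)
      (by rw [len_g hl.ok]; have := hl.hD; omega)
    rw [g_g hl.ok, show a + (D - a) = D by have := hl.hMD; omega,
      cost_congr t (fun i _ => g_g hl.ok x a i)] at h5
    have h6 := hl.far a ha
    have h7 := hg'.least _ _ hg.toPathIn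
    have h8 := cost_le_cost hl.le (g t K o y) (len t K o y)
    rw [val] at hval
    linarith
  have hgeo : GeoIn t K y o (g t' K o y) (len t' K o y) := by
    refine ⟨hg'.toPathIn, hg'.inj, fun w N hw => ?_⟩
    rw [← cost_eq_off hl.off hclean]
    exact (hg'.least w N hw).trans (cost_le_cost hl.le w N)
  obtain ⟨hL, hv⟩ := geo_unique hl.ok hgeo
  refine ⟨hL, fun i => ?_⟩
  by_cases hi : i ≤ len t' K o y
  · exact hv i hi
  · rw [g_const y (show len t' K o y ≤ i by omega), g_const y (show len t K o y ≤ i by omega),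
      ← hL, hv _ le_rfl]

lemma tail_path {u y : V} {P : ℕ → V} {l : ℕ} (h : OK t) (hu : Conn K o u)
    (hP : PathIn K u y P l) :
    Conn K o y ∧ val t K o y ≤ cost t P l + val t K o u := by
  have h2 := pathIn_cat (pathIn_rev hP) (geo_g h hu).toPathIn
  refine ⟨⟨_, _, h2⟩, (val_le h h2).trans (le_of_eq ?_)⟩
  rw [cat_cost t (by rw [g_zero h]; simp [Vale.Agent.P158.rev, hP.first]), rev_cost, val]

/-- The pattern at the `D`-th ancestor persists. -/
lemma ff_persist (hl : Low t t' K o π x M D R c) {H : ℕ}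
    (hF : FF t K o R c H (g t K o x D)) :
    g t' K o x D = g t K o x D ∧ FF t' K o R c H (g t K o x D) := by
  refine ⟨(hl.through hl.reach (g_zero hl.ok x)).2.1 D, ?_⟩
  have hu := reach_g hl.ok hl.reach D
  obtain ⟨hL, hv⟩ := hl.stable hu (by linarith [mul_nonneg (Nat.cast_nonneg (α := ℝ) R) hl.nonneg])
  obtain ⟨y, P, l, hlR, hP, hc, hoff, havoid⟩ := hF
  have hAnc : Anc t' K o (g t K o x D) = Anc t K o (g t K o x D) := by
    unfold Anc; exact congrArg Set.range (funext hv)
  have hAncE : AncE t' K o (g t K o x D) = AncE t K o (g t K o x D) := by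
    unfold AncE; simp [hL, hv]
  refine ⟨y, P, l, hlR, hP, fun k hk => (hl.le _).trans (hc k hk), hAncE ▸ hoff, fun i hi => ?_⟩
  obtain ⟨hy, hval⟩ := tail_path hl.ok hu hP
  have hPc : cost t P l ≤ R * c := by
    refine (Finset.sum_le_card_nsmul _ _ c fun k hk => hc k (Finset.mem_range.1 hk)).trans ?_
    rw [Finset.card_range, nsmul_eq_mul]
    exact mul_le_mul_of_nonneg_right (by exact_mod_cast hlR) hl.nonneg
  rw [hAnc, (hl.stable hy (by linarith)).2 i]
  exact havoid i hi

/-- Behind `x` the pattern fails. -/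
lemma not_ff_behind (hl : Low t t' K o π x M D R c) {H W : ℕ} {cW : ℝ} {k : V}
    (hk : Conn K o k) {j : ℕ} (hj : g t K o k j = x) (hjL : j ≤ len t K o k) (hjW : j ≤ W)
    (hcheap : cost t (g t K o k) (j + M) ≤ cW)
    (htough : ∀ y ∈ box x (W + R), ∀ v : ℕ → V, IsPath v H → Set.InjOn v (Set.Iic H) → v 0 = y →
      R * c + cW < cost t v H) :
    ¬ FF t' K o R c H k := by
  rintro ⟨y, P, l, hlR, hP, hc, hoff, havoid⟩
  have hok := hl.ok
  have hok' := hl.ok'
  have hMD := hl.hMD
  have hD := hl.hD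
  obtain ⟨hLk, hvk, hvalk⟩ := hl.through hk hj
  obtain ⟨hAnc, hAncE⟩ := hl.anc_eq hk hj
  have hlen := len_g hok (K := K) (o := o) k j
  rw [hj] at hlen
  have hPπ : ∀ i < l, s(P i, P (i + 1)) ∉ π := by
    intro i hi hmem
    obtain ⟨a, ha, hae⟩ := hl.edges _ hmem
    refine hoff i hi (hAncE ▸ ⟨j + a, by omega, ?_⟩)
    rw [← hae, ← hj, g_g hok, g_g hok, add_assoc]
  have hPt : cost t' P l = cost t P l := cost_eq_off hl.off hPπ
  have hPc : cost t' P l ≤ R * c := by
    refine (Finset.sum_le_card_nsmul _ _ c fun k hk => hc k (Finset.mem_range.1 hk)).trans ?_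
    rw [Finset.card_range, nsmul_eq_mul]
    exact mul_le_mul_of_nonneg_right (by exact_mod_cast hlR) hl.nonneg
  obtain ⟨hy, hvy'⟩ := tail_path hok' hk hP
  have hg' := geo_g hok' hy
  by_cases hclean : ∀ i < len t' K o y, s(g t' K o y i, g t' K o y (i + 1)) ∉ π
  · have h1 := val_le hok hg'.toPathIn
    rw [← cost_eq_off hl.off hclean] at h1
    change val t K o y ≤ val t' K o y at h1
    have h2 : val t K o k ≤ cost t P l + val t K o y := by
      have h2' := pathIn_cat hP (geo_g hok hy).toPathIn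
      refine (val_le hok h2').trans (le_of_eq ?_)
      rw [cat_cost t (by rw [g_zero hok]; exact hP.last.symm), val]
    have := hl.gain
    linarith
  · push Not at hclean
    have hex : ∃ i, i < len t' K o y ∧ s(g t' K o y i, g t' K o y (i + 1)) ∈ π :=
      let ⟨i, h1, h2⟩ := hclean; ⟨i, h1, h2⟩
    set i := Nat.find hex with hi
    obtain ⟨hiL, hiπ⟩ := Nat.find_spec hex
    obtain ⟨b, hb, hbe⟩ := hl.edges _ hiπ
    have hz : ∃ a ≤ M, g t' K o y i = g t K o k (j + a) := by
      have : g t' K o y i ∈ s(g t K o x b, g t K o x (b + 1)) := by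
        rw [hbe]; exact Sym2.mem_mk_left _ _
      rcases Sym2.mem_iff.1 this with h | h
      exacts [⟨b, hb.le, by rw [h, ← hj, g_g hok]⟩, ⟨b + 1, hb, by rw [h, ← hj, g_g hok]⟩]
    obtain ⟨a, ha, hza⟩ := hz
    have hiH : H < i := by
      by_contra hle
      exact havoid i (not_lt.1 hle) (hAnc ▸ ⟨j + a, hza.symm⟩)
    have h1 : cost t' (g t' K o y) i = cost t (g t' K o y) i :=
      cost_eq_off hl.off fun m hm hmem => Nat.find_min hex hm ⟨by omega, hmem⟩
    have h2 := val_split hok' (K := K) (o := o) y hiL.le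
    have h3 := val_split hok' (K := K) (o := o) k (i := j + a) (by rw [hLk]; omega)
    rw [hvk (j + a), ← hza, cost_congr t' (fun m _ => hvk m)] at h3
    have h4 := cost_le_cost hl.le (g t K o k) (j + a)
    have h5 := cost_mono t hok.pos (g t K o k) (show j + a ≤ j + M by omega)
    have hbox : y ∈ box x (W + R) := by
      have d1 := path_dist (geo_g hok hk).path j hjL
      rw [(geo_g hok hk).first, hj] at d1
      have d2 := path_dist hP.path l le_rfl
      rw [hP.first, hP.last] at d2
      exact box_mono x (by omega) (box_trans (box_symm d1) d2)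
    have h6 := htough y hbox (g t' K o y) (fun m hm => hg'.path m (by omega))
      (hg'.inj.mono (Set.Iic_subset_Iic.2 (by omega))) (g_zero hok' y)
    have h7 := cost_mono t hok.pos (g t' K o y) hiH.le
    linarith

end Low

end Vale.Agent.P158.NB.MD
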