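import Vale.Agent.P158.NB.MergeWindow

/-!
# P158 lemma A: the tree of the marks of a cycle
-/

namespace Vale.Agent.P158.NB.MD

open Vale.Agent.P158 Vale.Agent.P158.NB
open scoped Classical

variable {t : Conf}

/-! ## The tree of marks of a cycle -/

variable {C : Cyc}

/-- The marks of a cycle. -/
noncomputable def marks (C : Cyc) : Finset V := (Finset.range C.m).image C.c

lemma marks_card (C : Cyc) : (marks C).card ≤ C.m :=
  Finset.card_image_le.trans (Finset.card_range _).le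

lemma cyc_edge_inj {k l : ℕ} (hk : k < C.m) (hl : l < C.m)
    (he : s(C.c k, C.c (k + 1)) = s(C.c l, C.c (l + 1))) : k = l := by
  have three := C.three
  have key : ∀ i, i < C.m → ∃ j, j < C.m ∧ C.c (i + 1) = C.c j ∧
      (j = i + 1 ∨ j = 0 ∧ i + 1 = C.m) := by
    intro i hi
    by_cases h : i + 1 < C.m
    · exact ⟨i + 1, h, rfl, Or.inl rfl⟩
    · have e : i + 1 = C.m := by omega
      exact ⟨0, by omega, by rw [e, C.closed], Or.inr ⟨rfl, e⟩⟩
  rcases Sym2.eq_iff.1 he with ⟨h1, -⟩ | ⟨h1, h2⟩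
  · exact C.inj (Set.mem_Iio.2 hk) (Set.mem_Iio.2 hl) h1
  · obtain ⟨a, ha, hae, ha'⟩ := key l hl
    obtain ⟨b, hb, hbe, hb'⟩ := key k hk
    rw [hae] at h1
    rw [hbe] at h2
    have e1 := C.inj (Set.mem_Iio.2 hk) (Set.mem_Iio.2 ha) h1
    have e2 := C.inj (Set.mem_Iio.2 hb) (Set.mem_Iio.2 hl) h2
    omega

lemma par_cycle {k : ℕ} (hk : k < C.m) : NB.par C.c C.m s(C.c k, C.c (k + 1)) = 1 := by
  unfold NB.par
  rw [Finset.sum_eq_single_of_mem k (Finset.mem_range.2 hk)]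
  · simp [use]
  · intro l hl hne
    rw [use, if_neg fun he => hne (cyc_edge_inj (Finset.mem_range.1 hl) hk he)]

lemma edge_shape {a b : V} (h : Adj a b) : ∃ q : V, s(a, b) = vE q ∨ s(a, b) = hE q := by
  obtain ⟨a1, a2⟩ := a
  obtain ⟨b1, b2⟩ := b
  have := adj_cases h
  simp only [vE, hE, Sym2.eq_iff, Prod.mk.injEq, Prod.exists] at *
  rcases this with h | h | h | h
  · exact ⟨a1, a2, by omega⟩
  · exact ⟨b1, b2, by omega⟩
  · exact ⟨a1, a2, by omega⟩
  · exact ⟨b1, b2, by omega⟩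

lemma cyc_edge_mem {k : ℕ} (hk : k < C.m) : s(C.c k, C.c (k + 1)) ∈ C.edges := by
  have z2 : ∀ a b : ZMod 2, a + b = 1 → a = 1 ∨ b = 1 := by decide
  have hp := par_cycle (C := C) hk
  have hv : ∀ x y : ℤ, s(C.c k, C.c (k + 1)) = vE (x, y) → s(C.c k, C.c (k + 1)) ∈ C.edges := by
    intro x y h
    have h1 := col_cross_v C.path x y
    rw [← h, hp] at h1
    rcases z2 _ _ h1 with h2 | h2
    · exact ⟨(x - 1, y), Or.inr (Or.inl (by rw [h]; simp)), h2⟩
    · exact ⟨(x, y), Or.inl h, h2⟩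
  have hh : ∀ x y : ℤ, s(C.c k, C.c (k + 1)) = hE (x, y) → s(C.c k, C.c (k + 1)) ∈ C.edges := by
    intro x y h
    have h1 := col_cross_h C.path C.closed x y
    rw [← h, hp] at h1
    rcases z2 _ _ h1 with h2 | h2
    · exact ⟨(x, y - 1), Or.inr (Or.inr (Or.inr (by rw [h]; simp))), h2⟩
    · exact ⟨(x, y), Or.inr (Or.inr (Or.inl h)), h2⟩
  rcases edge_shape (C.path k hk) with ⟨q, hq | hq⟩
  exacts [hv q.1 q.2 hq, hh q.1 q.2 hq]

lemma marks_conn {a b : ℕ} (hb : b < C.m) : Conn C.edges (C.c (a % C.m)) (C.c b) := by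
  have ha : a % C.m < C.m := Nat.mod_lt _ (by have := C.three; omega)
  have seg : ∀ i j, i ≤ j → j ≤ C.m →
      PathIn C.edges (C.c i) (C.c j) (fun k => C.c (i + k)) (j - i) := fun i j hij hj =>
    pathIn_sub (v := C.c) (x := C.c 0) (y := C.c C.m)
      ⟨C.path, fun k hk => cyc_edge_mem hk, rfl, rfl⟩ hij hj
  rcases le_total b (a % C.m) with h | h
  · exact ⟨_, _, seg b _ h ha.le⟩
  · exact ⟨_, _, pathIn_rev (seg _ b h hb.le)⟩

lemma conn_of_mem_marks {a : ℕ} {b : V} (hb : b ∈ marks C) :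
    Conn C.edges (C.c (a % C.m)) b := by
  obtain ⟨i, hi, rfl⟩ := Finset.mem_image.1 hb
  exact marks_conn (Finset.mem_range.1 hi)

lemma marks_far {n : ℕ} (he : C.Encloses 0 n) {b : V} (hb : b ∈ marks C) : b ∉ box 0 n := by
  obtain ⟨i, hi, rfl⟩ := Finset.mem_image.1 hb
  exact he.1 i (Finset.mem_range.1 hi)

/-- Edges well inside belong to the domain. -/
lemma box_edge_mem {n : ℕ} (he : C.Encloses 0 n) {a b : V} (ha : a ∈ box 0 n) (hb : b ∈ box 0 n)
    (hab : Adj a b) (hn : 1 ≤ n) : s(a, b) ∈ C.edges := by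
  have inn : ∀ f : V, f ∈ box 0 n → (f.1 + 1, f.2 + 1) ∈ box 0 n → C.inner f := he.2
  simp only [box, Set.mem_ofPred_eq, Prod.fst_zero, Prod.snd_zero, sub_zero, abs_le] at ha hb inn
  rcases adj_cases hab with ⟨h1, h2⟩ | ⟨h1, h2⟩ | ⟨h1, h2⟩ | ⟨h1, h2⟩
  · have e : s(a, b) = s(a, (a.1 + 1, a.2)) := congrArg (fun q => s(a, q)) (Prod.ext h1 h2)
    by_cases ht : a.2 + 1 ≤ n
    · exact ⟨a, Or.inr (Or.inr (Or.inl (by rw [e]; rfl))), inn a (by omega) (by omega)⟩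
    · refine ⟨(a.1, a.2 - 1), Or.inr (Or.inr (Or.inr ?_)), inn _ (by omega) (by omega)⟩
      rw [e]; simp [hE]
  · have e : s(a, b) = s(b, (b.1 + 1, b.2)) :=
      Sym2.eq_swap.trans (congrArg (fun q => s(b, q)) (Prod.ext (by simp only; omega) (by simp only; omega)))
    by_cases ht : b.2 + 1 ≤ n
    · exact ⟨b, Or.inr (Or.inr (Or.inl (by rw [e]; rfl))), inn b (by omega) (by omega)⟩
    · refine ⟨(b.1, b.2 - 1), Or.inr (Or.inr (Or.inr ?_)), inn _ (by omega) (by omega)⟩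
      rw [e]; simp [hE]
  · have e : s(a, b) = s(a, (a.1, a.2 + 1)) := congrArg (fun q => s(a, q)) (Prod.ext h1 h2)
    by_cases ht : a.1 + 1 ≤ n
    · exact ⟨a, Or.inl (by rw [e]; rfl), inn a (by omega) (by omega)⟩
    · refine ⟨(a.1 - 1, a.2), Or.inr (Or.inl ?_), inn _ (by omega) (by omega)⟩
      rw [e]; simp [vE]
  · have e : s(a, b) = s(b, (b.1, b.2 + 1)) :=
      Sym2.eq_swap.trans (congrArg (fun q => s(b, q)) (Prod.ext (by simp only; omega) (by simp only; omega)))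
    by_cases ht : b.1 + 1 ≤ n
    · exact ⟨b, Or.inl (by rw [e]; rfl), inn b (by omega) (by omega)⟩
    · refine ⟨(b.1 - 1, b.2), Or.inr (Or.inl ?_), inn _ (by omega) (by omega)⟩
      rw [e]; simp [vE]

lemma tr_of_inTree (h : OK t) {a : ℕ} {x : V} (hx : C.InTree t a x) :
    Tr t C.edges (C.c (a % C.m)) (marks C) x := by
  obtain ⟨b, hb, v, L, hv, i, hi, rfl⟩ := hx
  exact ⟨C.c b, Finset.mem_image_of_mem _ (Finset.mem_range.2 hb), i,
    ((geo_unique h hv).2 i hi).symm⟩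

lemma mrg_of_merge (h : OK t) {a : ℕ} {w : V} (hw : C.Merge t a w) :
    Mrg t C.edges (C.c (a % C.m)) (marks C) w := by
  obtain ⟨b, b', hb, hb', v, L, v', L', hv, hv', k, k', hk, hk', hw1, hw2, hne⟩ := hw
  obtain ⟨hL, hvg⟩ := geo_unique h hv
  obtain ⟨hL', hvg'⟩ := geo_unique h hv'
  refine ⟨v k, v' k', ⟨C.c b, Finset.mem_image_of_mem _ (Finset.mem_range.2 hb), k,
    (hvg k (by omega)).symm⟩, ⟨C.c b', Finset.mem_image_of_mem _ (Finset.mem_range.2 hb'), k',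
    (hvg' k' (by omega)).symm⟩, hne, ?_, ?_, ?_, ?_⟩
  · rw [hvg k (by omega), len_g h]; omega
  · rw [hvg' k' (by omega), len_g h]; omega
  · rw [hvg k (by omega), g_g h, ← hvg (k + 1) hk, hw1]
  · rw [hvg' k' (by omega), g_g h, ← hvg' (k' + 1) hk', hw2]

end Vale.Agent.P158.NB.MD
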