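import Vale.Agent.P158.NB.MergeCount

/-!
# P158 lemma A: integrating the count
-/

namespace Vale.Agent.P158.NB.MP

open Vale.Agent.P158 Vale.Agent.P158.NB Vale.Agent.P158.NB.MD MeasureTheory
open scoped ENNReal Classical

variable {G : Measure ℝ} [IsProbabilityMeasure G]

lemma eL {a b : ℝ≥0∞} (h : a ≤ b) (c : ℝ≥0∞) : c * a ≤ c * b := mul_le_mul' le_rfl h

lemma eR {a b : ℝ≥0∞} (h : a ≤ b) (c : ℝ≥0∞) : a * c ≤ b * c := mul_le_mul' h le_rfl

lemma boxF_card_le (r n : ℕ) (hr : r ≤ 2 * n) (hn : 1 ≤ n) : (boxF 0 r).card ≤ 25 * n ^ 2 := by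
  rw [boxF_card]
  calc (2 * r + 1) ^ 2 ≤ (5 * n) ^ 2 := Nat.pow_le_pow_left (by omega) 2
    _ = 25 * n ^ 2 := by ring


/-- The crude bound by the square of the number of marks. -/
lemma merge_crude {n : ℕ} (hn : 1 ≤ n) {t : Conf} (hok : OK t) {C : Cyc} (he : C.Encloses 0 n)
    (a : ℕ) :
    ((boxF 0 (n / 2)).filter fun w => C.Merge t a w).card * (n / 4) ≤ 25 * n ^ 2 := by
  refine (mrg_gap_le (K := C.edges) (o := C.c (a % C.m)) hok (marks C) 0 (n / 2) (n / 4)
    (fun b hb hb' => marks_far he hb (MD.box_mono 0 (by omega) hb')) _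
    (boxF 0 (n / 2 + n / 4)) (fun w hw => ?_) fun x _ hx => mem_boxF.2 hx).trans
    (boxF_card_le _ n (by omega) hn)
  obtain ⟨hw1, hw2⟩ := Finset.mem_filter.1 hw
  exact ⟨mrg_of_merge hok hw2, mem_boxF.1 hw1⟩

lemma merge_encard (C : Cyc) (t : Conf) (a n : ℕ) :
    ({w | w ∈ box 0 (n / 2) ∧ C.Merge t a w}.encard : ℝ≥0∞) =
      (((boxF 0 (n / 2)).filter fun w => C.Merge t a w).card : ℝ≥0∞) := by
  have : {w | w ∈ box 0 (n / 2) ∧ C.Merge t a w} =
      ↑((boxF 0 (n / 2)).filter fun w => C.Merge t a w) := by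
    ext w; simp [mem_boxF]
  rw [this, Set.encard_coe_eq_coe_finsetCard]
  simp

/-- The windows count in expectation. -/
lemma pp_sum {Ω : Set Conf} (hΩ : MeasurableSet Ω) (hΩok : ∀ t ∈ Ω, OK t) {E : Set Conf}
    (hE : MeasurableSet E) (K : Set (Sym2 V)) (o : V) (B : Set V) (R : ℕ) (c : ℝ) {H D W n : ℕ}
    (hW : W ≤ n) (hn : 1 ≤ n) :
    (∑ x ∈ boxF 0 n, env G {t | t ∈ E ∧ t ∈ Ω ∧ PP t K o B R c H D W x}) * W ≤
      (D : ℝ≥0∞) * (25 * (n : ℝ≥0∞) ^ 2) * env G E := by
  have hm : ∀ x, MeasurableSet {t | t ∈ E ∧ t ∈ Ω ∧ PP t K o B R c H D W x} := fun x =>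
    hE.inter (ppSet_meas hΩok K o hΩ B R c H D W x)
  have h1 : ∑ x ∈ boxF 0 n, env G {t | t ∈ E ∧ t ∈ Ω ∧ PP t K o B R c H D W x} =
      ∫⁻ t, ∑ x ∈ boxF 0 n,
        ({t | t ∈ E ∧ t ∈ Ω ∧ PP t K o B R c H D W x} : Set Conf).indicator 1 t ∂env G := by
    rw [lintegral_finsetSum _ fun x _ => measurable_one.indicator (hm x)]
    simp_rw [lintegral_indicator_one (hm _)]
  rw [h1, ← lintegral_mul_const' _ _ (ENNReal.natCast_ne_top _)]
  refine (lintegral_mono fun t => ?_).trans_eq (lintegral_indicator_const hE _)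
  set X := (boxF 0 n).filter fun x => t ∈ E ∧ t ∈ Ω ∧ PP t K o B R c H D W x with hX
  have h2 : ∑ x ∈ boxF 0 n,
      ({t | t ∈ E ∧ t ∈ Ω ∧ PP t K o B R c H D W x} : Set Conf).indicator (1 : Conf → ℝ≥0∞) t =
        (X.card : ℝ≥0∞) := by
    rw [hX, Finset.card_filter, Nat.cast_sum]
    refine Finset.sum_congr rfl fun x _ => ?_
    simp only [Set.indicator_apply, Set.mem_ofPred_eq, Pi.one_apply]
    split_ifs <;> simp
  rw [h2]
  rcases X.eq_empty_or_nonempty with h | ⟨x, hx⟩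
  · simp [h]
  obtain ⟨htE, htΩ, -⟩ := (Finset.mem_filter.1 hx).2
  rw [Set.indicator_of_mem htE]
  have h3 := pp_card (hΩok t htΩ) B R c H D W X (boxF 0 (2 * n))
    (fun y hy => (Finset.mem_filter.1 hy).2.2.2) fun y hy v hv => mem_boxF.2
      (MD.box_mono 0 (by omega) (MD.box_trans (mem_boxF.1 (Finset.mem_filter.1 hy).1) hv))
  have h4 := h3.trans (Nat.mul_le_mul_left D (boxF_card_le (2 * n) n le_rfl hn))
  have h5 := Nat.cast_le (α := ℝ≥0∞).2 h4
  push_cast at h5 ⊢
  exact h5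

/-- The count in expectation, with all the scales as parameters. -/
lemma merge_int
    (hlow : ∀ (π : Finset (Sym2 V)) (A : Set Conf), MeasurableSet A →
      ((env G).prod (env G)) {p | lowerW π p.1 p.2 ∈ A} ≤ 2 ^ π.card * env G A)
    (P : Params G) (Rg : Ring G) (hae : ∀ᵐ t ∂env G, OK t)
    {C1 c c' : ℝ} {R L M D nD W H K n : ℕ} (hR : R ≤ 4 * L)
    (hring : 2 * (C1 * (R + 1 : ℕ)) < P.θ * L)
    (hS : Scales P.θ P.θ' R c M D nD W H c') (hn : 4 * (2 * D + W + H + 4 * R + 4) ≤ n) (hK : 1 ≤ K)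
    (eZ eX : ℝ≥0∞) (hZ : ∀ z, env G (BadZ Rg P.θ R L C1 c z) ≤ eZ)
    (hX : ∀ x, env G (BadX P.θ M nD W H c' x) ≤ eX) :
    (∫⁻ t in Rg.good n, (∑ a ∈ Finset.range (Rg.cyc n t).m,
      ({w | w ∈ box 0 (n / 2) ∧ (Rg.cyc n t).Merge t a w}.encard : ℝ≥0∞)) ∂env G) *
        ((n / 4 * (2 * R + 1) ^ 2 : ℕ) : ℝ≥0∞) * W ≤
      (ENNReal.ofReal (25 * (2 * R + 1 : ℕ) ^ 2 * n / K * (Rg.A * (n : ℝ) ^ 2)) +
        ((K * n : ℕ) : ℝ≥0∞) * ((L : ℝ≥0∞) * (25 * (n : ℝ≥0∞) ^ 2) +
          ((2 * R + 1 : ℕ) : ℝ≥0∞) ^ 2 * ((K * n : ℕ) * ((2 * (R + H) + 1 : ℕ) : ℝ≥0∞) ^ 2) +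
          ((2 * R + 1 : ℕ) : ℝ≥0∞) ^ 2 * (25 * (n : ℝ≥0∞) ^ 2 * eZ) +
          ((2 * R + 1 : ℕ) : ℝ≥0∞) ^ 4 * (25 * (n : ℝ≥0∞) ^ 2 * eX))) * W +
      ((K * n : ℕ) : ℝ≥0∞) * ((2 * R + 1 : ℕ) : ℝ≥0∞) ^ 4 * lowCst G P.θ' M *
        ((D : ℝ≥0∞) * (25 * (n : ℝ≥0∞) ^ 2)) := by
  set μ := env G with hμ
  set Ω := (toMeasurable μ {t | ¬ OK t})ᶜ with hΩdef
  have hΩ : MeasurableSet Ω := (measurableSet_toMeasurable _ _).compl
  have hΩok : ∀ t ∈ Ω, OK t := fun t ht => not_not.1 fun h => ht (subset_toMeasurable μ _ h)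
  have hΩ0 : μ Ωᶜ = 0 := by
    rw [hΩdef, compl_compl, measure_toMeasurable]
    exact ae_iff.1 hae
  set F := (Rg.fin n).toFinset.filter fun C => C.m ≤ K * n with hF
  set E : Cyc → Set Conf := fun C => Rg.good n ∩ {t | Rg.cyc n t = C} with hEdef
  have hEm : ∀ C, MeasurableSet (E C) := fun C => (Rg.meas_good n).inter (Rg.meas_cyc n C)
  set Qs : Cyc → ℕ → V → Set Conf := fun C a x => toMeasurable μ
    {t | t ∈ Ω ∧ t ∈ E C ∧ QX t C.edges (C.c (a % C.m)) (marks C : Set V) (4 * R) c H D W x ∧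
      t ∉ BadX P.θ M nD W H c' x} with hQs
  set bZ : V → Set Conf := fun z => toMeasurable μ (BadZ Rg P.θ R L C1 c z) with hbZ
  set bX : V → Set Conf := fun x => toMeasurable μ (BadX P.θ M nD W H c' x) with hbX
  set Z := boxF 0 (n / 2 + n / 4 + R) with hZdef
  set X0 := boxF 0 (n / 2 + n / 4 + R + R + D) with hX0
  set q : ℝ≥0∞ := ((2 * R + 1 : ℕ) : ℝ≥0∞) ^ 2 with hq
  have hq4 : ((2 * R + 1 : ℕ) : ℝ≥0∞) ^ 4 = q * q := by rw [hq, ← pow_add]
  set u : ℝ≥0∞ := ((K * n : ℕ) : ℝ≥0∞) with hu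
  set T : Conf → ℝ≥0∞ := fun t =>
    u * ((L : ℝ≥0∞) * (25 * (n : ℝ≥0∞) ^ 2) +
      q * (u * ((2 * (R + H) + 1 : ℕ) : ℝ≥0∞) ^ 2) +
      q * ∑ z ∈ Z, (bZ z).indicator 1 t + q * q * ∑ x ∈ X0, (bX x).indicator 1 t) +
    q * q * ∑ C ∈ F, ∑ a ∈ Finset.range C.m, ∑ x ∈ X0, (Qs C a x).indicator 1 t with hT
  have hind : ∀ (s : Set Conf), MeasurableSet s →
      Measurable (s.indicator (1 : Conf → ℝ≥0∞)) := fun s hs => measurable_one.indicator hs
  have hTm : Measurable T := by
    refine Measurable.add (Measurable.const_mul ((Measurable.add (Measurable.const_add ?_ _) ?_)) _)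
      (Measurable.const_mul ?_ _)
    · exact (Finset.measurable_sum _ fun z _ => hind _ (measurableSet_toMeasurable _ _)).const_mul _
    · exact (Finset.measurable_sum _ fun z _ => hind _ (measurableSet_toMeasurable _ _)).const_mul _
    · exact Finset.measurable_sum _ fun C _ => Finset.measurable_sum _ fun a _ =>
        Finset.measurable_sum _ fun x _ => hind _ (measurableSet_toMeasurable _ _)
  set Q : Conf → ℝ≥0∞ := fun t => ENNReal.ofReal (25 * (2 * R + 1 : ℕ) ^ 2 * n / K *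
    (cost t (Rg.cyc n t).c (Rg.cyc n t).m + (Rg.cyc n t).m) ^ 2) with hQdef
  -- pointwise
  have hpt : ∀ᵐ t ∂μ.restrict (Rg.good n), (∑ a ∈ Finset.range (Rg.cyc n t).m,
      ({w | w ∈ box 0 (n / 2) ∧ (Rg.cyc n t).Merge t a w}.encard : ℝ≥0∞)) *
        ((n / 4 * (2 * R + 1) ^ 2 : ℕ) : ℝ≥0∞) ≤ Q t + T t := by
    have hΩae : ∀ᵐ t ∂μ.restrict (Rg.good n), t ∈ Ω := ae_restrict_of_ae (ae_iff.2 hΩ0)
    filter_upwards [hΩae, ae_restrict_mem (Rg.meas_good n)] with t htΩ htg
    have hok := hΩok t htΩ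
    have he := Rg.encl n t htg
    set C := Rg.cyc n t with hC
    simp_rw [merge_encard, Finset.sum_mul]
    by_cases hm : C.m ≤ K * n
    · have hCF : C ∈ F := Finset.mem_filter.2 ⟨(Set.Finite.mem_toFinset _).2 ⟨t, rfl⟩, hm⟩
      have hcnt : ∀ {ι : Type} (s : Finset ι) (A : ι → Set Conf),
          ((s.filter fun i => t ∈ A i).card : ℝ≥0∞) ≤
            ∑ i ∈ s, (toMeasurable μ (A i)).indicator 1 t := by
        intro ι s A
        rw [Finset.card_filter, Nat.cast_sum]
        refine Finset.sum_le_sum fun i _ => ?_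
        split_ifs with h
        · simp [Set.indicator_of_mem (subset_toMeasurable μ _ h)]
        · simp
      have hone : ∀ a, (((boxF 0 (n / 2)).filter fun w => C.Merge t a w).card : ℝ≥0∞) *
          ((n / 4 * (2 * R + 1) ^ 2 : ℕ) : ℝ≥0∞) ≤
          ((L : ℝ≥0∞) * (25 * (n : ℝ≥0∞) ^ 2) +
            q * (u * ((2 * (R + H) + 1 : ℕ) : ℝ≥0∞) ^ 2) + q * ∑ z ∈ Z, (bZ z).indicator 1 t +
            q * q * ∑ x ∈ X0, (bX x).indicator 1 t) +
          q * q * ∑ x ∈ X0, (Qs C a x).indicator 1 t := by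
        intro a
        set Xall := X0.filter fun x =>
          QX t C.edges (C.c (a % C.m)) (marks C : Set V) (4 * R) c H D W x with hXall
        have h1 := count_merge Rg (c := c) (P.pos.le.trans P.lt.le) hR hring hn hok he a
        have h2 : (Xall.card : ℝ≥0∞) ≤ (∑ x ∈ X0, (bX x).indicator 1 t) +
            ∑ x ∈ X0, (Qs C a x).indicator 1 t := by
          have hsub : Xall ⊆ ((X0).filter fun x => t ∈ BadX P.θ M nD W H c' x) ∪
              (X0).filter fun x => t ∈ {t | t ∈ Ω ∧ t ∈ E C ∧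
                QX t C.edges (C.c (a % C.m)) (marks C : Set V) (4 * R) c H D W x ∧
                t ∉ BadX P.θ M nD W H c' x} := by
            intro x hx
            obtain ⟨hx1, hx2⟩ := Finset.mem_filter.1 hx
            by_cases hb : t ∈ BadX P.θ M nD W H c' x
            · exact Finset.mem_union_left _ (Finset.mem_filter.2 ⟨hx1, hb⟩)
            · exact Finset.mem_union_right _
                (Finset.mem_filter.2 ⟨hx1, htΩ, ⟨htg, rfl⟩, hx2, hb⟩)
          refine le_trans ?_ (add_le_add (hcnt _ _) (hcnt _ _))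
          rw [← Nat.cast_add]
          refine Nat.cast_le.2 ((Finset.card_le_card hsub).trans ((Finset.card_union_le _ _).trans
            (le_of_eq ?_)))
          congr!
        have h3 := Nat.cast_le (α := ℝ≥0∞).2 h1
        push_cast at h3
        have h4 : ((boxF 0 (n / 2 + n / 4 + R)).card : ℝ≥0∞) ≤ 25 * (n : ℝ≥0∞) ^ 2 := by
          exact_mod_cast boxF_card_le _ n (by omega) (by omega)
        have h5 : (C.m : ℝ≥0∞) ≤ u := by rw [hu]; exact_mod_cast hm
        rw [hq, hu] at *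
        push_cast at *
        rw [← mul_assoc]
        refine h3.trans ?_
        refine (add_le_add (add_le_add (eL h4 _) (eL (add_le_add
          (eR h5 _) (hcnt _ _)) _)) (eL h2 _)).trans_eq ?_
        ring
      refine le_add_left ((Finset.sum_le_sum fun a _ => hone a).trans ?_)
      rw [Finset.sum_add_distrib, Finset.sum_const, Finset.card_range, nsmul_eq_mul,
        ← Finset.mul_sum]
      refine add_le_add (eR (by rw [hu]; exact_mod_cast hm) _)
        (eL ?_ _)
      exact Finset.single_le_sum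
        (f := fun C => ∑ a ∈ Finset.range C.m, ∑ x ∈ X0, (Qs C a x).indicator (1 : Conf → ℝ≥0∞) t)
        (fun _ _ => zero_le) hCF
    · refine le_add_right ?_
      have hn1 : 1 ≤ n := by omega
      calc _ ≤ ∑ _a ∈ Finset.range C.m, ((25 * n ^ 2 * (2 * R + 1) ^ 2 : ℕ) : ℝ≥0∞) := by
            refine Finset.sum_le_sum fun a _ => ?_
            rw [← Nat.cast_mul]
            refine Nat.cast_le.2 ?_
            rw [← mul_assoc]
            exact Nat.mul_le_mul_right _ (merge_crude hn1 hok he a)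
        _ ≤ Q t := by
            rw [Finset.sum_const, Finset.card_range, nsmul_eq_mul, ← Nat.cast_mul,
              ← ENNReal.ofReal_natCast]
            refine ENNReal.ofReal_le_ofReal ?_
            push_cast
            have hK' : (0 : ℝ) < K := by exact_mod_cast hK
            have hmK : (K : ℝ) * n ≤ C.m := by exact_mod_cast (not_le.1 hm).le
            have hc0 := MD.cost_nonneg hok.pos C.c C.m
            rw [div_mul_eq_mul_div, le_div_iff₀ hK']
            have h1 : (C.m : ℝ) * (K * n) ≤ (cost t C.c C.m + C.m) ^ 2 :=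
              calc (C.m : ℝ) * (K * n) ≤ C.m * C.m := by gcongr
                _ ≤ _ := by
                  have hm0 : (0 : ℝ) ≤ C.m := Nat.cast_nonneg _
                  nlinarith
            calc (C.m : ℝ) * (25 * (n : ℝ) ^ 2 * (2 * R + 1) ^ 2) * K
                = 25 * (2 * R + 1) ^ 2 * n * ((C.m : ℝ) * (K * n)) := by ring
              _ ≤ _ := by gcongr
  -- integrals
  have hQint : ∫⁻ t in Rg.good n, Q t ∂μ ≤
      ENNReal.ofReal (25 * (2 * R + 1 : ℕ) ^ 2 * n / K * (Rg.A * (n : ℝ) ^ 2)) := by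
    have hb : (0 : ℝ) ≤ 25 * (2 * R + 1 : ℕ) ^ 2 * n / K := by positivity
    simp only [hQdef, ENNReal.ofReal_mul hb]
    rw [lintegral_const_mul' _ _ ENNReal.ofReal_ne_top]
    exact eL (Rg.sq n) _
  have hsumE : ∑ C ∈ F, μ (E C) ≤ 1 := by
    rw [← measure_biUnion_finset (fun C _ C' _ hne => ?_) fun C _ => hEm C]
    · exact prob_le_one
    · exact Set.disjoint_left.2 fun t h h' => hne (h.2.symm.trans h'.2)
  have hQsum : (∫⁻ t, ∑ C ∈ F, ∑ a ∈ Finset.range C.m, ∑ x ∈ X0,
      (Qs C a x).indicator 1 t ∂μ) * W ≤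
        u * lowCst G P.θ' M * ((D : ℝ≥0∞) * (25 * (n : ℝ≥0∞) ^ 2)) := by
    rw [lintegral_finsetSum _ fun C _ => Finset.measurable_sum _ fun a _ =>
      Finset.measurable_sum _ fun x _ => hind _ (measurableSet_toMeasurable _ _), Finset.sum_mul]
    calc _ ≤ ∑ C ∈ F, (u * lowCst G P.θ' M * ((D : ℝ≥0∞) * (25 * (n : ℝ≥0∞) ^ 2))) * μ (E C) := by
          refine Finset.sum_le_sum fun C hC => ?_
          rw [lintegral_finsetSum _ fun a _ => Finset.measurable_sum _ fun x _ =>
            hind _ (measurableSet_toMeasurable _ _), Finset.sum_mul]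
          refine (Finset.sum_le_card_nsmul _ _
            (lowCst G P.θ' M * ((D : ℝ≥0∞) * (25 * (n : ℝ≥0∞) ^ 2)) * μ (E C)) fun a _ => ?_).trans ?_
          · rw [lintegral_finsetSum _ fun x _ => hind _ (measurableSet_toMeasurable _ _)]
            simp_rw [lintegral_indicator_one (measurableSet_toMeasurable _ _)]
            calc (∑ x ∈ X0, μ (Qs C a x)) * W
                ≤ (lowCst G P.θ' M * ∑ x ∈ X0, μ {t | t ∈ E C ∧ t ∈ Ω ∧
                    PP t C.edges (C.c (a % C.m)) (marks C : Set V) (4 * R) c H D W x}) * W := by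
                  rw [Finset.mul_sum]
                  refine eR (Finset.sum_le_sum fun x hx => ?_) _
                  rw [hQs]
                  dsimp only
                  rw [measure_toMeasurable]
                  refine lower_prob hlow (P.pos.le.trans P.lt.le) P.lt.le P.mass hS hΩ hΩok hΩ0
                    (fun b hb => conn_of_mem_marks (Finset.mem_coe.1 hb)) (hEm C) ?_
                  intro t t' hag ht
                  have hloc := Rg.loc n t t' fun e he => hag e fun he' => ?_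
                  · exact ⟨hloc.2.1 ht.1, hloc.1.symm.trans ht.2⟩
                  · induction e using Sym2.ind with
                    | _ v w =>
                      have hv := of_mem_boxE he' v (Sym2.mem_mk_left v w)
                      have hD := hS.hD
                      have hMn := hS.hM
                      exact (he v (Sym2.mem_mk_left v w)).2 (MD.box_mono 0 (by omega)
                        (MD.box_trans (mem_boxF.1 hx) hv))
              _ ≤ lowCst G P.θ' M * ((D : ℝ≥0∞) * (25 * (n : ℝ≥0∞) ^ 2) * μ (E C)) := by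
                  rw [mul_assoc]
                  exact eL ((eR (Finset.sum_le_sum_of_subset_of_nonneg
                    (fun v hv => mem_boxF.2 (MD.box_mono 0 (by omega) (mem_boxF.1 hv)))
                    fun _ _ _ => zero_le) _).trans
                    (pp_sum hΩ hΩok (hEm C) _ _ _ _ c (by omega) (by omega))) _
              _ = _ := by ring
          · rw [Finset.card_range, nsmul_eq_mul]
            refine (eR (show (C.m : ℝ≥0∞) ≤ u by
              rw [hu]; exact_mod_cast (Finset.mem_filter.1 hC).2) _).trans_eq ?_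
            ring
      _ ≤ _ := by
          rw [← Finset.mul_sum]
          exact (eL hsumE _).trans_eq (mul_one _)
  have hTint : (∫⁻ t, T t ∂μ) * W ≤
      (u * ((L : ℝ≥0∞) * (25 * (n : ℝ≥0∞) ^ 2) +
        q * (u * ((2 * (R + H) + 1 : ℕ) : ℝ≥0∞) ^ 2) +
        q * (25 * (n : ℝ≥0∞) ^ 2 * eZ) + q * q * (25 * (n : ℝ≥0∞) ^ 2 * eX))) * W +
      u * (q * q) * lowCst G P.θ' M * ((D : ℝ≥0∞) * (25 * (n : ℝ≥0∞) ^ 2)) := by
    have hS2 : ∀ (s : Finset V) (b : V → Set Conf) (e : ℝ≥0∞), s.card ≤ 25 * n ^ 2 →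
        (∀ x, μ (b x) ≤ e) →
        ∫⁻ t, ∑ x ∈ s, (toMeasurable μ (b x)).indicator 1 t ∂μ ≤ 25 * (n : ℝ≥0∞) ^ 2 * e := by
      intro s b e hs hb
      rw [lintegral_finsetSum _ fun x _ => hind _ (measurableSet_toMeasurable _ _)]
      simp_rw [lintegral_indicator_one (measurableSet_toMeasurable _ _), measure_toMeasurable]
      refine (Finset.sum_le_card_nsmul _ _ e fun x _ => hb x).trans ?_
      rw [nsmul_eq_mul]
      exact eR (by exact_mod_cast hs) _
    have mZ : Measurable fun t => q * ∑ z ∈ Z, (bZ z).indicator 1 t :=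
      (Finset.measurable_sum _ fun z _ => hind _ (measurableSet_toMeasurable _ _)).const_mul _
    have mX : Measurable fun t => q * q * ∑ x ∈ X0, (bX x).indicator 1 t :=
      (Finset.measurable_sum _ fun z _ => hind _ (measurableSet_toMeasurable _ _)).const_mul _
    have hqt : q ≠ ⊤ := by rw [hq]; exact ENNReal.pow_ne_top (ENNReal.natCast_ne_top _)
    have hut : u ≠ ⊤ := ENNReal.natCast_ne_top _
    have hval : ∫⁻ t, T t ∂μ = u * ((L : ℝ≥0∞) * (25 * (n : ℝ≥0∞) ^ 2) +
        q * (u * ((2 * (R + H) + 1 : ℕ) : ℝ≥0∞) ^ 2) +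
        q * ∫⁻ t, ∑ z ∈ Z, (bZ z).indicator 1 t ∂μ +
        q * q * ∫⁻ t, ∑ x ∈ X0, (bX x).indicator 1 t ∂μ) +
        q * q * ∫⁻ t, ∑ C ∈ F, ∑ a ∈ Finset.range C.m, ∑ x ∈ X0,
          (Qs C a x).indicator 1 t ∂μ := by
      have mQ : Measurable fun t => q * q * ∑ C ∈ F, ∑ a ∈ Finset.range C.m, ∑ x ∈ X0,
          (Qs C a x).indicator (1 : Conf → ℝ≥0∞) t :=
        (Finset.measurable_sum _ fun C _ => Finset.measurable_sum _ fun a _ =>
          Finset.measurable_sum _ fun x _ => hind _ (measurableSet_toMeasurable _ _)).const_mul _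
      simp only [hT]
      rw [lintegral_add_right _ mQ,
        lintegral_const_mul' (q * q) _ (ENNReal.mul_ne_top hqt hqt), lintegral_const_mul' u _ hut,
        lintegral_add_right _ mX, lintegral_add_right _ mZ, lintegral_const, measure_univ, mul_one,
        lintegral_const_mul' q _ hqt, lintegral_const_mul' (q * q) _ (ENNReal.mul_ne_top hqt hqt)]
    rw [hval, add_mul, mul_assoc (q * q)]
    refine add_le_add (eR (eL (add_le_add (add_le_add le_rfl
      (eL (hS2 _ _ _ (boxF_card_le _ n (by omega) (by omega)) hZ) _))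
      (eL (hS2 _ _ _ (boxF_card_le _ n (by omega) (by omega)) hX) _)) _) _)
      ((eL hQsum _).trans_eq ?_)
    ring
  rw [← lintegral_mul_const' _ _ (ENNReal.natCast_ne_top _)]
  refine (eR (lintegral_mono_ae hpt) _).trans ?_
  rw [lintegral_add_right _ hTm, add_mul, hq4]
  refine (add_le_add (eR hQint _)
    ((eR (setLIntegral_le_lintegral _ _) _).trans hTint)).trans_eq ?_
  rw [← add_assoc, ← add_mul]

end Vale.Agent.P158.NB.MP
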