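import Vale.Agent.P158.NB.MergeCycle
import Vale.Agent.P158.NB.CycGeom
import Vale.Agent.P158.NB.Prob

/-!
# P158 lemma A: local events
-/

namespace Vale.Agent.P158.NB.MP

open Vale.Agent.P158 Vale.Agent.P158.NB MeasureTheory Filter Topology
open scoped ENNReal Classical

/-- The finite box. -/
noncomputable def boxF (z : V) (r : ℕ) : Finset V :=
  Finset.Icc (z.1 - r) (z.1 + r) ×ˢ Finset.Icc (z.2 - r) (z.2 + r)

lemma mem_boxF {z v : V} {r : ℕ} : v ∈ boxF z r ↔ v ∈ box z r := by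
  simp only [boxF, Finset.mem_product, Finset.mem_Icc, box, Set.mem_ofPred_eq, abs_le]
  omega

lemma boxF_card (z : V) (r : ℕ) : (boxF z r).card = (2 * r + 1) ^ 2 := by
  rw [boxF, Finset.card_product, Int.card_Icc, Int.card_Icc, sq]
  congr 1 <;> omega

/-- The pairs inside a box. -/
noncomputable def boxE (z : V) (r : ℕ) : Finset (Sym2 V) :=
  (boxF z r ×ˢ boxF z r).image fun p => s(p.1, p.2)

lemma mem_boxE {z a b : V} {r : ℕ} (ha : a ∈ box z r) (hb : b ∈ box z r) : s(a, b) ∈ boxE z r := by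
  exact Finset.mem_image.2 ⟨(a, b), Finset.mem_product.2 ⟨mem_boxF.2 ha, mem_boxF.2 hb⟩, rfl⟩

lemma of_mem_boxE {z : V} {r : ℕ} {e : Sym2 V} (he : e ∈ boxE z r) : ∀ v ∈ e, v ∈ box z r := by
  obtain ⟨⟨a, b⟩, hab, rfl⟩ := Finset.mem_image.1 he
  obtain ⟨ha, hb⟩ := Finset.mem_product.1 hab
  intro v hv
  rcases Sym2.mem_iff.1 hv with rfl | rfl
  · exact mem_boxF.1 ha
  · exact mem_boxF.1 hb

lemma boxE_card (z : V) (r : ℕ) : (boxE z r).card ≤ (2 * r + 1) ^ 4 := by
  refine Finset.card_image_le.trans ?_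
  rw [Finset.card_product, boxF_card, ← pow_add]

/-- Long paths starting near `z` have half their edges strong. -/
def LG (θ : ℝ) (n : ℕ) (z : V) : Set Conf := {t | shiftW z t ∈ LongGood θ n}

lemma lg_card {θ : ℝ} {n L : ℕ} {z : V} {t : Conf} (ht : t ∈ LG θ n z) {v : ℕ → V}
    (hv : IsPath v L) (hi : Set.InjOn v (Set.Iic L)) (h0 : v 0 ∈ box z (4 * n)) (hL : n ≤ L) :
    L ≤ 2 * ((Finset.range L).filter fun k => θ ≤ t s(v k, v (k + 1))).card := by
  have h : ∀ k, shiftW z t s(v k - z, v (k + 1) - z) = t s(v k, v (k + 1)) := fun k => by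
    simp [shiftW]
  have := ht (fun k => v k - z) L ((isPath_add_iff (z := z)).1 (by simpa using hv))
    (fun a ha b hb e => hi ha hb (sub_left_injective e))
    (by simpa [box] using h0) hL
  simpa [h] using this

lemma lg_cost {θ : ℝ} (hθ : 0 ≤ θ) {n L : ℕ} {z : V} {t : Conf} (hpos : ∀ e, 0 < t e)
    (ht : t ∈ LG θ n z) {v : ℕ → V}
    (hv : IsPath v L) (hi : Set.InjOn v (Set.Iic L)) (h0 : v 0 ∈ box z (4 * n)) (hL : n ≤ L) :
    θ * L ≤ 2 * cost t v L := by
  have hc : (L : ℝ) ≤ 2 * (((Finset.range L).filter fun k => θ ≤ t s(v k, v (k + 1))).card : ℝ) := by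
    exact_mod_cast lg_card ht hv hi h0 hL
  have h1 : (((Finset.range L).filter fun k => θ ≤ t s(v k, v (k + 1))).card : ℝ) * θ ≤ cost t v L := by
    calc _ = ∑ _k ∈ (Finset.range L).filter (fun k => θ ≤ t s(v k, v (k + 1))), θ := by simp
      _ ≤ ∑ k ∈ (Finset.range L).filter (fun k => θ ≤ t s(v k, v (k + 1))), t s(v k, v (k + 1)) :=
          Finset.sum_le_sum fun k hk => (Finset.mem_filter.1 hk).2
      _ ≤ _ := Finset.sum_le_sum_of_subset_of_nonneg (Finset.filter_subset _ _)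
          fun k _ _ => (hpos _).le
  have h2 := mul_le_mul_of_nonneg_left hc hθ
  linarith

/-- Cheap edges. -/
def Cheap (S : Finset (Sym2 V)) (c : ℝ) : Set Conf := {t | ∀ e ∈ S, t e ≤ c}

variable {G : Measure ℝ} [IsProbabilityMeasure G]

/-- A small cheap cycle around `z`. -/
def SmallRing (Rg : Ring G) (r : ℕ) (C1 : ℝ) (z : V) : Set Conf :=
  {t | shiftW z t ∈ Rg.good r ∧
    cost (shiftW z t) (Rg.cyc r (shiftW z t)).c (Rg.cyc r (shiftW z t)).m ≤ C1 * r}

omit [IsProbabilityMeasure G] in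
lemma small_ring_cycle (Rg : Ring G) {r : ℕ} {C1 : ℝ} {z : V} {t : Conf}
    (ht : t ∈ SmallRing Rg r C1 z) :
    ∃ C : Cyc, C.Encloses z r ∧ (∀ k < C.m, C.c k ∈ box z (2 * r)) ∧
      cost t C.c C.m ≤ C1 * r := by
  obtain ⟨hg, hc⟩ := ht
  refine ⟨(Rg.cyc r (shiftW z t)).shift z, ?_, fun k hk => ?_, hc⟩
  · simpa using ((Rg.cyc r (shiftW z t)).shift_encloses z 0 r).2 (Rg.encl r _ hg)
  · simpa using (Cyc.box_add z (w := 0) (N := 2 * r) _).2 (Rg.sub r _ hg k hk)

omit [IsProbabilityMeasure G] in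
lemma shift_prob (hsh : ∀ z, (env G).map (shiftW z) = env G) (z : V) (S : Set Conf) :
    env G {t | shiftW z t ∈ S} ≤ env G S := by
  conv_rhs => rw [← hsh z]
  exact Measure.le_map_apply (f := shiftW z)
    (measurable_pi_lambda _ fun e => measurable_pi_apply _ : Measurable (shiftW z : Conf → Conf)).aemeasurable S

lemma lg_prob (hsh : ∀ z, (env G).map (shiftW z) = env G) (θ : ℝ) (n : ℕ) (z : V) :
    env G (LG θ n z)ᶜ ≤ env G (LongGood θ n)ᶜ := by
  exact shift_prob hsh z (LongGood θ n)ᶜ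

lemma ring_prob (hsh : ∀ z, (env G).map (shiftW z) = env G) (Rg : Ring G) {r : ℕ} (hr : 1 ≤ r)
    {C1 : ℝ} (hC : 0 < C1) (z : V) :
    env G (SmallRing Rg r C1 z)ᶜ ≤ env G (Rg.good r)ᶜ + ENNReal.ofReal (Rg.A / C1 ^ 2) := by
  set bad : Set Conf := {s | s ∈ Rg.good r ∧ C1 * r < cost s (Rg.cyc r s).c (Rg.cyc r s).m}
  have hsub : (SmallRing Rg r C1 z)ᶜ ⊆ {t | shiftW z t ∈ (Rg.good r)ᶜ ∪ bad} := by
    intro t ht
    by_cases hg : shiftW z t ∈ Rg.good r
    · exact Or.inr ⟨hg, lt_of_not_ge fun h => ht ⟨hg, h⟩⟩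
    · exact Or.inl hg
  refine (measure_mono hsub).trans ((shift_prob hsh z _).trans
    ((measure_union_le _ _).trans (add_le_add le_rfl ?_)))
  set f : Conf → ℝ≥0∞ := fun s =>
    ENNReal.ofReal ((cost s (Rg.cyc r s).c (Rg.cyc r s).m + (Rg.cyc r s).m) ^ 2)
  have hf : Measurable f := by
    have e : f = fun s => ∑ C ∈ (Rg.fin r).toFinset, {s | Rg.cyc r s = C}.indicator
        (fun s => ENNReal.ofReal ((cost s C.c C.m + C.m) ^ 2)) s := by
      funext s
      rw [Finset.sum_eq_single (Rg.cyc r s)]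
      · simp [f]
      · intro C _ hC
        simp [Ne.symm hC]
      · intro h
        exact absurd ((Rg.fin r).mem_toFinset.2 ⟨s, rfl⟩) h
    rw [e]
    exact Finset.measurable_sum _ fun C _ =>
      (((cost_meas C.c C.m).add_const _).pow_const 2).ennreal_ofReal.indicator (Rg.meas_cyc r C)
  set K : ℝ≥0∞ := ENNReal.ofReal ((C1 * r) ^ 2)
  have hbad : bad ⊆ {s | K ≤ f s} ∩ Rg.good r := by
    rintro s ⟨hg, hs⟩
    refine ⟨ENNReal.ofReal_le_ofReal (pow_le_pow_left₀ (by positivity) ?_ 2), hg⟩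
    exact hs.le.trans (le_add_of_nonneg_right (Nat.cast_nonneg _))
  have hr' : (0 : ℝ) < r := Nat.cast_pos.2 hr
  have hmark : K * env G bad ≤ ENNReal.ofReal (Rg.A * (r : ℝ) ^ 2) := by
    refine (mul_le_mul' le_rfl ((measure_mono hbad).trans
      (Measure.le_restrict_apply _ _))).trans ?_
    exact (mul_meas_ge_le_lintegral₀ hf.aemeasurable K).trans (Rg.sq r)
  have hK : K ≠ 0 := (ENNReal.ofReal_pos.2 (by positivity)).ne'
  refine (ENNReal.mul_le_mul_iff_right hK ENNReal.ofReal_ne_top).1 (hmark.trans (le_of_eq ?_))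
  rw [← ENNReal.ofReal_mul (by positivity)]
  congr 1
  field_simp

lemma cheap_prob (S : Finset (Sym2 V)) (c : ℝ) :
    env G (Cheap S c)ᶜ ≤ S.card * G (Set.Ioi c) := by
  have h : (Cheap S c)ᶜ ⊆ ⋃ e ∈ S, {t : Conf | c < t e} := by
    intro t ht
    simp only [Cheap, Set.mem_compl_iff, Set.mem_ofPred_eq, not_forall, not_le] at ht
    obtain ⟨e, he, h⟩ := ht
    exact Set.mem_biUnion he h
  refine (measure_mono h).trans ((measure_biUnion_finset_le S _).trans (le_of_eq ?_))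
  rw [← nsmul_eq_mul, ← Finset.sum_const]
  refine Finset.sum_congr rfl fun e _ => ?_
  have : {t : Conf | c < t e} = Set.pi (({e} : Finset (Sym2 V)) : Set (Sym2 V)) (fun _ => Set.Ioi c) := by
    ext t; simp
  rw [this, env, Measure.infinitePi_pi _ (fun _ _ => measurableSet_Ioi)]
  simp

lemma exists_quantile (ε : ℝ≥0∞) (hε : 0 < ε) : ∃ c : ℝ, 0 ≤ c ∧ G (Set.Ioi c) ≤ ε := by
  have hlim : Tendsto (fun n : ℕ => G (Set.Ioi (n : ℝ))) atTop (𝓝 0) := by
    have := tendsto_measure_iInter_atTop (μ := G) (s := fun n : ℕ => Set.Ioi (n : ℝ))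
      (fun n => measurableSet_Ioi.nullMeasurableSet)
      (fun a b hab => Set.Ioi_subset_Ioi (Nat.cast_le.2 hab)) ⟨0, measure_ne_top _ _⟩
    have hempty : ⋂ n : ℕ, Set.Ioi (n : ℝ) = ∅ := by
      refine Set.eq_empty_iff_forall_notMem.2 fun x hx => ?_
      obtain ⟨n, hn⟩ := exists_nat_ge x
      exact (not_lt.2 hn) (Set.mem_iInter.1 hx n)
    rwa [hempty, measure_empty] at this
  obtain ⟨n, hn⟩ := (hlim.eventually (ge_mem_nhds hε)).exists
  exact ⟨n, Nat.cast_nonneg n, hn⟩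

omit [IsProbabilityMeasure G] in
/-- Long paths are eventually good. -/
lemma long_tendsto (P : Params G) :
    Tendsto (fun n => env G (LongGood P.θ n)ᶜ) atTop (𝓝 0) := by
  refine tendsto_of_tendsto_of_tendsto_of_le_of_le' tendsto_const_nhds P.long
    (Eventually.of_forall fun n => zero_le) ?_
  filter_upwards [eventually_ge_atTop 1] with n hn
  refine le_mul_of_one_le_left zero_le ?_
  exact one_le_pow₀ (by exact_mod_cast hn)

end Vale.Agent.P158.NB.MP
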