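import Vale.Agent.P158.NB.MergeMeas
import Vale.Agent.P158.NB.MergeLocal

/-!
# P158 lemma A: lowering the ancestry

The event a pattern `D` steps ahead costs at most a constant depending on `M` times the event
a pattern `D` steps ahead and none on some `W` steps behind.
-/

namespace Vale.Agent.P158.NB.MP

open Vale.Agent.P158 Vale.Agent.P158.NB Vale.Agent.P158.NB.MD MeasureTheory
open scoped ENNReal Classical

variable {G : Measure ℝ} [IsProbabilityMeasure G]

/-- The relations between the scales used at one lowering step. -/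
structure Scales (θ θ' : ℝ) (R : ℕ) (c : ℝ) (M D nD W H : ℕ) (c' : ℝ) : Prop where
  c0 : 0 ≤ c
  gain : 4 * ((4 * R : ℕ) : ℝ) * c < M * (θ - θ')
  hD : D = M + nD
  hM : M ≤ 4 * nD
  far : 2 * (((4 * R : ℕ) : ℝ) * c) < θ * nD
  hH : W + 4 * R ≤ 4 * H
  tough : 2 * (((4 * R : ℕ) : ℝ) * c + (W + M : ℕ) * c') < θ * H
  c'0 : 0 ≤ c'

/-- The exceptional local configurations at `x`. -/
def BadX (θ : ℝ) (M nD W H : ℕ) (c' : ℝ) (x : V) : Set Conf :=
  ((LG θ M x)ᶜ ∪ (LG θ nD x)ᶜ) ∪ ((LG θ H x)ᶜ ∪ (Cheap (boxE x (W + M)) c')ᶜ)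

/-- A pattern `D` steps ahead of `x`, and a chain of length `W` behind. -/
def QX (t : Conf) (K : Set (Sym2 V)) (o : V) (B : Set V) (R : ℕ) (c : ℝ) (H D W : ℕ) (x : V) :
    Prop :=
  Tr t K o B x ∧ D ≤ len t K o x ∧ FF t K o R c H (g t K o x D) ∧
    ∃ k, Tr t K o B k ∧ W ≤ len t K o k ∧ g t K o k W = x

variable {θ θ' c c' : ℝ} {R M D nD W H : ℕ} {K : Set (Sym2 V)} {o : V}

/-- The strong edges on the first `M` steps from `x`. -/
noncomputable def strongE (t : Conf) (K : Set (Sym2 V)) (o x : V) (θ : ℝ) (M : ℕ) :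
    Finset (Sym2 V) :=
  ((Finset.range M).filter fun i => θ ≤ t s(g t K o x i, g t K o x (i + 1))).image
    fun i => s(g t K o x i, g t K o x (i + 1))

lemma strong_sub {t : Conf} (h : OK t) {x : V} (hx : Conn K o x) (hMx : M ≤ len t K o x) :
    strongE t K o x θ M ⊆ boxE x M := by
  intro e he
  obtain ⟨i, hi, rfl⟩ := Finset.mem_image.1 he
  have hiM := Finset.mem_range.1 (Finset.mem_filter.1 hi).1
  have hg := geo_g h hx
  have key : ∀ j ≤ M, g t K o x j ∈ box x M := fun j hj => by
    have := MD.path_dist hg.path j (hj.trans hMx)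
    rw [hg.first] at this
    exact box_mono x hj this
  exact mem_boxE (key i hiM.le) (key (i + 1) hiM)

/-- The deterministic content of one lowering step. -/
lemma pp_lower (hθ0 : 0 ≤ θ) (hθθ : θ' ≤ θ) (hS : Scales θ θ' R c M D nD W H c') {B : Set V}
    (hB : ∀ b ∈ B, Conn K o b) {t u : Conf} (hok : OK t) {x : V}
    (hok' : OK (lowerW (strongE t K o x θ M) t u))
    (hQ : QX t K o B (4 * R) c H D W x) (hbad : t ∉ BadX θ M nD W H c' x)
    (hu : ∀ e ∈ strongE t K o x θ M, u e < θ') :
    PP (lowerW (strongE t K o x θ M) t u) K o B (4 * R) c H D W x := by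
  obtain ⟨hTx, hDx, hF, k, hk, hkW, hkx⟩ := hQ
  simp only [BadX, Set.mem_union, Set.mem_compl_iff, not_or, not_not] at hbad
  obtain ⟨⟨hgM, hgD⟩, hgH, hch⟩ := hbad
  have hD := hS.hD
  have hx : Conn K o x := tr_reach hok hB hTx
  have hg := geo_g hok hx
  set π := strongE t K o x θ M with hπ
  set t' := lowerW π t u with ht'
  have hcard : M ≤ 2 * π.card := by
    rw [hπ, strongE, Finset.card_image_of_injOn]
    · exact lg_card hgM (v := g t K o x) (fun i hi => hg.path i (by omega))
        (hg.inj.mono (Set.Iic_subset_Iic.2 (by omega)))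
        (by rw [g_zero hok]; simp [box]) le_rfl
    · intro i hi j hj he
      simp only [Finset.coe_filter, Set.mem_ofPred_eq, Finset.mem_range] at hi hj
      exact inj_edge hg.inj (by omega) (by omega) he
  have hlt : ∀ e ∈ π, θ - θ' ≤ t e - t' e := by
    intro e he
    obtain ⟨i, hi, hie⟩ := Finset.mem_image.1 he
    have h1 := (Finset.mem_filter.1 hi).2
    rw [hie] at h1
    have h2 : t' e ≤ u e := by simp [ht', lowerW, he]
    linarith [hu e he]
  have hl : MD.Low t t' K o π x M D (4 * R) c := by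
    refine
      { ok := hok, ok' := hok', reach := hx, edges := fun e he => ?_, hMD := by omega, hD := hDx
        off := fun e he => if_neg he
        le := fun e => ?_, nonneg := hS.c0, gain := ?_, far := fun i hi => ?_ }
    · obtain ⟨i, hi, hie⟩ := Finset.mem_image.1 he
      exact ⟨i, Finset.mem_range.1 (Finset.mem_filter.1 hi).1, hie⟩
    · rw [ht', lowerW]
      split_ifs
      · exact min_le_left _ _
      · exact le_rfl
    · have h1 : (π.card : ℝ) * (θ - θ') ≤ ∑ e ∈ π, (t e - t' e) := by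
        rw [← nsmul_eq_mul]; exact Finset.card_nsmul_le_sum _ _ _ hlt
      have h2 : (M : ℝ) ≤ 2 * π.card := by exact_mod_cast hcard
      have h3 := mul_le_mul_of_nonneg_right h2 (sub_nonneg.2 hθθ)
      have := hS.gain
      linarith
    · have hM4 := hS.hM
      have h1 := lg_cost hθ0 hok.pos hgD (v := fun m => g t K o x (i + m)) (L := D - i)
        (fun m hm => (hg.path.shift (show i ≤ len t K o x by omega) le_rfl) m (by omega))
        (fun a ha b hb he => by
          simp only [Set.mem_Iic] at ha hb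
          have := hg.inj (show i + a ∈ Set.Iic _ by simp only [Set.mem_Iic]; omega)
            (show i + b ∈ Set.Iic _ by simp only [Set.mem_Iic]; omega) he
          omega)
        (by
          have := MD.path_dist hg.path i (by omega)
          rw [hg.first] at this
          simpa using box_mono x (show i ≤ 4 * nD by omega) this)
        (by omega)
      have h2 : θ * nD ≤ θ * ((D - i : ℕ) : ℝ) :=
        mul_le_mul_of_nonneg_left (by exact_mod_cast (show nD ≤ D - i by omega)) hθ0
      have := hS.far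
      linarith
  refine pp_of_low (cW := ((W + M : ℕ) : ℝ) * c') hl hB hk hkW hkx hF (fun j hj => ?_)
    fun y hy v hv hvi hv0 => ?_
  · have hkr := tr_reach hok hB hk
    have hgk := geo_g hok hkr
    have hlen := len_g hok (K := K) (o := o) k W
    rw [hkx] at hlen
    have hin : ∀ m ≤ W + M, g t K o k m ∈ box x (W + M) := by
      intro m hm
      rcases le_total m W with h | h
      · have := MD.path_dist (hgk.path.shift h hkW) (W - m) le_rfl
        simp only [add_zero, show m + (W - m) = W by omega, hkx] at this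
        exact box_mono x (by omega) (box_symm this)
      · have := MD.path_dist (hgk.path.shift hkW le_rfl) (m - W) (by omega)
        simp only [add_zero, show W + (m - W) = m by omega, hkx] at this
        exact box_mono x (by omega) this
    calc cost t (fun i => g t K o k (j + i)) (W - j + M)
        ≤ ∑ _m ∈ Finset.range (W - j + M), c' := Finset.sum_le_sum fun m hm => by
          rw [Finset.mem_range] at hm
          exact hch _ (mem_boxE (hin _ (by omega)) (hin _ (by omega)))
      _ ≤ ((W + M : ℕ) : ℝ) * c' := by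
          rw [Finset.sum_const, Finset.card_range, nsmul_eq_mul]
          exact mul_le_mul_of_nonneg_right (by exact_mod_cast (show W - j + M ≤ W + M by omega))
            hS.c'0
  · have h1 := lg_cost hθ0 hok.pos hgH hv hvi
      (by rw [hv0]; exact box_mono x hS.hH hy) le_rfl
    have := hS.tough
    linarith

variable (G) in
/-- The cost of lowering at most the edges of a box of radius `M`. -/
noncomputable def lowCst (θ' : ℝ) (M : ℕ) : ℝ≥0∞ :=
  2 ^ ((2 * M + 1) ^ 4) * (2 / G (Set.Iio θ')) ^ ((2 * M + 1) ^ 4)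

lemma lowCst_ne_top (h : 0 < G (Set.Iio θ')) (M : ℕ) : lowCst G θ' M ≠ ⊤ :=
  ENNReal.mul_ne_top (ENNReal.pow_ne_top (by simp))
    (ENNReal.pow_ne_top (ENNReal.div_ne_top (by simp) h.ne'))

/-- Change of measure at one vertex. -/
lemma lower_prob
    (hlow : ∀ (π : Finset (Sym2 V)) (A : Set Conf), MeasurableSet A →
      ((env G).prod (env G)) {p | lowerW π p.1 p.2 ∈ A} ≤ 2 ^ π.card * env G A)
    (hθ0 : 0 ≤ θ) (hθθ : θ' ≤ θ) (hp : 0 < G (Set.Iio θ'))
    (hS : Scales θ θ' R c M D nD W H c')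
    {Ω : Set Conf} (hΩ : MeasurableSet Ω) (hΩok : ∀ t ∈ Ω, OK t) (hΩ0 : env G Ωᶜ = 0)
    {B : Set V} (hB : ∀ b ∈ B, Conn K o b) {x : V} {E : Set Conf} (hE : MeasurableSet E)
    (hinv : ∀ t t' : Conf, (∀ e, e ∉ boxE x M → t e = t' e) → t ∈ E → t' ∈ E) :
    env G {t | t ∈ Ω ∧ t ∈ E ∧ QX t K o B (4 * R) c H D W x ∧ t ∉ BadX θ M nD W H c' x} ≤
      lowCst G θ' M * env G {t | t ∈ E ∧ t ∈ Ω ∧ PP t K o B (4 * R) c H D W x} := by
  set S := {t | t ∈ Ω ∧ t ∈ E ∧ QX t K o B (4 * R) c H D W x ∧ t ∉ BadX θ M nD W H c' x} with hSdef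
  set A := {t | t ∈ E ∧ t ∈ Ω ∧ PP t K o B (4 * R) c H D W x} with hA
  have hAm : MeasurableSet A := hE.inter (ppSet_meas hΩok K o hΩ B _ c H D W x)
  set p := G (Set.Iio θ') with hpdef
  have hp1 : p ≤ 1 := prob_le_one
  have h1p : 1 ≤ 2 / p := by
    rw [ENNReal.le_div_iff_mul_le (Or.inl hp.ne') (Or.inl (measure_ne_top _ _)), one_mul]
    exact hp1.trans one_le_two
  have hcover : S ⊆ ⋃ π ∈ (boxE x M).powerset, {t | t ∈ S ∧ strongE t K o x θ M = π} := by
    intro t ht
    obtain ⟨htΩ, -, hQ, -⟩ := id ht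
    have hD := hS.hD
    refine Set.mem_iUnion₂.2 ⟨_, Finset.mem_powerset.2
      (strong_sub (hΩok t htΩ) (tr_reach (hΩok t htΩ) hB hQ.1)
        (show M ≤ _ from le_trans (by omega) hQ.2.1)), ht, rfl⟩
  have hone : ∀ π ∈ (boxE x M).powerset, env G {t | t ∈ S ∧ strongE t K o x θ M = π} ≤
      (2 / p) ^ ((2 * M + 1) ^ 4) * env G A := by
    intro π hπ
    rw [Finset.mem_powerset] at hπ
    set U := {u : Conf | ∀ e ∈ π, u e < θ'} with hU
    have hsub : {t | t ∈ S ∧ strongE t K o x θ M = π} ×ˢ U ⊆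
        {q : Conf × Conf | lowerW π q.1 q.2 ∈ A} ∪ {q : Conf × Conf | lowerW π q.1 q.2 ∈ Ωᶜ} := by
      rintro ⟨t, u⟩ ⟨⟨⟨htΩ, htE, hQ, hbad⟩, hst⟩, hu⟩
      by_cases hmem : lowerW π t u ∈ Ω
      · refine Or.inl ⟨hinv t _ (fun e he => ?_) htE, hmem, ?_⟩
        · exact (if_neg fun h => he (hπ h)).symm
        · subst hst
          exact pp_lower hθ0 hθθ hS hB (hΩok t htΩ) (hΩok _ hmem) hQ hbad hu
      · exact Or.inr hmem
    have h1 : env G {t | t ∈ S ∧ strongE t K o x θ M = π} * p ^ π.card ≤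
        2 ^ π.card * env G A := by
      rw [hpdef, ← env_low G π θ', ← Measure.prod_prod]
      refine (measure_mono hsub).trans ((measure_union_le _ _).trans ?_)
      refine (add_le_add (hlow π A hAm) (hlow π _ hΩ.compl)).trans_eq ?_
      rw [hΩ0, mul_zero, add_zero]
    have hp0 : p ^ π.card ≠ 0 := pow_ne_zero _ hp.ne'
    have hpt : p ^ π.card ≠ ⊤ := ENNReal.pow_ne_top (measure_ne_top _ _)
    rw [← ENNReal.le_div_iff_mul_le (Or.inl hp0) (Or.inl hpt)] at h1
    refine h1.trans ?_
    rw [mul_comm, mul_div_assoc, mul_comm]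
    refine mul_le_mul_left ?_ _
    rw [div_eq_mul_inv, div_eq_mul_inv, ENNReal.inv_pow, ← mul_pow]
    exact pow_le_pow_right' h1p ((Finset.card_le_card hπ).trans (boxE_card x M))
  calc env G S ≤ ∑ π ∈ (boxE x M).powerset, env G {t | t ∈ S ∧ strongE t K o x θ M = π} :=
        (measure_mono hcover).trans (measure_biUnion_finset_le _ _)
    _ ≤ ∑ π ∈ (boxE x M).powerset, (2 / p) ^ ((2 * M + 1) ^ 4) * env G A := Finset.sum_le_sum hone
    _ ≤ lowCst G θ' M * env G A := by
        rw [Finset.sum_const, Finset.card_powerset, nsmul_eq_mul, lowCst, ← hpdef, mul_assoc]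
        refine mul_le_mul_left ?_ _
        push_cast
        exact pow_le_pow_right' one_le_two (boxE_card x M)

end Vale.Agent.P158.NB.MP
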