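import Vale.Agent.P158.NB.MergeGlue
import Vale.Agent.P158.NB.Prob

/-!
# P158 lemma A: measurability of the tree events

On a measurable set of typical configurations the geodesic to a target and everything defined from
it by countably many quantifiers is measurable.
-/

namespace Vale.Agent.P158.NB.MP

open Vale.Agent.P158 Vale.Agent.P158.NB Vale.Agent.P158.NB.MD MeasureTheory
open scoped Classical

variable {Ω : Set Conf} (hok : ∀ t ∈ Ω, OK t) (K : Set (Sym2 V)) (o : V)

include hok

lemma geoIn_meas (x : V) (v : ℕ → V) (L : ℕ) :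
    MeasurableSet {t : Ω | GeoIn t.1 K x o v L} := by
  by_cases hp : PathIn K x o v L ∧ Set.InjOn v (Set.Iic L)
  · have : {t : Ω | GeoIn t.1 K x o v L} = {t : Ω | cost t.1 v L ≤ T t.1 K x o} := by
      ext t
      have hn : ∀ e, 0 ≤ t.1 e := fun e => ((hok _ t.2).pos e).le
      refine ⟨fun h => le_T ⟨v, L, hp.1⟩ fun w M hw => h.least w M hw,
        fun h => ⟨hp.1, hp.2, fun w M hw => h.trans (T_le hn hw)⟩⟩
    rw [this]
    exact measurableSet_le ((cost_meas v L).comp measurable_subtype_coe)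
      ((T_meas K x o).comp measurable_subtype_coe)
  · have : {t : Ω | GeoIn t.1 K x o v L} = ∅ := by
      ext t
      simp only [Set.mem_ofPred_eq, Set.mem_empty_iff_false, iff_false]
      exact fun h => hp ⟨h.toPathIn, h.inj⟩
    rw [this]
    exact MeasurableSet.empty

omit hok in
lemma geo_walk {t : Conf} (h : OK t) {x : V} (hx : Conn K o x) :
    ∃ d : Fin (len t K o x) → Fin 4, GeoIn t K x o (walk x d) (len t K o x) ∧
      ∀ k ≤ len t K o x, walk x d k = g t K o x k := by
  have hg := geo_g h hx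
  obtain ⟨d, hd⟩ := exists_walk hg.path
  rw [hg.first] at hd
  exact ⟨d, hg.congr fun k hk => (hd k hk).symm, hd⟩

lemma g_meas (x : V) (i : ℕ) : Measurable fun t : Ω => g t.1 K o x i := by
  refine measurable_to_countable' fun z => ?_
  by_cases hx : Conn K o x
  · have : (fun t : Ω => g t.1 K o x i) ⁻¹' {z} =
        ⋃ p ∈ {p : Σ L : ℕ, Fin L → Fin 4 | walk x p.2 (min i p.1) = z},
          {t : Ω | GeoIn t.1 K x o (walk x p.2) p.1} := by
      ext t
      have hv : ∀ L : ℕ, ∀ d : Fin L → Fin 4, GeoIn t.1 K x o (walk x d) L →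
          walk x d (min i L) = g t.1 K o x i := by
        intro L d h
        obtain ⟨hL, hw⟩ := geo_unique (hok _ t.2) h
        rw [hw _ (min_le_right _ _)]
        rcases le_total i L with hi | hi
        · rw [min_eq_left hi]
        · rw [min_eq_right hi, hL]; exact (g_const x (hL ▸ hi)).symm
      simp only [Set.mem_preimage, Set.mem_singleton_iff, Set.mem_iUnion, Set.mem_ofPred_eq,
        exists_prop]
      constructor
      · intro h
        obtain ⟨d, hd, -⟩ := geo_walk K o (hok _ t.2) hx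
        exact ⟨⟨_, d⟩, (hv _ _ hd).trans h, hd⟩
      · rintro ⟨⟨L, d⟩, h1, h2⟩
        exact (hv L d h2).symm.trans h1
    rw [this]
    exact MeasurableSet.biUnion (Set.to_countable _) fun p _ => geoIn_meas hok K o x _ _
  · have : (fun t : Ω => g t.1 K o x i) = fun _ => x :=
      funext fun t => (not_reach (hok _ t.2) hx).2 i
    rw [this]
    exact measurable_const (measurableSet_singleton z)

lemma len_meas (x : V) : Measurable fun t : Ω => len t.1 K o x := by
  refine measurable_to_countable' fun L => ?_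
  by_cases hx : Conn K o x
  · have : (fun t : Ω => len t.1 K o x) ⁻¹' {L} =
        ⋃ d : Fin L → Fin 4, {t : Ω | GeoIn t.1 K x o (walk x d) L} := by
      ext t
      simp only [Set.mem_preimage, Set.mem_singleton_iff, Set.mem_iUnion, Set.mem_ofPred_eq]
      constructor
      · rintro rfl
        obtain ⟨d, hd, -⟩ := geo_walk K o (hok _ t.2) hx
        exact ⟨d, hd⟩
      · rintro ⟨d, hd⟩
        exact (geo_unique (hok _ t.2) hd).1.symm
    rw [this]
    exact MeasurableSet.iUnion fun d => geoIn_meas hok K o x _ _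
  · have : (fun t : Ω => len t.1 K o x) = fun _ => 0 :=
      funext fun t => (not_reach (hok _ t.2) hx).1
    rw [this]
    exact measurable_const (measurableSet_singleton L)

lemma g_eq_meas (x z : V) (i : ℕ) : MeasurableSet {t : Ω | g t.1 K o x i = z} :=
  g_meas hok K o x i (measurableSet_singleton z)

lemma anc_meas (x z : V) : MeasurableSet {t : Ω | z ∈ Anc t.1 K o x} := by
  have : {t : Ω | z ∈ Anc t.1 K o x} = ⋃ i, {t : Ω | g t.1 K o x i = z} := by
    ext t; simp [Anc]
  rw [this]
  exact MeasurableSet.iUnion fun i => g_eq_meas hok K o x z i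

lemma ancE_meas (x : V) (e : Sym2 V) : MeasurableSet {t : Ω | e ∈ AncE t.1 K o x} := by
  have : {t : Ω | e ∈ AncE t.1 K o x} = ⋃ i : ℕ, ⋃ a : V, ⋃ b : V, ⋃ _ : s(a, b) = e,
      ({t : Ω | g t.1 K o x i = a} ∩ {t : Ω | g t.1 K o x (i + 1) = b}) ∩
        {t : Ω | i < len t.1 K o x} := by
    ext t
    simp only [AncE, Set.mem_ofPred_eq, Set.mem_iUnion, Set.mem_inter_iff, exists_prop]
    constructor
    · rintro ⟨i, hi, he⟩
      exact ⟨i, _, _, he, ⟨rfl, rfl⟩, hi⟩
    · rintro ⟨i, a, b, he, ⟨ha, hb⟩, hi⟩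
      exact ⟨i, hi, by rw [ha, hb, he]⟩
  rw [this]
  exact MeasurableSet.iUnion fun i => MeasurableSet.iUnion fun a => MeasurableSet.iUnion fun b =>
    MeasurableSet.iUnion fun _ => ((g_eq_meas hok K o x a i).inter
      (g_eq_meas hok K o x b (i + 1))).inter
        (len_meas hok K o x (MeasurableSet.of_discrete (s := Set.Ioi i)))

lemma ff_meas (R : ℕ) (c : ℝ) (H : ℕ) (u : V) :
    MeasurableSet {t : Ω | FF t.1 K o R c H u} := by
  have key : {t : Ω | FF t.1 K o R c H u} = ⋃ p ∈ {p : Σ l : ℕ, Fin l → Fin 4 |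
        p.1 ≤ R ∧ PathIn K u (walk u p.2 p.1) (walk u p.2) p.1},
      ((⋂ k ∈ {k : ℕ | k < p.1}, {t : Ω | t.1 s(walk u p.2 k, walk u p.2 (k + 1)) ≤ c} ∩
          {t : Ω | s(walk u p.2 k, walk u p.2 (k + 1)) ∈ AncE t.1 K o u}ᶜ) ∩
        ⋂ i ∈ {i : ℕ | i ≤ H}, ⋂ a : V, ({t : Ω | g t.1 K o (walk u p.2 p.1) i = a}ᶜ ∪
          {t : Ω | a ∈ Anc t.1 K o u}ᶜ)) := by
    ext t
    simp only [Set.mem_ofPred_eq, Set.mem_iUnion, Set.mem_inter_iff, Set.mem_iInter,
      Set.mem_compl_iff, Set.mem_union, exists_prop]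
    constructor
    · rintro ⟨y, P, l, hl, hP, hc, hoff, hav⟩
      obtain ⟨d, hd⟩ := exists_walk hP.path
      rw [hP.first] at hd
      have hy : walk u d l = y := by rw [hd l le_rfl, hP.last]
      refine ⟨⟨l, d⟩, ⟨hl, by rw [hy]; exact hP.congr fun k hk => (hd k hk).symm⟩,
        fun k hk => ?_, fun i hi a => ?_⟩
      · rw [hd k hk.le, hd (k + 1) hk]
        exact ⟨hc k hk, hoff k hk⟩
      · by_cases ha : g t.1 K o (walk u d l) i = a
        · right; rw [← ha, hy]; exact hav i hi
        · exact Or.inl ha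
    · rintro ⟨⟨l, d⟩, ⟨hl, hP⟩, hk, hav⟩
      refine ⟨_, _, l, hl, hP, fun k h => (hk k h).1, fun k h => (hk k h).2, fun i hi => ?_⟩
      rcases hav i hi (g t.1 K o (walk u d l) i) with h | h
      · exact absurd rfl h
      · exact h
  rw [key]
  refine MeasurableSet.biUnion (Set.to_countable _) fun p _ => ?_
  refine MeasurableSet.inter (MeasurableSet.biInter (Set.to_countable _) fun k _ => ?_)
    (MeasurableSet.biInter (Set.to_countable _) fun i _ => MeasurableSet.iInter fun a =>
      (g_eq_meas hok K o _ a i).compl.union (anc_meas hok K o u a).compl)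
  exact (measurableSet_le ((measurable_pi_apply _).comp measurable_subtype_coe)
    measurable_const).inter (ancE_meas hok K o u _).compl

lemma tr_meas (B : Set V) (x : V) : MeasurableSet {t : Ω | Tr t.1 K o B x} := by
  have : {t : Ω | Tr t.1 K o B x} = ⋃ b ∈ B, {t : Ω | x ∈ Anc t.1 K o b} := by
    ext t; simp [Tr]
  rw [this]
  exact MeasurableSet.biUnion (Set.to_countable _) fun b _ => anc_meas hok K o b x

lemma pp_meas (B : Set V) (R : ℕ) (c : ℝ) (H D W : ℕ) (x : V) :
    MeasurableSet {t : Ω | PP t.1 K o B R c H D W x} := by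
  have key : {t : Ω | PP t.1 K o B R c H D W x} =
      {t : Ω | Tr t.1 K o B x} ∩ ({t : Ω | D ≤ len t.1 K o x} ∩
        ((⋃ u : V, {t : Ω | g t.1 K o x D = u} ∩ {t : Ω | FF t.1 K o R c H u}) ∩
        ⋃ k : V, ({t : Ω | W ≤ len t.1 K o k} ∩ {t : Ω | g t.1 K o k W = x}) ∩
          ⋂ j ∈ {j : ℕ | j ≤ W}, ⋂ u : V,
            ({t : Ω | g t.1 K o k j = u}ᶜ ∪ {t : Ω | FF t.1 K o R c H u}ᶜ))) := by
    ext t
    simp only [PP, Set.mem_ofPred_eq, Set.mem_iUnion, Set.mem_inter_iff, Set.mem_iInter,
      Set.mem_compl_iff, Set.mem_union]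
    refine and_congr_right fun _ => and_congr_right fun _ => and_congr ?_ (exists_congr fun k => ?_)
    · exact ⟨fun h => ⟨_, rfl, h⟩, fun ⟨u, hu, h⟩ => hu.symm ▸ h⟩
    · rw [and_assoc]
      refine and_congr_right fun _ => and_congr_right fun _ => forall₂_congr fun j _ => ?_
      exact ⟨fun h u => or_iff_not_imp_left.2 fun hu => by
        rw [← not_not.1 hu]; exact h, fun h => (h _).resolve_left fun hne => hne rfl⟩
  rw [key]
  refine (tr_meas hok K o B x).inter ((len_meas hok K o x
    (MeasurableSet.of_discrete (s := Set.Ici D))).inter (MeasurableSet.inter ?_ ?_))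
  · exact MeasurableSet.iUnion fun u => (g_eq_meas hok K o x u D).inter (ff_meas hok K o R c H u)
  · exact MeasurableSet.iUnion fun k => ((len_meas hok K o k
      (MeasurableSet.of_discrete (s := Set.Ici W))).inter (g_eq_meas hok K o k x W)).inter
      (MeasurableSet.biInter (Set.to_countable _) fun j _ => MeasurableSet.iInter fun u =>
        (g_eq_meas hok K o k u j).compl.union (ff_meas hok K o R c H u).compl)

/-- The event `PP` among the typical configurations. -/
lemma ppSet_meas (hΩ : MeasurableSet Ω) (B : Set V) (R : ℕ) (c : ℝ) (H D W : ℕ) (x : V) :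
    MeasurableSet {t | t ∈ Ω ∧ PP t K o B R c H D W x} := by
  have : {t | t ∈ Ω ∧ PP t K o B R c H D W x} =
      Subtype.val '' {t : Ω | PP t.1 K o B R c H D W x} := by
    ext t; simp [and_comm]
  rw [this]
  exact hΩ.subtype_image (pp_meas hok K o B R c H D W x)

end Vale.Agent.P158.NB.MP
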