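import Vale.Agent.P158.NB.MergeDet

/-!
# P158 lemma A: at most `D` marked vertices per window
-/

namespace Vale.Agent.P158.NB.MD

open Vale.Agent.P158 Vale.Agent.P158.NB
open scoped Classical

variable {t t' : Conf} {K : Set (Sym2 V)} {o : V}

/-! ## At most `D` per window -/

/-- `x` is `D` steps behind a pattern, with `W` pattern-free steps behind it. -/
def PP (t : Conf) (K : Set (Sym2 V)) (o : V) (B : Set V) (R : ℕ) (c : ℝ) (H D W : ℕ) (x : V) :
    Prop :=
  Tr t K o B x ∧ D ≤ len t K o x ∧ FF t K o R c H (g t K o x D) ∧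
    ∃ k, W ≤ len t K o k ∧ g t K o k W = x ∧ ∀ j ≤ W, ¬ FF t K o R c H (g t K o k j)

/-- The lowered configuration has the event at `x`. -/
lemma pp_of_low {π : Finset (Sym2 V)} {x k : V} {M D R H W : ℕ} {c cW : ℝ} {B : Set V}
    (hl : Low t t' K o π x M D R c) (hB : ∀ b ∈ B, Conn K o b) (hk : Tr t K o B k)
    (hW : W ≤ len t K o k) (hkx : g t K o k W = x) (hF : FF t K o R c H (g t K o x D))
    (hcheap : ∀ j ≤ W, cost t (fun i => g t K o k (j + i)) (W - j + M) ≤ cW)
    (htough : ∀ y ∈ box x (W + R), ∀ v : ℕ → V, IsPath v H → Set.InjOn v (Set.Iic H) → v 0 = y →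
      R * c + cW < cost t v H) :
    PP t' K o B R c H D W x := by
  obtain ⟨b, hb, i, hi, hbk⟩ : ∃ b ∈ B, ∃ i ≤ len t K o b, g t K o b i = k := by
    obtain ⟨b, hb, hkb⟩ := hk
    exact ⟨b, hb, anc_index hkb⟩
  have hbx : g t K o b (i + W) = x := by rw [← g_g hl.ok, hbk, hkx]
  have rk := tr_reach hl.ok hB hk
  obtain ⟨hu, hF'⟩ := hl.ff_persist hF
  refine ⟨⟨b, hb, ?_⟩, ?_, by rw [hu]; exact hF', k, ?_, ?_, fun j hj => ?_⟩
  · rw [(hl.anc_eq (hB b hb) hbx).1]
    exact ⟨i + W, hbx⟩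
  · rw [(hl.through hl.reach (g_zero hl.ok x)).1]; exact hl.hD
  · rw [(hl.through rk hkx).1]; exact hW
  · rw [(hl.through rk hkx).2.1]; exact hkx
  · rw [(hl.through rk hkx).2.1]
    have hjx : g t K o (g t K o k j) (W - j) = x := by
      rw [g_g hl.ok, show j + (W - j) = W by omega, hkx]
    refine hl.not_ff_behind (reach_g hl.ok rk j) hjx (by rw [len_g hl.ok]; omega)
      (show W - j ≤ W by omega) ?_ htough
    rw [cost_congr t fun m _ => g_g hl.ok k j m]
    exact hcheap j hj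

/-- The double count. -/
lemma pp_card (h : OK t) (B : Set V) (R : ℕ) (c : ℝ) (H D W : ℕ) (X S : Finset V)
    (hX : ∀ x ∈ X, PP t K o B R c H D W x) (hS : ∀ x ∈ X, ∀ v ∈ box x W, v ∈ S) :
    X.card * W ≤ D * S.card := by
  choose! k hkW hkx hkF using fun x hx => (hX x hx).2.2.2
  have hreach : ∀ x ∈ X, ∀ j ≤ W, g t K o (k x) j ∈ box x W := by
    intro x hx j hj
    by_cases hr : Conn K o (k x)
    · have hg := geo_g h hr
      have := path_dist (hg.path.shift hj (hkW x hx)) (W - j) le_rfl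
      simp only [add_zero, show j + (W - j) = W by omega, hkx x hx] at this
      exact box_mono x (Nat.sub_le _ _) (box_symm this)
    · have := (not_reach h hr).2
      rw [this j, ← this W, hkx x hx]
      simp [box]
  have hcard : (X ×ˢ Finset.range W).card = X.card * W := by simp
  rw [← hcard]
  refine Finset.card_le_mul_card_image_of_maps_to
    (f := fun p : V × ℕ => g t K o (k p.1) p.2) ?_ D ?_
  · rintro ⟨x, j⟩ hp
    simp only [Finset.mem_product, Finset.mem_range] at hp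
    exact hS x hp.1 _ (hreach x hp.1 j hp.2.le)
  intro v _
  set F := (X ×ˢ Finset.range W).filter (fun p : V × ℕ => g t K o (k p.1) p.2 = v) with hF
  rcases F.eq_empty_or_nonempty with hF0 | hne
  · rw [hF0]; simp
  obtain ⟨q, hq, hqmin⟩ := F.exists_min_image (fun p => W - p.2) hne
  have hpos : ∀ p ∈ F, p.1 = g t K o v (W - p.2) ∧ p.1 ∈ X ∧ p.2 < W := by
    intro p hp
    simp only [hF, Finset.mem_filter, Finset.mem_product, Finset.mem_range] at hp
    exact ⟨by rw [← hp.2, g_g h, show p.2 + (W - p.2) = W by omega, hkx _ hp.1.1], hp.1.1, hp.1.2⟩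
  obtain ⟨q1, q2, q3⟩ := hpos q hq
  have key : ∀ p ∈ F, W - p.2 < W - q.2 + D := by
    intro p hp
    obtain ⟨p1, p2, p3⟩ := hpos p hp
    by_contra hge
    have hpv : g t K o (k p.1) p.2 = v := (Finset.mem_filter.1 hp).2
    refine hkF p.1 p2 (p.2 + (W - q.2 + D)) (by omega) ?_
    rw [← g_g h, hpv, ← g_g h, ← q1]
    exact (hX q.1 q2).2.2.1
  refine (Finset.card_le_card_of_injOn (fun p => W - p.2)
    (t := Finset.Ico (W - q.2) (W - q.2 + D)) ?_ ?_).trans (by simp)
  · intro p hp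
    simp only [Finset.mem_coe, Finset.mem_Ico]
    exact ⟨hqmin p hp, key p hp⟩
  · intro p hp p' hp' he
    obtain ⟨a1, -, a3⟩ := hpos p hp
    obtain ⟨b1, -, b3⟩ := hpos p' hp'
    simp only at he
    refine Prod.ext ?_ (by omega)
    rw [a1, b1, he]

end Vale.Agent.P158.NB.MD
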