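import Vale.Agent.P158.NB.Defs
import Vale.Agent.P158.NB.Cycle

/-!
# P158: a simple cycle on the boundary of a finite face set
-/

namespace Vale.Agent.P158.NB

open Vale.Agent.P158

/-- `e` separates a face of `U` from a face outside `U`. -/
def Bd (U : Finset V) (e : Sym2 V) : Prop := ∃ f g, touch e f ∧ touch e g ∧ f ∈ U ∧ g ∉ U

/-- The faces at the vertices of `box 0 r`. -/
noncomputable def sqFaces (r : ℕ) : Finset V :=
  Finset.Icc (-(r : ℤ) - 1) r ×ˢ Finset.Icc (-(r : ℤ) - 1) r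

/-- The four edges at a face. -/
def faceEdges (f : V) : Finset (Sym2 V) :=
  {vE f, vE (f.1 + 1, f.2), hE f, hE (f.1, f.2 + 1)}

lemma mem_faceEdges {e : Sym2 V} {f : V} : e ∈ faceEdges f ↔ touch e f := by
  simp [faceEdges, touch]

open Classical in
/-- The boundary edges. -/
noncomputable def bdEdges (U : Finset V) : Finset (Sym2 V) :=
  (U.biUnion faceEdges).filter (Bd U)

lemma mem_bdEdges {U : Finset V} {e : Sym2 V} : e ∈ bdEdges U ↔ Bd U e := by
  simp only [bdEdges, Finset.mem_filter, Finset.mem_biUnion]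
  exact ⟨fun h => h.2, fun ⟨f, g, hf, hg, hfU, hgU⟩ =>
    ⟨⟨f, hfU, mem_faceEdges.2 hf⟩, f, g, hf, hg, hfU, hgU⟩⟩

lemma touch_vE {a b : ℤ} {f : V} : touch (vE (a, b)) f ↔ f = (a, b) ∨ f = (a - 1, b) := by
  obtain ⟨f1, f2⟩ := f
  simp only [touch, vE, hE, Sym2.eq_iff, Prod.mk.injEq]
  omega

lemma touch_hE {a b : ℤ} {f : V} : touch (hE (a, b)) f ↔ f = (a, b) ∨ f = (a, b - 1) := by
  obtain ⟨f1, f2⟩ := f
  simp only [touch, vE, hE, Sym2.eq_iff, Prod.mk.injEq]
  omega

lemma bd_vE {U : Finset V} {a b : ℤ} :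
    Bd U (vE (a, b)) ↔ ¬ (((a, b) : V) ∈ U ↔ ((a - 1, b) : V) ∈ U) := by
  simp only [Bd, touch_vE]
  constructor
  · rintro ⟨f, g, rfl | rfl, rfl | rfl, hf, hg⟩ <;> tauto
  · intro h
    by_cases h1 : ((a, b) : V) ∈ U
    · exact ⟨_, _, Or.inl rfl, Or.inr rfl, h1, by tauto⟩
    · exact ⟨_, _, Or.inr rfl, Or.inl rfl, by tauto, h1⟩

lemma bd_hE {U : Finset V} {a b : ℤ} :
    Bd U (hE (a, b)) ↔ ¬ (((a, b) : V) ∈ U ↔ ((a, b - 1) : V) ∈ U) := by
  simp only [Bd, touch_hE]
  constructor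
  · rintro ⟨f, g, rfl | rfl, rfl | rfl, hf, hg⟩ <;> tauto
  · intro h
    by_cases h1 : ((a, b) : V) ∈ U
    · exact ⟨_, _, Or.inl rfl, Or.inr rfl, h1, by tauto⟩
    · exact ⟨_, _, Or.inr rfl, Or.inl rfl, by tauto, h1⟩

lemma exists_adj_of_touch {e : Sym2 V} {f : V} (h : touch e f) : ∃ a b, Adj a b ∧ e = s(a, b) := by
  rcases h with rfl | rfl | rfl | rfl <;> exact ⟨_, _, by simp [Adj], rfl⟩

open Classical in
/-- `1` if `v` is an end of `e`. -/
noncomputable def inc (v : V) (e : Sym2 V) : ZMod 2 := if v ∈ e then 1 else 0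

/-- `hit` as a function of the edge. -/
noncomputable def hitE (f : V) : Sym2 V → ZMod 2 :=
  Sym2.lift ⟨hit f, fun a b => by
    classical
    obtain ⟨a1, a2⟩ := a
    obtain ⟨b1, b2⟩ := b
    simp only [hit]
    split_ifs <;> first | rfl | omega⟩

lemma hitE_mk (f a b : V) : hitE f s(a, b) = hit f a b := rfl

/-- A nonempty edge set of even degrees contains a simple cycle. -/
lemma exists_cyc_of_even {E : Finset (Sym2 V)} (hadj : ∀ e ∈ E, ∃ a b, Adj a b ∧ e = s(a, b))
    (heven : ∀ v, ∑ e ∈ E, inc v e = 0) (hne : E.Nonempty) :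
    ∃ C : Cyc, ∀ k < C.m, s(C.c k, C.c (k + 1)) ∈ E := by
  classical
  have hadj' : ∀ a b, s(a, b) ∈ E → Adj a b := fun a b h => by
    obtain ⟨x, y, hxy, he⟩ := hadj _ h
    rcases Sym2.eq_iff.1 he with ⟨rfl, rfl⟩ | ⟨rfl, rfl⟩
    exacts [hxy, adj_comm hxy]
  set P : ℕ → Prop := fun L => ∃ v : ℕ → V,
    (∀ k < L, s(v k, v (k + 1)) ∈ E) ∧ Set.InjOn v (Set.Iic L) with hP
  have bound : ∀ L, P L → L ≤ E.card := fun L ⟨v, hv, hi⟩ => by
    have := Finset.card_le_card_of_injOn (s := Finset.range L) (t := E)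
      (fun k => s(v k, v (k + 1))) (fun k hk => hv k (Finset.mem_range.1 hk)) (fun a ha b hb e => by
        simp only [Finset.coe_range, Set.mem_Iio] at ha hb
        rcases Sym2.eq_iff.1 e with ⟨h1, -⟩ | ⟨h1, h2⟩
        · exact hi (show a ≤ L by omega) (show b ≤ L by omega) h1
        · have e1 := hi (show a ≤ L by omega) (show b + 1 ≤ L by omega) h1
          have e2 := hi (show a + 1 ≤ L by omega) (show b ≤ L by omega) h2
          omega)
    rwa [Finset.card_range] at this
  have h1 : P 1 := by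
    obtain ⟨e, he⟩ := hne
    obtain ⟨a, b, hab, rfl⟩ := hadj e he
    have hne' : a ≠ b := fun h => by simp [Adj, h] at hab
    refine ⟨fun k => if k = 0 then a else b, fun k hk => ?_, fun i hi j hj h => ?_⟩
    · rw [Nat.lt_one_iff.1 hk]; simpa using he
    · simp only [Set.mem_Iic] at hi hj
      rcases (by omega : i = 0 ∨ i = 1) with rfl | rfl <;>
        rcases (by omega : j = 0 ∨ j = 1) with rfl | rfl <;> simp at h <;> tauto
  set L := Nat.findGreatest P E.card with hLdef
  obtain ⟨v, hv, hi⟩ : P L := Nat.findGreatest_spec (bound 1 h1) h1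
  have hL1 : 1 ≤ L := Nat.le_findGreatest (bound 1 h1) h1
  set e0 := s(v (L - 1), v L) with he0
  have he0E : e0 ∈ E := by
    have := hv (L - 1) (by omega)
    rwa [show L - 1 + 1 = L by omega] at this
  obtain ⟨e1, he1E, he1v, he1ne⟩ : ∃ e1 ∈ E, v L ∈ e1 ∧ e1 ≠ e0 := by
    by_contra hcon
    push Not at hcon
    have hsum := heven (v L)
    rw [Finset.sum_eq_single e0
      (fun b hb hb0 => by rw [inc, if_neg fun h => hb0 (hcon b hb h)])
      (fun h => absurd he0E h), inc, if_pos (Sym2.mem_mk_right _ _)] at hsum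
    exact absurd hsum (by decide)
  obtain ⟨w, rfl⟩ : ∃ w, e1 = s(v L, w) := by
    obtain ⟨w, hw⟩ := he1v
    exact ⟨w, hw⟩
  have hadjw := hadj' _ _ he1E
  have hwL : w ≠ v L := fun h => by rw [h] at hadjw; simp [Adj] at hadjw
  have hwL1 : w ≠ v (L - 1) := fun h => he1ne (by rw [he0, h, Sym2.eq_swap])
  obtain ⟨j, hj, hjw⟩ : ∃ j ≤ L, v j = w := by
    by_contra hcon
    push Not at hcon
    set v' := fun k => if k ≤ L then v k else w with hv'
    have hP' : P (L + 1) := by
      refine ⟨v', fun k hk => ?_, fun a ha b hb h => ?_⟩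
      · simp only [hv']
        rcases (show k ≤ L by omega).eq_or_lt with rfl | hk'
        · simp [he1E]
        · rw [if_pos hk'.le, if_pos (by omega)]; exact hv k hk'
      · simp only [Set.mem_Iic] at ha hb
        simp only [hv'] at h
        split_ifs at h with ha' hb' hb'
        · exact hi ha' hb' h
        · exact absurd h (hcon a ha')
        · exact absurd h.symm (hcon b hb')
        · omega
    have := Nat.le_findGreatest (bound _ hP') hP'
    omega
  have hjL : j ≠ L := fun h => hwL (by rw [← hjw, h])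
  have hjL1 : j ≠ L - 1 := fun h => hwL1 (by rw [← hjw, h])
  set c : ℕ → V := fun k => if k ≤ L - j then v (j + k) else v j with hc
  have hedge : ∀ k < L - j + 1, s(c k, c (k + 1)) ∈ E := fun k hk => by
    simp only [hc]
    rcases (show k ≤ L - j by omega).eq_or_lt with rfl | hk'
    · rw [if_pos le_rfl, if_neg (by omega), show j + (L - j) = L by omega, hjw]; exact he1E
    · rw [if_pos hk'.le, if_pos (by omega), ← add_assoc]; exact hv _ (by omega)
  refine ⟨⟨c, L - j + 1, by omega, fun k hk => hadj' _ _ (hedge k hk), ?_, ?_⟩, hedge⟩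
  · simp [hc]
  · intro a ha b hb h
    simp only [Set.mem_Iio] at ha hb
    simp only [hc, if_pos (show a ≤ L - j by omega), if_pos (show b ≤ L - j by omega)] at h
    have := hi (show j + a ≤ L by omega) (show j + b ≤ L by omega) h
    omega

lemma Cyc.sum_edges {M : Type*} [AddCommMonoid M] (C : Cyc) (φ : Sym2 V → M) :
    ∑ e ∈ (Finset.range C.m).image (fun k => s(C.c k, C.c (k + 1))), φ e =
      ∑ k ∈ Finset.range C.m, φ s(C.c k, C.c (k + 1)) := by
  rw [Finset.sum_image fun a ha b hb h =>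
    C.edge_inj (Finset.mem_range.1 ha) (Finset.mem_range.1 hb) h]

/-- An even edge set with odd crossing at `f` contains a cycle with odd crossing at `f`. -/
lemma exists_cyc_around (f : V) : ∀ E : Finset (Sym2 V),
    (∀ e ∈ E, ∃ a b, Adj a b ∧ e = s(a, b)) → (∀ v, ∑ e ∈ E, inc v e = 0) →
    ∑ e ∈ E, hitE f e = 1 →
    ∃ C : Cyc, col C.c C.m f = 1 ∧ ∀ k < C.m, s(C.c k, C.c (k + 1)) ∈ E := by
  intro E
  induction E using Finset.strongInduction with
  | _ E ih =>
    intro hadj heven hodd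
    classical
    have hne : E.Nonempty := by
      rw [Finset.nonempty_iff_ne_empty]
      rintro rfl
      simp at hodd
    obtain ⟨C, hC⟩ := exists_cyc_of_even hadj heven hne
    rcases zcases (col C.c C.m f) with h0 | h1
    swap
    · exact ⟨C, h1, hC⟩
    set S := (Finset.range C.m).image (fun k => s(C.c k, C.c (k + 1))) with hS
    have hSE : S ⊆ E := by
      intro e he
      obtain ⟨k, hk, rfl⟩ := Finset.mem_image.1 he
      exact hC k (Finset.mem_range.1 hk)
    have hSne : S.Nonempty := ⟨_, Finset.mem_image_of_mem _ (Finset.mem_range.2 C.m_pos)⟩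
    have split : ∀ φ : Sym2 V → ZMod 2, ∑ e ∈ E \ S, φ e =
        ∑ e ∈ E, φ e - ∑ k ∈ Finset.range C.m, φ s(C.c k, C.c (k + 1)) := fun φ => by
      rw [← C.sum_edges φ, Finset.sum_sdiff_eq_sub hSE]
    obtain ⟨C', h1, h2⟩ := ih (E \ S) (Finset.sdiff_ssubset hSE hSne)
      (fun e he => hadj e (Finset.mem_sdiff.1 he).1) (fun v => by
        rw [split, heven v, zero_sub, neg_eq_zero]
        have : ∀ k ∈ Finset.range C.m, inc v s(C.c k, C.c (k + 1)) =
            (if v = C.c k then (1 : ZMod 2) else 0) + if v = C.c (k + 1) then 1 else 0 := by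
          intro k hk
          have hne : C.c k ≠ C.c (k + 1) := fun h => by
            have := C.path k (Finset.mem_range.1 hk)
            simp [Adj, h] at this
          simp only [inc, Sym2.mem_iff]
          split_ifs <;> simp_all
        rw [Finset.sum_congr rfl this, Finset.sum_add_distrib]
        have h1 := Finset.sum_range_succ' (fun k => if v = C.c k then (1 : ZMod 2) else 0) C.m
        rw [Finset.sum_range_succ, C.closed] at h1
        rw [← add_right_cancel h1]
        exact zadd_self _) (by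
        rw [split, hodd]
        simp only [hitE_mk]
        rw [show (∑ k ∈ Finset.range C.m, hit f (C.c k) (C.c (k + 1))) = col C.c C.m f from rfl, h0,
          sub_zero])
    exact ⟨C', h1, fun k hk => (Finset.mem_sdiff.1 (h2 k hk)).1⟩

lemma const_between {β : Type*} (g : ℤ → β) {a b : ℤ}
    (h : ∀ x, a < x → x ≤ b → g (x - 1) = g x) {x y : ℤ} (hx : a ≤ x) (hx' : x ≤ b) (hy : a ≤ y)
    (hy' : y ≤ b) : g x = g y := by
  have key : ∀ k : ℕ, a + k ≤ b → g (a + k) = g a := by
    intro k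
    induction k with
    | zero => simp
    | succ k ih =>
      intro hk
      rw [← h _ (by omega) hk, show a + ((k + 1 : ℕ) : ℤ) - 1 = a + k by omega, ih (by omega)]
  rw [show x = a + ((x - a).toNat : ℤ) by omega, key _ (by omega),
    show y = a + ((y - a).toNat : ℤ) by omega, key _ (by omega)]

open Classical in
/-- Indicator of a face set. -/
noncomputable def faceInd (U : Finset V) (f : V) : ZMod 2 := if f ∈ U then 1 else 0

lemma bd_even (U : Finset V) (v : V) : ∑ e ∈ bdEdges U, inc v e = 0 := by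
  classical
  obtain ⟨x, y⟩ := v
  set T : Finset (Sym2 V) := {vE (x, y), vE (x, y - 1), hE (x, y), hE (x - 1, y)} with hT
  have h1 : (bdEdges U).filter (fun e => (x, y) ∈ e) = T.filter (fun e => Bd U e) := by
    ext e
    simp only [Finset.mem_filter, mem_bdEdges]
    refine ⟨fun ⟨hb, hm⟩ => ⟨?_, hb⟩, fun ⟨hT', hb⟩ => ⟨hb, ?_⟩⟩
    · obtain ⟨f, g, hf, -⟩ := hb
      have key : ∀ p : V, ((x, y) ∈ vE p → vE p ∈ T) ∧ ((x, y) ∈ hE p → hE p ∈ T) := by
        rintro ⟨a, b⟩
        refine ⟨fun h => ?_, fun h => ?_⟩ <;>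
          (simp only [vE, hE, Sym2.mem_iff, Prod.mk.injEq] at h
           rcases h with ⟨rfl, rfl⟩ | ⟨rfl, rfl⟩ <;> simp [hT, vE, hE])
      rcases hf with rfl | rfl | rfl | rfl
      exacts [(key _).1 hm, (key _).1 hm, (key _).2 hm, (key _).2 hm]
    · simp only [hT, Finset.mem_insert, Finset.mem_singleton] at hT'
      rcases hT' with rfl | rfl | rfl | rfl <;> simp [vE, hE]
  simp only [inc]
  rw [← Finset.sum_filter, h1, Finset.sum_filter, hT, Finset.sum_insert, Finset.sum_insert,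
    Finset.sum_insert, Finset.sum_singleton]
  · simp only [bd_vE, bd_hE]
    by_cases a : ((x, y) : V) ∈ U <;> by_cases b : ((x - 1, y) : V) ∈ U <;>
      by_cases c : ((x, y - 1) : V) ∈ U <;> by_cases d : ((x - 1, y - 1) : V) ∈ U <;>
      simp [a, b, c, d] <;> decide
  all_goals
    simp only [Finset.mem_insert, Finset.mem_singleton, vE, hE, Sym2.eq_iff, Prod.mk.injEq]
    omega

lemma bd_odd {U : Finset V} {R : ℕ} (h0 : ((0, 0) : V) ∈ U) (hU : ∀ f ∈ U, f ∈ box 0 R) :
    ∑ e ∈ bdEdges U, hitE (0, 0) e = 1 := by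
  classical
  set I := (Finset.range (R + 1)).image fun x : ℕ => vE ((x : ℤ) + 1, 0) with hI
  have h1 : ∀ e ∈ bdEdges U, hitE (0, 0) e = if e ∈ I then 1 else 0 := by
    intro e he
    obtain ⟨f, g, hf, hg, hfU, hgU⟩ := mem_bdEdges.1 he
    obtain ⟨f1, f2⟩ := f
    have hb := hU _ hfU
    simp only [box, Set.mem_ofPred_eq, Prod.fst_zero, Prod.snd_zero, sub_zero, abs_le] at hb
    by_cases hmem : e ∈ I
    · rw [if_pos hmem]
      obtain ⟨x, -, rfl⟩ := Finset.mem_image.1 hmem
      rw [vE, hitE_mk, hit, if_pos]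
      dsimp only
      refine ⟨rfl, ?_, ?_, ?_⟩ <;> omega
    · rw [if_neg hmem]
      obtain ⟨a, b, hab, rfl⟩ := exists_adj_of_touch hf
      rw [hitE_mk, hit, if_neg]
      rintro ⟨e1, e2, e3, e4⟩
      obtain ⟨a1, a2⟩ := a
      obtain ⟨b1, b2⟩ := b
      have := adj_cases hab
      simp only [touch, vE, hE, Sym2.eq_iff, Prod.mk.injEq] at hf e1 e2 e3 e4 this
      refine hmem (Finset.mem_image.2 ⟨(a1 - 1).toNat, Finset.mem_range.2 (by omega), ?_⟩)
      simp only [vE, Sym2.eq_iff, Prod.mk.injEq]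
      omega
  rw [Finset.sum_congr rfl h1, Finset.sum_ite_mem, Finset.inter_comm, ← Finset.sum_ite_mem, hI,
    Finset.sum_image]
  · have step : ∀ x : ℕ, (if vE ((x : ℤ) + 1, 0) ∈ bdEdges U then (1 : ZMod 2) else 0) =
        faceInd U (((x + 1 : ℕ) : ℤ), 0) - faceInd U ((x : ℤ), 0) := fun x => by
      simp only [mem_bdEdges, bd_vE, add_sub_cancel_right, faceInd, Nat.cast_add, Nat.cast_one]
      split_ifs <;> first | decide | tauto
    simp only [step]
    rw [Finset.sum_range_sub (fun x : ℕ => faceInd U ((x : ℤ), 0))]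
    have hout : (((R + 1 : ℕ) : ℤ), (0 : ℤ)) ∉ U := fun h => by
      have := hU _ h
      simp only [box, Set.mem_ofPred_eq, Prod.fst_zero, Prod.snd_zero, sub_zero, abs_le] at this
      omega
    simp only [faceInd, Nat.cast_zero]
    rw [if_neg hout, if_pos h0]
    decide
  · intro a _ b _ h
    simp only [vE, Sym2.eq_iff, Prod.mk.injEq] at h
    omega

lemma bd_card {U : Finset V} {r : ℕ} (hB : sqFaces r ⊆ U) :
    (bdEdges U).card ≤ 4 * (2 * r + 2) + 4 * (U \ sqFaces r).card := by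
  classical
  set I := Finset.Icc (-(r : ℤ) - 1) r with hI
  set P : Finset (Sym2 V) := (I.image fun y => vE (-(r : ℤ) - 1, y)) ∪
    (I.image fun y => vE ((r : ℤ) + 1, y)) ∪ (I.image fun x => hE (x, -(r : ℤ) - 1)) ∪
    (I.image fun x => hE (x, (r : ℤ) + 1)) with hP
  have hsub : bdEdges U ⊆ P ∪ (U \ sqFaces r).biUnion faceEdges := by
    intro e he
    obtain ⟨f, g, hf, hg, hfU, hgU⟩ := mem_bdEdges.1 he
    by_cases hfB : f ∈ sqFaces r
    swap
    · exact Finset.mem_union_right _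
        (Finset.mem_biUnion.2 ⟨f, Finset.mem_sdiff.2 ⟨hfU, hfB⟩, mem_faceEdges.2 hf⟩)
    refine Finset.mem_union_left _ ?_
    have hgB : g ∉ sqFaces r := fun h => hgU (hB h)
    obtain ⟨f1, f2⟩ := f
    obtain ⟨g1, g2⟩ := g
    simp only [sqFaces, Finset.mem_product, Finset.mem_Icc] at hfB hgB
    simp only [hP, hI, Finset.mem_union, Finset.mem_image, Finset.mem_Icc]
    rcases hf with rfl | rfl | rfl | rfl
    · simp only [touch_vE, Prod.mk.injEq] at hg
      exact Or.inl (Or.inl (Or.inl ⟨f2, hfB.2, by rw [show f1 = -(r : ℤ) - 1 by omega]⟩))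
    · simp only [touch_vE, Prod.mk.injEq] at hg
      exact Or.inl (Or.inl (Or.inr ⟨f2, hfB.2, by rw [show f1 = (r : ℤ) by omega]⟩))
    · simp only [touch_hE, Prod.mk.injEq] at hg
      exact Or.inl (Or.inr ⟨f1, hfB.1, by rw [show f2 = -(r : ℤ) - 1 by omega]⟩)
    · simp only [touch_hE, Prod.mk.injEq] at hg
      exact Or.inr ⟨f1, hfB.1, by rw [show f2 = (r : ℤ) by omega]⟩
  refine (Finset.card_le_card hsub).trans ((Finset.card_union_le _ _).trans (add_le_add ?_ ?_))
  · have hIc : I.card = 2 * r + 2 := by rw [hI, Int.card_Icc]; omega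
    have im : ∀ φ : ℤ → Sym2 V, (I.image φ).card ≤ 2 * r + 2 := fun φ =>
      Finset.card_image_le.trans hIc.le
    rw [hP]
    refine ((Finset.card_union_le _ _).trans (add_le_add ((Finset.card_union_le _ _).trans
      (add_le_add ((Finset.card_union_le _ _).trans (add_le_add (im _) (im _))) (im _)))
      (im _))).trans ?_
    omega
  · refine Finset.card_biUnion_le.trans ?_
    rw [Finset.card_eq_sum_ones (U \ sqFaces r), Finset.mul_sum]
    refine Finset.sum_le_sum fun f _ => ?_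
    rw [mul_one]
    exact Finset.card_le_four

/-- A face set containing the square of radius `r ≥ n` is surrounded by a cycle of boundary edges. -/
theorem exists_ring_cycle {n r R : ℕ} (hnr : n ≤ r) {U : Finset V} (hB : sqFaces r ⊆ U)
    (hU : ∀ f ∈ U, f ∈ box 0 R ∧ (f.1 + 1, f.2 + 1) ∈ box 0 R) :
    ∃ C : Cyc, C.Encloses 0 n ∧ (∀ k < C.m, C.c k ∈ box 0 R) ∧
      (∀ k < C.m, Bd U s(C.c k, C.c (k + 1))) ∧
      C.m ≤ 4 * (2 * r + 2) + 4 * (U \ sqFaces r).card := by
  classical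
  have h0 : ((0, 0) : V) ∈ U := hB (by
    simp only [sqFaces, Finset.mem_product, Finset.mem_Icc]; omega)
  obtain ⟨C, hcol, hC⟩ := exists_cyc_around (0, 0) (bdEdges U)
    (fun e he => by
      obtain ⟨f, g, hf, -⟩ := mem_bdEdges.1 he
      exact exists_adj_of_touch hf)
    (bd_even U) (bd_odd h0 fun f hf => (hU f hf).1)
  have hbd : ∀ k < C.m, Bd U s(C.c k, C.c (k + 1)) := fun k hk => mem_bdEdges.1 (hC k hk)
  have hbox : ∀ v : V, v ∈ box 0 R ↔ -(R : ℤ) ≤ v.1 ∧ v.1 ≤ R ∧ -(R : ℤ) ≤ v.2 ∧ v.2 ≤ R := by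
    intro v
    simp only [box, Set.mem_ofPred_eq, Prod.fst_zero, Prod.snd_zero, sub_zero, abs_le]
    tauto
  have hend : ∀ e, Bd U e → ∀ v ∈ e, v ∈ box 0 R ∧ v ∉ box 0 n := by
    rintro e ⟨f, g, hf, hg, hfU, hgU⟩ v hv
    have af := around_of_touch hf hv
    have ag := around_of_touch hg hv
    obtain ⟨hf1, hf2⟩ := hU f hfU
    rw [hbox] at hf1 hf2
    simp only [around] at af ag
    simp only at hf2
    refine ⟨(hbox v).2 (by omega), fun hvn => hgU (hB ?_)⟩
    simp only [box, Set.mem_ofPred_eq, Prod.fst_zero, Prod.snd_zero, sub_zero, abs_le] at hvn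
    simp only [sqFaces, Finset.mem_product, Finset.mem_Icc]
    omega
  have hpar : ∀ e v, v ∈ e → v ∈ box 0 n → par C.c C.m e = 0 := fun e v hv hvn => by
    refine par_eq_zero ?_
    rintro ⟨k, hk, rfl⟩
    exact (hend _ (hbd k hk) v hv).2 hvn
  have hn : ∀ a b : ℤ, ((a, b) : V) ∈ box 0 n ↔ -(n : ℤ) ≤ a ∧ a ≤ n ∧ -(n : ℤ) ≤ b ∧ b ≤ n := by
    intro a b
    simp only [box, Set.mem_ofPred_eq, Prod.fst_zero, Prod.snd_zero, sub_zero, abs_le]
    tauto
  have hx : ∀ y : ℤ, -(n : ℤ) ≤ y → y ≤ n → ∀ x x' : ℤ, -(n : ℤ) - 1 ≤ x → x ≤ n →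
      -(n : ℤ) - 1 ≤ x' → x' ≤ n → col C.c C.m (x, y) = col C.c C.m (x', y) := by
    intro y hy hy' x x' h1 h2 h3 h4
    refine const_between (fun x => col C.c C.m (x, y)) (fun z hz hz' => ?_) h1 h2 h3 h4
    have := col_cross_v C.path z y
    rw [hpar (vE (z, y)) (z, y) (by simp [vE]) ((hn z y).2 (by omega))] at this
    exact CharTwo.add_eq_zero.1 this
  have hy : ∀ y y' : ℤ, -(n : ℤ) - 1 ≤ y → y ≤ n → -(n : ℤ) - 1 ≤ y' → y' ≤ n →
      col C.c C.m (0, y) = col C.c C.m (0, y') := by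
    intro y y' h1 h2 h3 h4
    refine const_between (fun y => col C.c C.m (0, y)) (fun z hz hz' => ?_) h1 h2 h3 h4
    have := col_cross_h C.path C.closed 0 z
    rw [hpar (hE (0, z)) (0, z) (by simp [hE]) ((hn 0 z).2 (by omega))] at this
    exact CharTwo.add_eq_zero.1 this
  refine ⟨C, ⟨fun k hk => (hend _ (hbd k hk) _ (Sym2.mem_mk_left _ _)).2, ?_⟩,
    fun k hk => (hend _ (hbd k hk) _ (Sym2.mem_mk_left _ _)).1, hbd, ?_⟩
  · rintro ⟨f1, f2⟩ hf hf'
    rw [hn] at hf hf'
    show col C.c C.m (f1, f2) = 1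
    rw [hx f2 (by omega) (by omega) f1 0 (by omega) (by omega) (by omega) (by omega),
      hy f2 0 (by omega) (by omega) (by omega) (by omega), hcol]
  · refine le_trans ?_ (bd_card hB)
    refine le_of_eq_of_le (Finset.card_range C.m).symm
      (Finset.card_le_card_of_injOn (fun k => s(C.c k, C.c (k + 1)))
        (fun k hk => hC k (Finset.mem_range.1 hk)) fun a ha b hb h => ?_)
    exact C.edge_inj (Finset.mem_range.1 (Finset.mem_coe.1 ha))
      (Finset.mem_range.1 (Finset.mem_coe.1 hb)) h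

end Vale.Agent.P158.NB
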