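import Vale.Agent.P158.NB.Marks
import Vale.Agent.P158.NB.Cycle
import Vale.Agent.P158.NB.Prob

/-!
# P158: separation of the marks of different lines, and the deterministic core of the tilt argument
-/

namespace Vale.Agent.P158.NB

open Vale.Agent.P158 Filter Topology

lemma geoEx_of_ok {t : Conf} (ht : OK t) : GeoEx t := fun x y => by
  obtain ⟨v, L, g⟩ := exists_geoIn ht (reach_univ x y)
  obtain ⟨h, -, h0, hL⟩ := geoIn_univ_iff.1 g
  exact ⟨v, L, h, h0, hL⟩

lemma Via.symm {t : Conf} {C : Cyc} {x : V} {i j : ℕ} (h : Via t C x i j) : Via t C x j i :=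
  fun w M hw => by
    have := h _ _ hw.reverse
    have e : cost t (Vale.Agent.P158.rev w M) M = cost t w M := by
      unfold cost Vale.Agent.P158.rev
      rw [← Finset.sum_range_reflect (fun k => t s(w k, w (k + 1))) M]
      refine Finset.sum_congr rfl fun k hk => ?_
      have := Finset.mem_range.1 hk
      rw [show M - 1 - k + 1 = M - k by omega, show M - 1 - k = M - (k + 1) by omega, Sym2.eq_swap]
    rw [e] at this
    linarith

/-- A witness in a finite set for arbitrarily large parameters. -/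
lemma exists_cofinal {α : Type*} (W : Finset α) {P : α → ℕ → Prop}
    (hP : ∀ x n n', n ≤ n' → P x n' → P x n) (h : ∀ n, ∃ x ∈ W, P x n) :
    ∃ x ∈ W, ∀ n, P x n := by
  by_contra hne
  push Not at hne
  choose f hf using hne
  classical
  obtain ⟨x, hx, hPx⟩ := h (W.attach.sup fun x => f x.1 x.2)
  exact hf x hx (hP x _ _ (Finset.le_sup (f := fun x : {x // x ∈ W} => f x.1 x.2)
    (Finset.mem_attach W ⟨x, hx⟩)) hPx)

/-- Far marks of `γ` see a vertex of `W` on the best path between them. -/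
def ViaAll (t : Conf) (W : Finset V) (γ : ℤ → V) : Prop :=
  ∃ N₀, ∀ C : Cyc, C.Encloses 0 N₀ → ∀ i h j l, Hit C γ 0 i h → Hit C (rev γ) 0 j l →
    ∃ x ∈ W, Via t C x i j

lemma ViaAll.rev {t : Conf} {W : Finset V} {γ : ℤ → V} (h : ViaAll t W γ) :
    ViaAll t W (NB.rev γ) := by
  obtain ⟨N₀, h⟩ := h
  refine ⟨N₀, fun C hC i a j b hi hj => ?_⟩
  rw [rev_rev_line] at hj
  obtain ⟨x, hx, hv⟩ := h C hC j b i a hj hi
  exact ⟨x, hx, hv.symm⟩

section

variable {t s : Conf} (ht : OK t) (hs : OK s) (F : Finset (Sym2 V)) (hle : ∀ e, t e ≤ s e)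
  (heq : ∀ e, e ∉ F → t e = s e)
  (hJt : ∀ γ δ, IsLine t γ → IsLine t δ → ShareTail γ δ → SameLine γ δ)
  (hJs : ∀ γ δ, IsLine s γ → IsLine s δ → ShareTail γ δ → SameLine γ δ)
  (hCs : ∀ γ, IsLine s γ → ∀ x, Joins s γ x) (hF : ∀ C, CycFacts C)

include hs hJs hCs in
/-- Marks of different lines are eventually different. -/
lemma marks_ne {a b : ℤ → V} (ha : IsLine s a) (hb : IsLine s b) (hab : ¬ SameLine a b) :
    ∃ N, ∀ C : Cyc, C.Encloses 0 N → ∀ i h j l, Hit C a 0 i h → Hit C b 0 j l → i ≠ j := by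
  by_contra hne
  push Not at hne
  obtain ⟨R⟩ := exists_ray hs.pos hs.pos (geoEx_of_ok hs) (geoEx_of_ok hs) ∅ (fun _ => le_rfl)
    (fun _ _ => rfl) ha (hCs a ha) 0 (b 0)
  refine hab (hJs a b ha hb ⟨R.K, (R.L : ℤ), fun k => ?_⟩)
  obtain ⟨r₁, h₁⟩ := box_int_range a 0 (R.K + k)
  obtain ⟨C, hC, i, h, j, l, hi, hj, hij⟩ := hne r₁
  have hh : R.K + k < h := hit_far hi hC h₁
  have := R.le
  set A := R.L + (h - R.K).toNat with hA
  have hpA : R.p A = a h := by rw [hA, R.tail]; congr 1; omega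
  have hl0 := hj.le
  have hbl : b l = a h := by rw [hj.eq, ← hij, ← hi.eq]
  have hgeoB := hb.geo 0 l.toNat
  have hB : b (0 + ((0 : ℕ) : ℤ)) = b 0 := by simp
  have hB' : b (0 + (l.toNat : ℤ)) = a h := by
    rw [← hbl]
    exact congrArg b (by omega)
  have hcost : cost s R.p A = cost s (fun k : ℕ => b (0 + k)) l.toNat := by
    rw [← Tf_geo hs.pos hgeoB]
    rw [hB, hB', hA, R.opt]
    congr 2
    omega
  have hpathR : IsPath R.p A := fun k _ => R.adj k
  have hgeoR : IsGeo s R.p A := by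
    refine ⟨hpathR, fun w M hw h0 hM => ?_⟩
    rw [hcost]
    exact hgeoB.2 w M hw (by beta_reduce; rw [hB, h0, R.start]) (by beta_reduce; rw [hB', hM, hpA])
  obtain ⟨-, hk⟩ := hs.uniq R.p (fun k : ℕ => b (0 + k)) A l.toNat hpathR hgeoB.1
    (isGeo_injOn hs.pos hgeoR) (isGeo_injOn hs.pos hgeoB) (by rw [hB, R.start])
    (by rw [hB', hpA]) hcost
  have := hk (R.L + k) (by omega)
  rw [R.tail] at this
  rw [this]
  congr 1
  push_cast
  ring

include ht hs hle heq hJt hJs hCs hF in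
/-- Geodesics between marks of different lines eventually avoid `F`. -/
lemma marks_avoid {a b : ℤ → V} (ha : IsLine s a) (hb : IsLine s b) (hab : ¬ SameLine a b)
    (hvia : ViaAll t (F.biUnion fun e => e.toFinset) a) :
    ∃ N, ∀ C : Cyc, C.Encloses 0 N → ∀ i h j l, Hit C a 0 i h → Hit C b 0 j l →
      ¬ C.Meets t (F : Set (Sym2 V)) i j := by
  classical
  by_contra hne
  push Not at hne
  set W := F.biUnion (fun e => e.toFinset) with hW
  obtain ⟨N₀, hvia⟩ := hvia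
  obtain ⟨x, -, hx⟩ := exists_cofinal W (P := fun x n => ∃ C : Cyc, C.Encloses 0 n ∧
      ∃ i h j l, Hit C a 0 i h ∧ Hit C b 0 j l ∧ Via t C x i j)
    (fun x n n' hn ⟨C, hC, h⟩ => ⟨C, Encloses.mono hC hn, h⟩) fun n => by
      obtain ⟨C, hC, i, h, j, l, hi, hj, hm⟩ := hne n
      obtain ⟨x, hx, hv⟩ := via_of_meets ht.pos F hi.lt hj.lt hm
      exact ⟨x, hx, C, hC, i, h, j, l, hi, hj, hv⟩
  obtain ⟨r, hr⟩ := box0_finite_bound {a 0}
  have h0 : a 0 ∈ box 0 r := hr _ (by simp)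
  obtain ⟨y, -, hy⟩ := exists_cofinal W (P := fun x n => ∃ C : Cyc, C.Encloses 0 n ∧
      ∃ i h j l, Hit C a 0 i h ∧ Hit C (rev a) 0 j l ∧ Via t C x i j)
    (fun x n n' hn ⟨C, hC, h⟩ => ⟨C, Encloses.mono hC hn, h⟩) fun n => by
      obtain ⟨C, hC, i, h, -, -, hi, -, -⟩ := hne (max (max n N₀) (r + 1))
      have hC' : C.Encloses 0 (r + 1) := Encloses.mono hC (le_max_right _ _)
      obtain ⟨j, l, hj⟩ := exists_hit (hF C) (isLine_rev ha) (m₀ := 0) hC'
        (by simpa [NB.rev] using h0)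
      obtain ⟨x, hx, hv⟩ := hvia C
        (Encloses.mono hC (le_trans (le_max_right _ _) (le_max_left _ _))) i h j l hi hj
      exact ⟨x, hx, C, Encloses.mono hC (le_trans (le_max_left _ _) (le_max_left _ _)),
        i, h, j, l, hi, hj, hv⟩
  have htx := geoEx_of_ok ht
  have hsx := geoEx_of_ok hs
  obtain ⟨R⟩ := exists_ray ht.pos hs.pos htx hsx F hle heq ha (hCs a ha) 0 x
  obtain ⟨S⟩ := exists_ray ht.pos hs.pos htx hsx F hle heq hb (hCs b hb) 0 x
  obtain ⟨R'⟩ := exists_ray ht.pos hs.pos htx hsx F hle heq ha (hCs a ha) 0 y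
  obtain ⟨S'⟩ := exists_ray ht.pos hs.pos htx hsx F hle heq (isLine_rev ha)
    (hCs _ (isLine_rev ha)) 0 y
  obtain ⟨hg, hga, hgb⟩ := line_of_via ht.pos hF R S hx
  obtain ⟨hη, hηa, hηa'⟩ := line_of_via ht.pos hF R' S' hy
  exact hab (tails_eq hJt hJs ha hb hg hη hga hgb hηa hηa')

end

end Vale.Agent.P158.NB
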