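import Vale.Agent.P158.NB.Conc

/-!
# P158: marks of lines on enclosing cycles, and geodesics between marks through a given vertex
-/

namespace Vale.Agent.P158.NB

open Vale.Agent.P158 Filter Topology

/-- The facts on cycles used below. -/
structure CycFacts (C : Cyc) : Prop where
  edge : ∀ k < C.m, s(C.c k, C.c (k + 1)) ∈ C.edges
  exit : ∀ (N : ℕ) (v : ℕ → V) (L : ℕ), C.Encloses 0 (N + 1) → IsPath v L → v 0 ∈ box 0 N →
    (∀ k < L, ∀ j < C.m, v k ≠ C.c j) → ∀ k < L, s(v k, v (k + 1)) ∈ C.edges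
  hit : ∀ (N : ℕ) (γ : ℤ → V) (m₀ : ℤ), C.Encloses 0 (N + 1) → Function.Injective γ →
    (∀ i, Adj (γ i) (γ (i + 1))) → γ m₀ ∈ box 0 N → ∃ h, m₀ ≤ h ∧ ∃ j < C.m, γ h = C.c j

/-- The mark `i` is where `γ` first meets the cycle after `m₀`. -/
structure Hit (C : Cyc) (γ : ℤ → V) (m₀ : ℤ) (i : ℕ) (h : ℤ) : Prop where
  le : m₀ ≤ h
  lt : i < C.m
  eq : γ h = C.c i
  first : ∀ k, m₀ ≤ k → k < h → ∀ j < C.m, γ k ≠ C.c j

lemma box_mono {z : V} {n n' : ℕ} (h : n ≤ n') : box z n ⊆ box z n' := fun v hv =>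
  ⟨hv.1.trans (by exact_mod_cast h), hv.2.trans (by exact_mod_cast h)⟩

lemma Encloses.mono {C : Cyc} {n n' : ℕ} (h : C.Encloses 0 n') (hle : n ≤ n') : C.Encloses 0 n :=
  ⟨fun k hk hm => h.1 k hk (box_mono hle hm),
    fun f h1 h2 => h.2 f (box_mono hle h1) (box_mono hle h2)⟩

lemma exists_hit {C : Cyc} (hF : CycFacts C) {t : Conf} {γ : ℤ → V} (hγ : IsLine t γ) {m₀ : ℤ}
    {N : ℕ} (hC : C.Encloses 0 (N + 1)) (h0 : γ m₀ ∈ box 0 N) : ∃ i h, Hit C γ m₀ i h := by
  classical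
  obtain ⟨h, hh, j, hj, hv⟩ := hF.hit N γ m₀ hC hγ.inj hγ.adj h0
  have hex : ∃ d : ℕ, ∃ j < C.m, γ (m₀ + d) = C.c j :=
    ⟨(h - m₀).toNat, j, hj, by rw [← hv]; congr 1; omega⟩
  obtain ⟨j, hj, hv⟩ := Nat.find_spec hex
  refine ⟨j, m₀ + (Nat.find hex : ℕ), by omega, hj, hv, fun k hk hk' i hi he => ?_⟩
  exact Nat.find_min hex (m := (k - m₀).toNat) (by omega)
    ⟨i, hi, by rw [← he]; congr 1; omega⟩

/-- The mark lies beyond any prescribed index once the cycle is far away. -/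
lemma hit_far {C : Cyc} {γ : ℤ → V} {m₀ : ℤ} {i : ℕ} {h : ℤ} (hh : Hit C γ m₀ i h) {N : ℕ}
    (hC : C.Encloses 0 N) {K : ℤ} (hK : ∀ k, m₀ ≤ k → k ≤ K → γ k ∈ box 0 N) : K < h := by
  by_contra hle
  have := hK h hh.le (not_lt.1 hle)
  rw [hh.eq] at this
  exact hC.1 i hh.lt this

lemma box_int_range (γ : ℤ → V) (a b : ℤ) : ∃ r : ℕ, ∀ k, a ≤ k → k ≤ b → γ k ∈ box 0 r := by
  classical
  obtain ⟨r, hr⟩ := box0_finite_bound ((Finset.Icc a b).image γ)
  exact ⟨r, fun k h1 h2 => hr _ (Finset.mem_image_of_mem γ (Finset.mem_Icc.2 ⟨h1, h2⟩))⟩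

/-- An infinite path from `x` ending along the tail of `γ`, geodesic between `x` and the tail. -/
structure Ray (t : Conf) (γ : ℤ → V) (m₀ : ℤ) (x : V) where
  p : ℕ → V
  L : ℕ
  K : ℤ
  le : m₀ ≤ K
  start : p 0 = x
  adj : ∀ k, Adj (p k) (p (k + 1))
  tail : ∀ j : ℕ, p (L + j) = γ (K + j)
  opt : ∀ j : ℕ, cost t p (L + j) = Tf t x (γ (K + j))

theorem exists_ray {t s : Conf} (htp : ∀ e, 0 < t e) (hsp : ∀ e, 0 < s e) (htx : GeoEx t)
    (hsx : GeoEx s) (F : Finset (Sym2 V)) (hle : ∀ e, t e ≤ s e)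
    (heq : ∀ e, e ∉ F → t e = s e) {γ : ℤ → V} (hγ : IsLine s γ)
    (hC : ∀ y, Joins s γ y) (m₀ : ℤ) (x : V) : Nonempty (Ray t γ m₀ x) := by
  obtain ⟨K₀, hK₀, hout⟩ := joins_lowered htp hsp htx hsx F hle heq hγ hC x
  have hKK : K₀ ≤ max m₀ K₀ := le_max_right _ _
  obtain ⟨v, L, hv, hv0, hvL⟩ := htx x (γ (max m₀ K₀))
  set K := max m₀ K₀ with hKdef
  set p : ℕ → V := fun k => if k ≤ L then v k else γ (K + (k - L : ℕ)) with hp
  have htail : ∀ j : ℕ, p (L + j) = γ (K + j) := fun j => by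
    simp only [hp]
    rcases Nat.eq_zero_or_pos j with rfl | hj
    · simp [hvL]
    · rw [if_neg (by omega)]
      simp
  refine ⟨⟨p, L, K, le_max_left _ _, by simp [hp, hv0], fun k => ?_, htail, fun j => ?_⟩⟩
  · rcases lt_or_ge k L with h | h
    · simp only [hp, if_pos h.le, if_pos (show k + 1 ≤ L by omega)]
      exact hv.1 k h
    · obtain ⟨j, rfl⟩ : ∃ j, k = L + j := ⟨k - L, by omega⟩
      rw [htail, show L + j + 1 = L + (j + 1) by ring, htail,
        show K + ((j + 1 : ℕ) : ℤ) = K + j + 1 by push_cast; ring]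
      exact hγ.adj _
  · have h1 : cost t p L = Tf t x (γ K) := by
      rw [← hv0, ← hvL, Tf_geo htp hv]
      refine Finset.sum_congr rfl fun k hk => ?_
      simp only [hp, if_pos (Finset.mem_range.1 hk).le,
        if_pos (show k + 1 ≤ L from Finset.mem_range.1 hk)]
    have h2 : cost t (fun i => p (L + i)) j = Tf s (γ K) (γ (K + j)) := by
      rw [line_Tf hsp hγ (by omega), show (K + (j : ℤ) - K).toNat = j by omega]
      refine Finset.sum_congr rfl fun i _ => ?_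
      simp only [htail]
      refine heq _ ?_
      rw [show K + ((i + 1 : ℕ) : ℤ) = K + i + 1 by push_cast; ring]
      exact hout _ (by omega)
    have h3 : Tf s (γ K₀) (γ (K + j)) = Tf s (γ K₀) (γ K) + Tf s (γ K) (γ (K + j)) :=
      line_Tf_add hsp hγ hKK (by omega)
    have h4 := hK₀ (K + j) (by omega)
    have h5 := hK₀ K hKK
    have hsplit : cost t p (L + j) = cost t p L + cost t (fun i => p (L + i)) j := by
      unfold cost
      rw [Finset.sum_range_add]
      simp [add_assoc]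
    linarith

/-- Everything on the ray before the mark of `γ` is inside. -/
lemma ray_inside {C : Cyc} (hF : CycFacts C) {t : Conf} {γ : ℤ → V} {m₀ : ℤ} {x : V}
    (R : Ray t γ m₀ x) {i : ℕ} {h : ℤ} (hh : Hit C γ m₀ i h) {N : ℕ} (hC : C.Encloses 0 (N + 1))
    (hN : ∀ k ≤ R.L, R.p k ∈ box 0 N) (hK : R.K < h) :
    R.p (R.L + (h - R.K).toNat) = C.c i ∧
      ∀ k < R.L + (h - R.K).toNat, s(R.p k, R.p (k + 1)) ∈ C.edges := by
  refine ⟨by rw [R.tail, ← hh.eq]; congr 1; omega, ?_⟩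
  refine hF.exit N R.p _ hC (fun k _ => R.adj k) (hN 0 (Nat.zero_le _)) fun k hk j hj he => ?_
  rcases le_or_gt k R.L with h' | h'
  · exact hC.1 j hj (box_mono (Nat.le_succ N) (he ▸ hN k h'))
  · obtain ⟨l, rfl⟩ : ∃ l, k = R.L + l := ⟨k - R.L, by omega⟩
    rw [R.tail] at he
    have := R.le
    exact hh.first _ (by omega) (by omega) j hj he

/-- Some optimal path between the marks passes through `x`. -/
def Via (t : Conf) (C : Cyc) (x : V) (i j : ℕ) : Prop :=
  ∀ w M, PathIn C.edges (C.c i) (C.c j) w M → Tf t x (C.c i) + Tf t x (C.c j) ≤ cost t w M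

/-- If this happens for arbitrarily distant cycles then the two rays form a line. -/
theorem line_of_via {t : Conf} (htp : ∀ e, 0 < t e) (hFacts : ∀ C, CycFacts C) {γ δ : ℤ → V}
    {mγ mδ : ℤ} {x : V}
    (R : Ray t γ mγ x) (S : Ray t δ mδ x)
    (hvia : ∀ N, ∃ C : Cyc, C.Encloses 0 N ∧ ∃ i h j l, Hit C γ mγ i h ∧ Hit C δ mδ j l ∧
      Via t C x i j) :
    IsLine t (gline R.p S.p) ∧ ShareTail (rev (gline R.p S.p)) γ ∧ ShareTail (gline R.p S.p) δ := by
  classical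
  have h0 : R.p 0 = S.p 0 := R.start.trans S.start.symm
  refine ⟨gline_isLine htp h0 R.adj S.adj fun r => ?_, ⟨R.L, R.K, fun k => ?_⟩,
    ⟨S.L, S.K, fun k => ?_⟩⟩
  · obtain ⟨r₁, h₁⟩ := box_int_range γ mγ (R.K + r)
    obtain ⟨r₂, h₂⟩ := box_int_range δ mδ (S.K + r)
    obtain ⟨r₃, h₃⟩ := box0_finite_bound
      (((Finset.range (R.L + 1)).image R.p) ∪ ((Finset.range (S.L + 1)).image S.p))
    set N := max (max r₁ r₂) (max r₃ r) with hN
    obtain ⟨C, hC, i, h, j, l, hi, hj, hv⟩ := hvia (N + 1)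
    have hC' := Encloses.mono hC (Nat.le_succ N)
    have hh : R.K + r < h := hit_far hi hC' fun k a b => box_mono (by omega) (h₁ k a b)
    have hl : S.K + r < l := hit_far hj hC' fun k a b => box_mono (by omega) (h₂ k a b)
    have hRN : ∀ k ≤ R.L, R.p k ∈ box 0 N := fun k hk => box_mono (by omega) (h₃ _
      (Finset.mem_union_left _ (Finset.mem_image_of_mem _ (Finset.mem_range.2 (by omega)))))
    have hSN : ∀ k ≤ S.L, S.p k ∈ box 0 N := fun k hk => box_mono (by omega) (h₃ _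
      (Finset.mem_union_right _ (Finset.mem_image_of_mem _ (Finset.mem_range.2 (by omega)))))
    obtain ⟨hRe, hRK⟩ := ray_inside (hFacts C) R hi hC hRN (by omega)
    obtain ⟨hSe, hSK⟩ := ray_inside (hFacts C) S hj hC hSN (by omega)
    refine ⟨_, _, C.edges, ?_, ?_, fun e he hed => ?_, hRK, hSK, fun w M hw => ?_⟩
    · omega
    · omega
    · obtain ⟨a, b, hab, rfl⟩ := hed
      have hab' : a ∈ box 0 r ∧ b ∈ box 0 r := ⟨he a (by simp), he b (by simp)⟩
      have := (hFacts C).exit N (fun k => if k = 0 then a else b) 1 hC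
        (fun k hk => by interval_cases k; simpa using hab)
        (box_mono (show r ≤ N by omega) (by simpa using hab'.1))
        (fun k hk j' hj' he' => hC.1 j' hj' (by
          interval_cases k
          simp only [if_true] at he'
          exact box_mono (show r ≤ N + 1 by omega) (he' ▸ hab'.1))) 0 (by omega)
      simpa using this
    · rw [hRe, hSe] at hw
      rw [R.opt, S.opt, ← R.tail, ← S.tail, hRe, hSe]
      exact hv w M hw
  · simp only [rev]
    rw [show -((R.L : ℤ) + k) = -((R.L + k : ℕ) : ℤ) by push_cast; ring, gline_neg h0, R.tail]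
  · rw [show (S.L : ℤ) + k = ((S.L + k : ℕ) : ℤ) by push_cast; ring, gline_nonneg, S.tail]

end Vale.Agent.P158.NB
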